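import Crest.Agent.N207.P.St

/-!
# Row 207, parabolic solver (helper11): chain rule for `κ • (w ∘ θ)` and elementary `Yb` calculus
-/

set_option autoImplicit false
set_option linter.unusedSectionVars false

open Set Filter
open scoped ContDiff Topology

noncomputable section

namespace Crest.Agent.N207.P

variable {n : ℕ} {V : Type*} [NormedAddCommGroup V] [NormedSpace ℝ V]

/-! ### partial derivatives -/

theorem pd_congr {f g : En n → V} {y : En n} (h : f =ᶠ[𝓝 y] g) (k : Fin n) :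
    pd k f y = pd k g y := by
  unfold pd; rw [h.fderiv_eq]

theorem pd_congr_ev {f g : En n → V} {y : En n} (h : f =ᶠ[𝓝 y] g) (k : Fin n) :
    pd k f =ᶠ[𝓝 y] pd k g :=
  h.eventuallyEq_nhds.mono fun _ hz => pd_congr hz k

theorem pd_add' {f g : En n → V} {y : En n} (hf : DifferentiableAt ℝ f y)
    (hg : DifferentiableAt ℝ g y) (k : Fin n) :
    pd k (fun z => f z + g z) y = pd k f y + pd k g y := by
  unfold pd; rw [fderiv_fun_add hf hg]; rfl

theorem pd_sub' {f g : En n → V} {y : En n} (hf : DifferentiableAt ℝ f y)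
    (hg : DifferentiableAt ℝ g y) (k : Fin n) :
    pd k (fun z => f z - g z) y = pd k f y - pd k g y := by
  unfold pd; rw [fderiv_fun_sub hf hg]; rfl

theorem pd_sum' {ι : Type*} (s : Finset ι) {f : ι → En n → V} {y : En n}
    (hf : ∀ i ∈ s, DifferentiableAt ℝ (f i) y) (k : Fin n) :
    pd k (fun z => ∑ i ∈ s, f i z) y = ∑ i ∈ s, pd k (f i) y := by
  unfold pd; rw [fderiv_fun_sum hf]; simp

theorem pd_const' (c : V) (y : En n) (k : Fin n) : pd k (fun _ => c) y = 0 := by
  simp [pd]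

theorem contDiffAt_pd {m m' : WithTop ℕ∞} {f : En n → V} {y : En n} (hf : ContDiffAt ℝ m' f y)
    (h : m + 1 ≤ m') (k : Fin n) : ContDiffAt ℝ m (pd k f) y :=
  (hf.fderiv_right h).clm_apply contDiffAt_const

theorem contDiff_pd {m m' : WithTop ℕ∞} {f : En n → V} (hf : ContDiff ℝ m' f)
    (h : m + 1 ≤ m') (k : Fin n) : ContDiff ℝ m (pd k f) :=
  contDiff_iff_contDiffAt.2 fun _ => contDiffAt_pd hf.contDiffAt h k

theorem contDiff_pd_top {f : En n → V} (hf : ContDiff ℝ ∞ f) (k : Fin n) :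
    ContDiff ℝ ∞ (pd k f) := contDiff_pd hf (by simp) k

theorem contDiffOn_pd_top {f : En n → V} {U : Set (En n)} (hU : IsOpen U)
    (hf : ContDiffOn ℝ ∞ f U) (k : Fin n) : ContDiffOn ℝ ∞ (pd k f) U := fun _ hy =>
  (contDiffAt_pd (hf.contDiffAt (hU.mem_nhds hy)) (by simp) k).contDiffWithinAt

theorem hcs_pd {f : En n → V} (hf : HasCompactSupport f) (k : Fin n) :
    HasCompactSupport (pd k f) :=
  (hf.fderiv (𝕜 := ℝ)).comp_left (g := fun L : En n →L[ℝ] V => L (EuclideanSpace.single k 1))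
    (by simp)

theorem clm_eq_sum (L : En n →L[ℝ] V) (v : En n) :
    L v = ∑ m, v m • L (EuclideanSpace.single m 1) := by
  conv_lhs => rw [← (EuclideanSpace.basisFun (Fin n) ℝ).sum_repr v]
  simp [map_sum]

theorem pd_symm {f : En n → V} {y : En n} (hf : ContDiffAt ℝ 2 f y) (k l : Fin n) :
    pd k (pd l f) y = pd l (pd k f) y := by
  have hd : DifferentiableAt ℝ (fderiv ℝ f) y :=
    (hf.fderiv_right (m := 1) (by norm_num)).differentiableAt (by simp)
  have key : ∀ i j : Fin n, pd i (pd j f) y = fderiv ℝ (fderiv ℝ f) y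
      (EuclideanSpace.single i 1) (EuclideanSpace.single j 1) := by
    intro i j
    unfold pd
    rw [fderiv_clm_apply hd (differentiableAt_const _)]
    simp
  rw [key, key]
  exact (hf.isSymmSndFDerivAt (by simp)) _ _

/-- the components of a map -/
def cp (θ : En n → En n) (m : Fin n) (y : En n) : ℝ := θ y m

theorem contDiffAt_cp {r : WithTop ℕ∞} {θ : En n → En n} {y : En n} (h : ContDiffAt ℝ r θ y)
    (m : Fin n) : ContDiffAt ℝ r (cp θ m) y :=
  ((EuclideanSpace.proj m : En n →L[ℝ] ℝ).contDiff.contDiffAt).comp y h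

theorem pd_cp {θ : En n → En n} {y : En n} (h : DifferentiableAt ℝ θ y) (k m : Fin n) :
    pd k (cp θ m) y = fderiv ℝ θ y (EuclideanSpace.single k 1) m := by
  have := ((EuclideanSpace.proj m : En n →L[ℝ] ℝ).hasFDerivAt.comp y h.hasFDerivAt).fderiv
  unfold pd
  have e : cp θ m = (EuclideanSpace.proj m : En n →L[ℝ] ℝ) ∘ θ := rfl
  rw [e, this]; rfl

theorem pd_smul_comp {κ : En n → ℝ} {θ : En n → En n} {g : En n → V} {y : En n}
    (hκ : DifferentiableAt ℝ κ y) (hθ : DifferentiableAt ℝ θ y)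
    (hg : DifferentiableAt ℝ g (θ y)) (k : Fin n) :
    pd k (fun z => κ z • g (θ z)) y =
      pd k κ y • g (θ y) + ∑ m, (κ y * pd k (cp θ m) y) • pd m g (θ y) := by
  have h1 := hg.hasFDerivAt.comp y hθ.hasFDerivAt
  have h2 := (hκ.hasFDerivAt.smul h1).fderiv
  have e : (fun z => κ z • g (θ z)) = κ • (g ∘ θ) := rfl
  simp only [pd_cp hθ]
  unfold pd
  rw [e, h2]
  simp only [add_apply, smul_apply,
    ContinuousLinearMap.smulRight_apply, ContinuousLinearMap.comp_apply, Function.comp]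
  rw [clm_eq_sum (fderiv ℝ g (θ y)), add_comm, Finset.smul_sum]
  simp only [mul_smul]

/-- the transported function -/
def z0 (κ : En n → ℝ) (θ : En n → En n) (w : En n → V) (y : En n) : V := κ y • w (θ y)

/-- its first derivatives -/
def z1 (κ : En n → ℝ) (θ : En n → En n) (w : En n → V) (y : En n) (k : Fin n) : V :=
  pd k κ y • w (θ y) + ∑ m, (κ y * pd k (cp θ m) y) • pd m w (θ y)

/-- the lower order part of its second derivatives -/
def z2 (κ : En n → ℝ) (θ : En n → En n) (w : En n → V) (y : En n) (k l : Fin n) : V :=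
  pd k (pd l κ) y • w (θ y) + ∑ m, (pd l κ y * pd k (cp θ m) y +
    pd k (fun z => κ z * pd l (cp θ m) z) y) • pd m w (θ y)

/-- the top order part of its second derivatives -/
def z3 (κ : En n → ℝ) (θ : En n → En n) (w : En n → V) (y : En n) (k l : Fin n) : V :=
  ∑ m, ∑ m', (κ y * pd l (cp θ m) y * pd k (cp θ m') y) • pd m' (pd m w) (θ y)

theorem pd_z0 {κ : En n → ℝ} {θ : En n → En n} {w : En n → V} {y : En n}
    (hκ : ContDiffAt ℝ 2 κ y) (hθ : ContDiffAt ℝ 2 θ y) (hw : ContDiffAt ℝ 2 w (θ y)) (k : Fin n) :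
    pd k (z0 κ θ w) y = z1 κ θ w y k :=
  pd_smul_comp (hκ.differentiableAt (by simp)) (hθ.differentiableAt (by simp))
    (hw.differentiableAt (by simp)) k

theorem pd_pd_z0 {κ : En n → ℝ} {θ : En n → En n} {w : En n → V} {y : En n}
    (hκ : ContDiffAt ℝ 2 κ y) (hθ : ContDiffAt ℝ 2 θ y) (hw : ContDiffAt ℝ 2 w (θ y))
    (k l : Fin n) : pd k (pd l (z0 κ θ w)) y = z2 κ θ w y k l + z3 κ θ w y k l := by
  have hev : pd l (z0 κ θ w) =ᶠ[𝓝 y] fun z => z1 κ θ w z l := by
    filter_upwards [hκ.eventually (by simp), hθ.eventually (by simp),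
      hθ.continuousAt.eventually (hw.eventually (by simp))] with z h1 h2 h3
    exact pd_z0 h1 h2 h3 l
  have dθ := hθ.differentiableAt (by simp)
  have d1κ : DifferentiableAt ℝ (pd l κ) y :=
    (contDiffAt_pd (m := 1) hκ (by norm_num) l).differentiableAt (by simp)
  have dc : ∀ m, DifferentiableAt ℝ (fun z => κ z * pd l (cp θ m) z) y := fun m =>
    (hκ.differentiableAt (by simp)).mul
      ((contDiffAt_pd (m := 1) (contDiffAt_cp hθ m) (by norm_num) l).differentiableAt (by simp))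
  have dw := hw.differentiableAt (by simp)
  have dw1 : ∀ m, DifferentiableAt ℝ (pd m w) (θ y) := fun m =>
    (contDiffAt_pd (m := 1) hw (by norm_num) m).differentiableAt (by simp)
  have e1 : DifferentiableAt ℝ (fun z => pd l κ z • w (θ z)) y := d1κ.smul (dw.comp y dθ)
  have e2 : ∀ m, DifferentiableAt ℝ (fun z => (κ z * pd l (cp θ m) z) • pd m w (θ z)) y :=
    fun m => (dc m).smul ((dw1 m).comp y dθ)
  rw [pd_congr hev]
  unfold z1
  rw [pd_add' e1 (DifferentiableAt.fun_sum fun m _ => e2 m),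
    pd_sum' _ (fun m _ => e2 m), pd_smul_comp d1κ dθ dw]
  simp only [pd_smul_comp (dc _) dθ (dw1 _)]
  unfold z2 z3
  simp only [add_smul, Finset.sum_add_distrib]
  abel

theorem contDiffAt_z0 {r : WithTop ℕ∞} {κ : En n → ℝ} {θ : En n → En n} {w : En n → V} {y : En n}
    (hκ : ContDiffAt ℝ r κ y) (hθ : ContDiffAt ℝ r θ y) (hw : ContDiffAt ℝ r w (θ y)) :
    ContDiffAt ℝ r (z0 κ θ w) y := hκ.smul (hw.comp y hθ)

/-! ### `Yb` calculus -/

section yb

variable {X : Type*} [TopologicalSpace X] {d : X → X → ℝ} {τ : ℝ}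
  {W : Type*} [NormedAddCommGroup W] [NormedSpace ℝ W]

theorem yb_mono {A c A' c' : ℝ} {f : ℝ → X → V} (h : Yb d τ A c f) (hA : A ≤ A') (hc : c ≤ c') :
    Yb d τ A' c' f :=
  ⟨h.cont, fun t ht x => (h.sup t ht x).trans hA, fun t ht x y =>
    (h.hol t ht x y).trans (mul_le_mul_of_nonneg_right hc (Real.sqrt_nonneg _))⟩

theorem yb_add {A c A' c' : ℝ} {f g : ℝ → X → V} (h : Yb d τ A c f) (h' : Yb d τ A' c' g) :
    Yb d τ (A + A') (c + c') (fun t x => f t x + g t x) := by
  refine ⟨h.cont.add h'.cont, fun t ht x => (norm_add_le _ _).trans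
    (add_le_add (h.sup t ht x) (h'.sup t ht x)), fun t ht x y => ?_⟩
  have e : f t x + g t x - (f t y + g t y) = (f t x - f t y) + (g t x - g t y) := by abel
  rw [e, add_mul]
  exact (norm_add_le _ _).trans (add_le_add (h.hol t ht x y) (h'.hol t ht x y))

theorem yb_zero : Yb d τ 0 0 (fun (_ : ℝ) (_ : X) => (0 : V)) :=
  ⟨continuousOn_const, fun _ _ _ => by simp, fun _ _ _ _ => by simp⟩

theorem yb_sum {ι : Type*} (s : Finset ι) {A c : ι → ℝ} {f : ι → ℝ → X → V}
    (h : ∀ i ∈ s, Yb d τ (A i) (c i) (f i)) :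
    Yb d τ (∑ i ∈ s, A i) (∑ i ∈ s, c i) (fun t x => ∑ i ∈ s, f i t x) := by
  classical
  induction s using Finset.induction_on with
  | empty => simpa using yb_zero
  | insert i s hi ih =>
    simp only [Finset.sum_insert hi]
    exact yb_add (h i (Finset.mem_insert_self _ _))
      (ih fun j hj => h j (Finset.mem_insert_of_mem hj))

theorem yb_prod {A c : ℝ} {f : ℝ → X → V} {g : ℝ → X → W} (h : Yb d τ A c f)
    (h' : Yb d τ A c g) : Yb d τ A c (fun t x => (f t x, g t x)) :=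
  ⟨h.cont.prodMk h'.cont, fun t ht x => by
    rw [Prod.norm_def]; exact max_le (h.sup t ht x) (h'.sup t ht x), fun t ht x y => by
    rw [Prod.norm_def]; exact max_le (h.hol t ht x y) (h'.hol t ht x y)⟩

theorem yb_pi {ι : Type*} [Fintype ι] {A c : ℝ} (hA : 0 ≤ A) (hc : 0 ≤ c) {f : ℝ → X → ι → V}
    (h : ∀ i, Yb d τ A c (fun t x => f t x i)) : Yb d τ A c f :=
  ⟨continuousOn_pi.2 fun i => (h i).cont, fun t ht x =>
    (pi_norm_le_iff_of_nonneg hA).2 fun i => (h i).sup t ht x, fun t ht x y =>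
    (pi_norm_le_iff_of_nonneg (mul_nonneg hc (Real.sqrt_nonneg _))).2 fun i =>
      (h i).hol t ht x y⟩

theorem yb_congr {A c : ℝ} {f g : ℝ → X → V} (h : Yb d τ A c f)
    (e : ∀ t ∈ Icc 0 τ, ∀ x, g t x = f t x) : Yb d τ A c g :=
  ⟨h.cont.congr fun p hp => e _ hp.1 _, fun t ht x => by rw [e t ht]; exact h.sup t ht x,
    fun t ht x y => by rw [e t ht, e t ht]; exact h.hol t ht x y⟩

end yb

theorem le_sqrt_of_min {x K L r : ℝ} (hK : 0 ≤ K) (hL : 0 ≤ L) (hr : 0 ≤ r) (h1 : x ≤ 2 * K)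
    (h2 : x ≤ L * r) : x ≤ (2 * K + L) * √r := by
  have hs := Real.sqrt_nonneg r
  rcases le_total r 1 with h | h
  · have : r ≤ √r := by
      rw [Real.le_sqrt hr hr]; nlinarith
    nlinarith
  · have : 1 ≤ √r := by rw [Real.one_le_sqrt]; exact h
    nlinarith

/-- a smooth compactly supported function is bounded and Hoelder -/
theorem hol_of_cs {W : Type*} [NormedAddCommGroup W] [NormedSpace ℝ W] {κ : En n → W}
    (hκ : ContDiff ℝ ∞ κ) (hc : HasCompactSupport κ) :
    ∃ K : ℝ, 0 < K ∧ (∀ y, ‖κ y‖ ≤ K) ∧ (∀ y y', ‖κ y - κ y'‖ ≤ K * √(dist y y')) ∧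
      ∀ y y', dist (κ y) (κ y') ≤ K * dist y y' := by
  obtain ⟨K0, hK0⟩ := hκ.continuous.bounded_above_of_compact_support hc
  obtain ⟨L, hL⟩ := hκ.lipschitzWith_of_hasCompactSupport hc (by simp)
  have h0 : 0 ≤ K0 := (norm_nonneg _).trans (hK0 0)
  have hL0 : (0 : ℝ) ≤ L := L.2
  refine ⟨2 * K0 + L + 1, by positivity, fun y => by linarith [hK0 y], fun y y' => ?_,
    fun y y' => ?_⟩
  · have h1 : ‖κ y - κ y'‖ ≤ 2 * K0 := (norm_sub_le _ _).trans (by linarith [hK0 y, hK0 y'])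
    have h2 : ‖κ y - κ y'‖ ≤ L * dist y y' := by
      rw [← dist_eq_norm]; exact hL.dist_le_mul y y'
    have := le_sqrt_of_min h0 hL0 dist_nonneg h1 h2
    exact this.trans (mul_le_mul_of_nonneg_right (by linarith) (Real.sqrt_nonneg _))
  · exact (hL.dist_le_mul y y').trans (mul_le_mul_of_nonneg_right (by linarith) dist_nonneg)

/-- transport of a `Yb` function -/
theorem yb_transfer {κ : En n → ℝ} {θ : En n → En n} (hκ : ContDiff ℝ ∞ κ)
    (hκc : HasCompactSupport κ) (hθ : ContDiff ℝ ∞ θ) (hθc : HasCompactSupport θ) :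
    ∃ C : ℝ, 0 < C ∧ ∀ (τ A c : ℝ) (g : ℝ → En n → V), 0 ≤ A → 0 ≤ c → Yb dist τ A c g →
      Yb dist τ (C * A) (C * (A + c)) (fun t y => κ y • g t (θ y)) := by
  obtain ⟨K, hK, hK1, hK2, -⟩ := hol_of_cs hκ hκc
  obtain ⟨L, hL, -, -, hL3⟩ := hol_of_cs hθ hθc
  refine ⟨K + K * √L, by positivity, fun τ A c g hA hc hg => ⟨?_, fun t ht y => ?_,
    fun t ht y y' => ?_⟩⟩
  · refine ((hκ.continuous.comp continuous_snd).continuousOn).smul ?_
    exact hg.cont.comp (f := fun p : ℝ × En n => (p.1, θ p.2))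
      (continuous_fst.prodMk (hθ.continuous.comp continuous_snd)).continuousOn
      fun p hp => ⟨hp.1, mem_univ _⟩
  · rw [norm_smul]
    have := mul_le_mul (hK1 y) (hg.sup t ht (θ y)) (norm_nonneg _) hK.le
    nlinarith [mul_nonneg (mul_nonneg hK.le (Real.sqrt_nonneg L)) hA]
  · have e : κ y • g t (θ y) - κ y' • g t (θ y') =
        (κ y - κ y') • g t (θ y) + κ y' • (g t (θ y) - g t (θ y')) := by
      rw [sub_smul, smul_sub]; abel
    rw [e]
    have h1 : ‖(κ y - κ y') • g t (θ y)‖ ≤ K * √(dist y y') * A := by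
      rw [norm_smul]
      exact mul_le_mul (hK2 y y') (hg.sup t ht _) (norm_nonneg _) (by positivity)
    have h3 : √(dist (θ y) (θ y')) ≤ √L * √(dist y y') := by
      rw [← Real.sqrt_mul hL.le]; exact Real.sqrt_le_sqrt (hL3 y y')
    have h2 : ‖κ y' • (g t (θ y) - g t (θ y'))‖ ≤ K * (c * (√L * √(dist y y'))) := by
      rw [norm_smul]
      exact mul_le_mul (hK1 y') ((hg.hol t ht _ _).trans (mul_le_mul_of_nonneg_left h3 hc))
        (norm_nonneg _) hK.le
    have hs := Real.sqrt_nonneg (dist y y')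
    have hsL := Real.sqrt_nonneg L
    refine (norm_add_le _ _).trans ((add_le_add h1 h2).trans ?_)
    have : 0 ≤ K * √L * A * √(dist y y') + K * c * √(dist y y') := by positivity
    nlinarith

end Crest.Agent.N207.P
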