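import Crest.Agent.N207.P.H0

/-!
# Row 207, parabolic solver (helper11): local classes and the statements on a manifold

* `Yl I U m f` : the spatial jets of `f` up to order `m` are jointly continuous on `I × U`, the top
  ones are locally `1/2`-Hoelder in space, uniformly in `t ∈ I`;
* `RegStmt` : (REG) local smoothness up to the initial time;
* `QLOp` : an operator on functions `M → V` which is quasilinear parabolic in every chart;
* `QLStmt`, `LinStmt` : short time existence, existence for linear operators.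
-/

set_option autoImplicit false

open Set
open scoped ContDiff Manifold

noncomputable section

namespace Crest.Agent.N207.P

section loc

variable {n : ℕ} {V : Type*} [NormedAddCommGroup V] [NormedSpace ℝ V]

/-- the first partial derivatives -/
def d1 (u : En n → V) (y : En n) : Fin n → V := fun k => pd k u y

/-- local Hoelder classes -/
def Yl (I : Set ℝ) (U : Set (En n)) : ℕ → (ℝ → En n → V) → Prop
  | 0, f => ContinuousOn (fun q : ℝ × En n => f q.1 q.2) (I ×ˢ U) ∧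
      ∀ y0 ∈ U, ∃ r : ℝ, 0 < r ∧ ∃ K : ℝ, ∀ t ∈ I, ∀ y ∈ Metric.ball y0 r,
        ∀ y' ∈ Metric.ball y0 r, ‖f t y - f t y'‖ ≤ K * √(dist y y')
  | m + 1, f => ContinuousOn (fun q : ℝ × En n => f q.1 q.2) (I ×ˢ U) ∧
      (∀ t ∈ I, ∀ y ∈ U, DifferentiableAt ℝ (f t) y) ∧ ∀ k, Yl I U m (fun t => pd k (f t))

end loc

/-- (LREG): one more derivative for a linear equation -/
def LRegStmt (n : ℕ) (V : Type*) [NormedAddCommGroup V] [NormedSpace ℝ V] : Prop :=
  ∀ (a b : ℝ) (U : Set (En n)) (A : ℝ → En n → Matrix (Fin n) (Fin n) ℝ) (f u : ℝ → En n → V),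
    a < b → IsOpen U → (∀ k l, Yl (Icc a b) U 1 (fun t y => A t y k l)) →
    (∀ t ∈ Icc a b, ∀ y ∈ U, (A t y).PosDef) → Yl (Icc a b) U 1 f → Yl (Icc a b) U 2 u →
    ContDiffOn ℝ ∞ (u a) U →
    (∀ t ∈ Icc a b, ∀ y ∈ U,
      HasDerivWithinAt (fun s => u s y) (Lop (A t y) (u t) y + f t y) (Icc a b) t) →
    Yl (Icc a b) U 3 u

/-- (REG): a `C^(2,1/2)` solution of a quasilinear equation with smooth initial value is smooth up
to the initial time -/
def RegStmt (n : ℕ) (V : Type*) [NormedAddCommGroup V] [NormedSpace ℝ V] : Prop :=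
  ∀ (a b : ℝ) (U : Set (En n)) (O : Set (En n × V))
    (A : ℝ × En n × V → Matrix (Fin n) (Fin n) ℝ) (B : ℝ × (En n × V) × (Fin n → V) → V)
    (u : ℝ → En n → V), a < b → IsOpen U → IsOpen O →
    (∀ k l, ContDiffOn ℝ ∞ (fun q => A q k l) (Icc a b ×ˢ O)) →
    ContDiffOn ℝ ∞ B (Icc a b ×ˢ O ×ˢ univ) →
    (∀ t ∈ Icc a b, ∀ y ∈ U, (y, u t y) ∈ O) →
    (∀ t ∈ Icc a b, ∀ y ∈ U, (A (t, y, u t y)).PosDef) →
    Yl (Icc a b) U 2 u → ContDiffOn ℝ ∞ (u a) U →
    (∀ t ∈ Icc a b, ∀ y ∈ U, HasDerivWithinAt (fun s => u s y)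
      (Lop (A (t, y, u t y)) (u t) y + B (t, (y, u t y), d1 (u t) y)) (Icc a b) t) →
    ContDiffOn ℝ ∞ (fun q : ℝ × En n => u q.1 q.2) (Icc a b ×ˢ U)

section mfd

variable (n : ℕ) {M : Type*} [TopologicalSpace M] [ChartedSpace (En n) M]
  {V : Type*} [NormedAddCommGroup V] [NormedSpace ℝ V]

/-- a function read in the preferred chart at `x` -/
def rd (x : M) (u : M → V) (y : En n) : V := u ((chartAt (En n) x).symm y)

/-- jointly smooth on `I × M` -/
def SmV (u : ℝ → M → V) (I : Set ℝ) : Prop :=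
  ∀ x : M, ContDiffOn ℝ ∞ (fun q : ℝ × En n => rd n x (u q.1) q.2)
    (I ×ˢ (chartAt (En n) x).target)

/-- the admissible values read in the chart at `x` -/
def domO (O : Set (M × V)) (x : M) : Set (En n × V) :=
  {q | q.1 ∈ (chartAt (En n) x).target ∧ ((chartAt (En n) x).symm q.1, q.2) ∈ O}

/-- `Op t` is a quasilinear parabolic operator for `t ∈ I`, on functions with graph in `O` -/
structure QLOp (I : Set ℝ) (O : Set (M × V)) (Op : ℝ → (M → V) → M → V) where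
  a : M → ℝ × En n × V → Matrix (Fin n) (Fin n) ℝ
  b : M → ℝ × (En n × V) × (Fin n → V) → V
  sa : ∀ x k l, ContDiffOn ℝ ∞ (fun q => a x q k l) (I ×ˢ domO n O x)
  sb : ∀ x, ContDiffOn ℝ ∞ (b x) (I ×ˢ domO n O x ×ˢ univ)
  pos : ∀ x, ∀ t ∈ I, ∀ q ∈ domO n O x, (a x (t, q)).PosDef
  rep : ∀ x, ∀ t ∈ I, ∀ y ∈ (chartAt (En n) x).target, ∀ (u : M → V) (W : Set M), IsOpen W →
    (chartAt (En n) x).symm y ∈ W → ContMDiffOn 𝓘(ℝ, En n) 𝓘(ℝ, V) ∞ u W →
    (∀ p ∈ W, (p, u p) ∈ O) →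
    Op t u ((chartAt (En n) x).symm y) =
      Lop (a x (t, y, rd n x u y)) (rd n x u) y + b x (t, (y, rd n x u y), d1 (rd n x u) y)

/-- the operator is linear -/
structure QLOp.Lin {I : Set ℝ} {Op : ℝ → (M → V) → M → V} (Q : QLOp n I univ Op) : Prop where
  ha : ∀ x t y v, Q.a x (t, y, v) = Q.a x (t, y, 0)
  hb : ∀ x t y (c : ℝ) v v' p p', Q.b x (t, (y, c • v + v'), c • p + p') =
    c • Q.b x (t, (y, v), p) + Q.b x (t, (y, v'), p')

/-- `u` is a smooth solution of `∂ₜ u = Op t u + H t` on `[s, s'] × M` -/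
structure IsSol (O : Set (M × V)) (Op : ℝ → (M → V) → M → V) (H : ℝ → M → V) (s s' : ℝ)
    (u : ℝ → M → V) : Prop where
  sm : SmV n u (Icc s s')
  mem : ∀ t ∈ Icc s s', ∀ p, (p, u t p) ∈ O
  eqn : ∀ t ∈ Icc s s', ∀ p,
    HasDerivWithinAt (fun r => u r p) (Op t (u t) p + H t p) (Icc s s') t

end mfd

/-- (CORE): short time existence, uniform in the initial time and in a small forcing term -/
def CoreStmt (n : ℕ) (M : Type*) [TopologicalSpace M] [ChartedSpace (En n) M]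
    (V : Type*) [NormedAddCommGroup V] [NormedSpace ℝ V] : Prop :=
  ∀ (a b : ℝ) (O : Set (M × V)) (Op : ℝ → (M → V) → M → V) (_Q : QLOp n (Icc a b) O Op)
    (u0 : M → V) (s0 : ℝ), a < b → IsOpen O → ContMDiff 𝓘(ℝ, En n) 𝓘(ℝ, V) ∞ u0 →
    (∀ p, (p, u0 p) ∈ O) → s0 ∈ Icc a b →
    ∃ τ : ℝ, 0 < τ ∧ ∀ s s' : ℝ, a ≤ s → s < s' → s' ≤ b → |s - s0| ≤ τ → s' ≤ s + τ →
      ∀ H : ℝ → M → V, SmV n H (Icc a b) → ∃ c : ℝ, 0 < c ∧
        ∃ u : ℝ → M → V, u s = u0 ∧ IsSol n O Op (fun t p => c • H t p) s s' u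

/-- (QL): short time existence -/
def QLStmt (n : ℕ) (M : Type*) [TopologicalSpace M] [ChartedSpace (En n) M]
    (V : Type*) [NormedAddCommGroup V] [NormedSpace ℝ V] : Prop :=
  ∀ (a b : ℝ) (O : Set (M × V)) (Op : ℝ → (M → V) → M → V) (_Q : QLOp n (Icc a b) O Op)
    (u0 : M → V), a < b → IsOpen O → ContMDiff 𝓘(ℝ, En n) 𝓘(ℝ, V) ∞ u0 →
    (∀ p, (p, u0 p) ∈ O) →
    ∃ s' : ℝ, a < s' ∧ s' ≤ b ∧ ∃ u : ℝ → M → V, u a = u0 ∧ IsSol n O Op (fun _ _ => 0) a s' u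

/-- (LIN): linear equations with a forcing term are solvable on the whole interval -/
def LinStmt (n : ℕ) (M : Type*) [TopologicalSpace M] [ChartedSpace (En n) M]
    (V : Type*) [NormedAddCommGroup V] [NormedSpace ℝ V] : Prop :=
  ∀ (a b : ℝ) (Op : ℝ → (M → V) → M → V) (Q : QLOp n (Icc a b) univ Op) (u0 : M → V)
    (H : ℝ → M → V), a < b → Q.Lin → ContMDiff 𝓘(ℝ, En n) 𝓘(ℝ, V) ∞ u0 → SmV n H (Icc a b) →
    ∃ u : ℝ → M → V, u a = u0 ∧ IsSol n univ Op H a b u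

end Crest.Agent.N207.P
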