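import Crest.Agent.N207.P.Tr

/-!
# Row 207, parabolic solver (helper17): the abstract fixed point theorem `abs_fix : AbsStmt ..`
-/

set_option autoImplicit false
set_option linter.unusedSectionVars false
set_option linter.unusedVariables false

open Set Filter Topology

noncomputable section

namespace Crest.Agent.N207.P

variable {X : Type*} [TopologicalSpace X] {F Z : Type*} [NormedAddCommGroup F] [NormedSpace ℝ F]
  [NormedAddCommGroup Z] [NormedSpace ℝ Z] {d : X → X → ℝ} {τ ρ K : ℝ}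

theorem Nem.contY {H : ℝ → X → Z → F} (h : Nem d τ ρ K H) {η η' : ℝ} {z : ℝ → X → Z}
    (hz : Yb d τ η η' z) (hη : η ≤ ρ) :
    ContinuousOn (fun p : ℝ × X => H p.1 p.2 (z p.1 p.2)) (Icc 0 τ ×ˢ univ) :=
  h.cont.comp (f := fun p : ℝ × X => (p.1, p.2, z p.1 p.2))
    (continuousOn_fst.prodMk (continuousOn_snd.prodMk hz.cont))
    fun p hp => ⟨hp.1, mem_univ _, mem_closedBall_zero_iff.2 ((hz.sup _ hp.1 _).trans hη)⟩

theorem Nem.yb {H : ℝ → X → Z → F} (h : Nem d τ ρ K H) (hK : 0 ≤ K) {η : ℝ} {z : ℝ → X → Z}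
    (hz : Yb d τ η η z) (hη : η ≤ ρ) (hη1 : η ≤ 1) :
    Yb d τ K (2 * K) (fun t x => H t x (z t x)) := by
  refine ⟨h.contY hz hη, fun t ht x => h.sup t ht x _ ((hz.sup t ht x).trans hη),
    fun t ht x y => ?_⟩
  refine (h.lip t ht x y _ _ ((hz.sup t ht x).trans hη) ((hz.sup t ht y).trans hη)).trans ?_
  have h1 := hz.hol t ht x y
  have h2 := mul_le_mul_of_nonneg_right hη1 (Real.sqrt_nonneg (d x y))
  nlinarith

theorem Nem.yb_sub {H : ℝ → X → Z → F} (h : Nem d τ ρ K H) (hK : 0 ≤ K) {η0 η : ℝ}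
    {z z' : ℝ → X → Z} (hz : Yb d τ η0 η0 z) (hz' : Yb d τ η0 η0 z') (hη : η0 ≤ ρ) (hη1 : η0 ≤ 1)
    (hd : Yb d τ η η (fun t x => z t x - z' t x)) :
    Yb d τ (K * η) (4 * K * η) (fun t x => H t x (z t x) - H t x (z' t x)) := by
  refine ⟨(h.contY hz hη).sub (h.contY hz' hη), fun t ht x => ?_, fun t ht x y => ?_⟩
  · have h1 := h.sec t ht x x _ _ _ _ ((hz.sup t ht x).trans hη) ((hz'.sup t ht x).trans hη)
      ((hz.sup t ht x).trans hη) ((hz.sup t ht x).trans hη)
    simp only [sub_self, sub_zero, norm_zero, mul_zero, add_zero] at h1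
    exact h1.trans (mul_le_mul_of_nonneg_left (hd.sup t ht x) hK)
  · refine (h.sec t ht x y _ _ _ _ ((hz.sup t ht x).trans hη) ((hz'.sup t ht x).trans hη)
      ((hz.sup t ht y).trans hη) ((hz'.sup t ht y).trans hη)).trans ?_
    have hs := Real.sqrt_nonneg (d x y)
    have h1 := hz.hol t ht x y
    have h2 := hz'.hol t ht x y
    have h3 := hd.hol t ht x y
    have h4 := hd.sup t ht y
    have h5 := mul_le_mul_of_nonneg_right hη1 hs
    have h6 : (√(d x y) + ‖z t x - z t y‖ + ‖z' t x - z' t y‖) * ‖z t y - z' t y‖ ≤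
        (3 * √(d x y)) * η := mul_le_mul (by linarith) h4 (norm_nonneg _) (by positivity)
    rw [show 4 * K * η * √(d x y) = K * (η * √(d x y) + 3 * √(d x y) * η) by ring]
    exact mul_le_mul_of_nonneg_left (add_le_add h3 h6) hK

theorem smul_sub_le (a a' : ℝ) (v v' : F) : ‖a • v - a' • v'‖ ≤ |a| * ‖v - v'‖ + ‖a - a'‖ * ‖v'‖ := by
  rw [show a • v - a' • v' = a • (v - v') + (a - a') • v' by rw [smul_sub, sub_smul]; abel]
  refine (norm_add_le _ _).trans (le_of_eq ?_)
  rw [norm_smul, norm_smul, Real.norm_eq_abs]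

theorem ybA_smul {a a' b b' : ℝ} {α : ℝ → X → ℝ} {ξ : ℝ → X → F} (hα : Yb d τ a a' α)
    (hξ : Yb d τ b b' ξ) (ha' : 0 ≤ a') (hb' : 0 ≤ b') :
    Yb d τ (a * b) (a * b' + a' * b) (fun t x => α t x • ξ t x) := by
  refine ⟨hα.cont.smul hξ.cont, fun t ht x => ?_, fun t ht x y => (smul_sub_le _ _ _ _).trans ?_⟩
  · rw [norm_smul]
    exact mul_le_mul (hα.sup t ht x) (hξ.sup t ht x) (norm_nonneg _)
      ((norm_nonneg _).trans (hα.sup t ht x))
  · have hs := Real.sqrt_nonneg (d x y)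
    have h1 : |α t x| * ‖ξ t x - ξ t y‖ ≤ a * (b' * √(d x y)) :=
      mul_le_mul (hα.sup t ht x) (hξ.hol t ht x y) (norm_nonneg _)
        ((norm_nonneg _).trans (hα.sup t ht x))
    have h2 : ‖α t x - α t y‖ * ‖ξ t y‖ ≤ (a' * √(d x y)) * b :=
      mul_le_mul (hα.hol t ht x y) (hξ.sup t ht y) (norm_nonneg _) (by positivity)
    nlinarith

theorem yb_sum_smul {ι : Type*} [Fintype ι] {Ci : ι → ℝ} {a a' η b e : ℝ} {α : ι → ℝ → X → ℝ}
    {ξ : ι → ℝ → X → F} (hα : ∀ i, Yb d τ a a' (α i)) (hξ : ∀ i, Yb d τ η (Ci i * b + e) (ξ i))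
    (ha' : 0 ≤ a') (hb : 0 ≤ b) (he : 0 ≤ e)
    (hs : ∀ t ∈ Icc 0 τ, ∀ x, ∑ i, Ci i * |α i t x| ≤ 1 / 4) :
    Yb d τ (Fintype.card ι * (a * η)) (b / 4 + Fintype.card ι * (a * e + a' * η))
      (fun t x => ∑ i, α i t x • ξ i t x) := by
  refine ⟨continuousOn_finsetSum _ fun i _ => (hα i).cont.smul (hξ i).cont, fun t ht x => ?_,
    fun t ht x y => ?_⟩
  · refine (norm_sum_le_of_le (n := fun _ => a * η) _ fun i _ => ?_).trans (by simp)
    rw [norm_smul]
    exact mul_le_mul ((hα i).sup t ht x) ((hξ i).sup t ht x) (norm_nonneg _)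
      ((norm_nonneg _).trans ((hα i).sup t ht x))
  · have hq := Real.sqrt_nonneg (d x y)
    rw [← Finset.sum_sub_distrib]
    refine (norm_sum_le_of_le (n := fun i => Ci i * |α i t x| * (b * √(d x y)) +
      (a * e + a' * η) * √(d x y)) _ fun i _ => (smul_sub_le _ _ _ _).trans ?_).trans ?_
    · have h1 : |α i t x| * ‖ξ i t x - ξ i t y‖ ≤ |α i t x| * ((Ci i * b + e) * √(d x y)) :=
        mul_le_mul_of_nonneg_left ((hξ i).hol t ht x y) (abs_nonneg _)
      have h2 : ‖α i t x - α i t y‖ * ‖ξ i t y‖ ≤ (a' * √(d x y)) * η :=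
        mul_le_mul ((hα i).hol t ht x y) ((hξ i).sup t ht y) (norm_nonneg _) (by positivity)
      have h3 : |α i t x| * (e * √(d x y)) ≤ a * (e * √(d x y)) :=
        mul_le_mul_of_nonneg_right ((hα i).sup t ht x) (by positivity)
      nlinarith
    · rw [Finset.sum_add_distrib, ← Finset.sum_mul, Finset.sum_const, Finset.card_univ, nsmul_eq_mul]
      have := mul_le_mul_of_nonneg_right (hs t ht x) (show 0 ≤ b * √(d x y) by positivity)
      nlinarith

theorem ybA_sub {A c A' c' : ℝ} {f g : ℝ → X → F} (h : Yb d τ A c f) (h' : Yb d τ A' c' g) :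
    Yb d τ (A + A') (c + c') (f - g) := by
  refine ⟨h.cont.sub h'.cont, fun t ht x => (norm_sub_le _ _).trans
    (add_le_add (h.sup t ht x) (h'.sup t ht x)), fun t ht x y => ?_⟩
  simp only [Pi.sub_apply]
  rw [sub_sub_sub_comm, add_mul]
  exact (norm_sub_le _ _).trans (add_le_add (h.hol t ht x y) (h'.hol t ht x y))

/-- Banach's fixed point theorem for the predicate norms -/
theorem yb_fix [CompleteSpace F] {A c Λ : ℝ} (hA : 0 ≤ A) (hc : 0 ≤ c) (hΛ : 1 ≤ Λ)
    {Ψ : (ℝ → X → F) → ℝ → X → F} (h1 : ∀ f, Yb d τ A c f → Yb d τ A c (Ψ f))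
    (h2 : ∀ f g s, 0 ≤ s → Yb d τ A c f → Yb d τ A c g → Yb d τ (s / Λ) s (f - g) →
      Yb d τ (s / 2 / Λ) (s / 2) (Ψ f - Ψ g)) :
    ∃ f, Yb d τ A c f ∧ ∀ t ∈ Icc 0 τ, ∀ x, f t x = Ψ f t x := by
  have hΛ0 : 0 < Λ := by linarith
  let u : ℕ → ℝ → X → F := fun m => Ψ^[m] fun _ _ => 0
  have hu : ∀ m, u (m + 1) = Ψ (u m) := fun m => Function.iterate_succ_apply' _ _ _
  have hY : ∀ m, Yb d τ A c (u m) := fun m => by
    induction m with
    | zero => exact yb_mono yb_zero hA hc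
    | succ m ih => rw [hu]; exact h1 _ ih
  set s := 2 * (Λ * A + c) with hs
  have hs0 : 0 ≤ s := by positivity
  have hD : ∀ m, Yb d τ (s / 2 ^ m / Λ) (s / 2 ^ m) (u m - u (m + 1)) := fun m => by
    induction m with
    | zero =>
      refine yb_mono (ybA_sub (hY 0) (hY 1)) ?_ ?_
      · rw [pow_zero, div_one, le_div_iff₀ hΛ0]; nlinarith
      · rw [pow_zero, div_one]; nlinarith [mul_nonneg hΛ0.le hA]
    | succ m ih =>
      have := h2 _ _ _ (by positivity) (hY m) (hY (m + 1)) ih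
      rw [← hu, ← hu, div_div s, ← pow_succ] at this
      exact this
  have hd1 : ∀ t ∈ Icc 0 τ, ∀ x m, dist (u m t x) (u (m + 1) t x) ≤ 2 * s / 2 / 2 ^ m :=
    fun t ht x m => by
      rw [dist_eq_norm]
      refine ((hD m).sup t ht x).trans ?_
      rw [mul_div_cancel_left₀ _ two_ne_zero]
      exact div_le_self (by positivity) hΛ
  let f : ℝ → X → F := fun t x => limUnder atTop fun m => u m t x
  have hf : ∀ t ∈ Icc 0 τ, ∀ x, Tendsto (fun m => u m t x) atTop (𝓝 (f t x)) := fun t ht x =>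
    (cauchySeq_of_le_geometric_two (hd1 t ht x)).tendsto_limUnder
  have hr : ∀ t ∈ Icc 0 τ, ∀ x m, dist (u m t x) (f t x) ≤ 2 * s / 2 ^ m := fun t ht x m =>
    dist_le_of_le_geometric_two_of_tendsto (hd1 t ht x) (hf t ht x) m
  have hz : Tendsto (fun m : ℕ => 2 * s / 2 ^ m) atTop (𝓝 0) :=
    tendsto_const_nhds.div_atTop (tendsto_pow_atTop_atTop_of_one_lt one_lt_two)
  have hfc : ContinuousOn (fun p : ℝ × X => f p.1 p.2) (Icc 0 τ ×ˢ univ) := by
    refine TendstoUniformlyOn.continuousOn (F := fun m (p : ℝ × X) => u m p.1 p.2) (p := atTop) ?_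
      (Frequently.of_forall fun m => (hY m).cont)
    rw [Metric.tendstoUniformlyOn_iff]
    intro ε hε
    filter_upwards [hz.eventually (gt_mem_nhds hε)] with m hm p hp
    rw [dist_comm]
    exact (hr _ hp.1 _ m).trans_lt hm
  have hfY : Yb d τ A c f := ⟨hfc,
    fun t ht x => le_of_tendsto' (hf t ht x).norm fun m => (hY m).sup t ht x,
    fun t ht x y => le_of_tendsto' ((hf t ht x).sub (hf t ht y)).norm fun m => (hY m).hol t ht x y⟩
  have hE : ∀ m, Yb d τ (Λ * (2 * s / 2 ^ m) / Λ) (Λ * (2 * s / 2 ^ m)) (u m - f) := fun m => by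
    refine ⟨(hY m).cont.sub hfc, fun t ht x => ?_, fun t ht x y => ?_⟩
    · rw [mul_div_cancel_left₀ _ hΛ0.ne', Pi.sub_apply, Pi.sub_apply, ← dist_eq_norm]
      exact hr t ht x m
    · have h3 : ∀ k, dist (u k t x - u k t y) (u (k + 1) t x - u (k + 1) t y) ≤
          2 * s * √(d x y) / 2 / 2 ^ k := fun k => by
        have := (hD k).hol t ht x y
        simp only [Pi.sub_apply] at this
        rw [dist_eq_norm, sub_sub_sub_comm]
        exact this.trans (le_of_eq (by ring))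
      have h4 := dist_le_of_le_geometric_two_of_tendsto h3 ((hf t ht x).sub (hf t ht y)) m
      simp only [Pi.sub_apply]
      rw [dist_eq_norm, sub_sub_sub_comm] at h4
      refine h4.trans ?_
      have h5 : 0 ≤ 2 * s / 2 ^ m * √(d x y) := by positivity
      calc 2 * s * √(d x y) / 2 ^ m = 1 * (2 * s / 2 ^ m * √(d x y)) := by ring
        _ ≤ Λ * (2 * s / 2 ^ m * √(d x y)) := mul_le_mul_of_nonneg_right hΛ h5
        _ = _ := by ring
  refine ⟨f, hfY, fun t ht x => ?_⟩
  refine tendsto_nhds_unique ((hf t ht x).comp (tendsto_add_atTop_nat 1)) ?_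
  rw [tendsto_iff_norm_sub_tendsto_zero]
  refine squeeze_zero (fun _ => norm_nonneg _) (fun m => ?_) hz
  have := (h2 _ _ _ (by positivity) (hY m) hfY (hE m)).sup t ht x
  rw [← hu] at this
  refine this.trans ?_
  have h5 : 0 ≤ 2 * s / 2 ^ m := by positivity
  rw [div_right_comm, mul_div_cancel_left₀ _ hΛ0.ne']
  linarith

set_option maxHeartbeats 800000 in
theorem abs_fix (X : Type*) [TopologicalSpace X] (F Z : Type*) [NormedAddCommGroup F]
    [NormedSpace ℝ F] [CompleteSpace F] [NormedAddCommGroup Z] [NormedSpace ℝ Z] (ι : Type*)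
    [Fintype ι] : AbsStmt X F Z ι := by
  intro C K ρ hC hK hρ
  set N : ℝ := (Fintype.card ι : ℝ) with hN
  have hN0 : 0 ≤ N := Nat.cast_nonneg _
  set A0 := N * K + K + 1 with hA0
  set c0 := 2 * (N * (K * (C * A0 + 3)) + 2 * K + 1) with hc0
  set Λ := 8 * (N * K * C) + 1 with hΛ
  have pA : 0 < A0 := by positivity
  have pc : 0 < c0 := by positivity
  have pΛ : 1 ≤ Λ := by have : 0 ≤ N * K * C := by positivity
                        linarith
  set X1 := C * (A0 + c0) with hX1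
  set X2 := 4 * Λ * ((2 * N + 1) * K * C) with hX2
  set X3 := 16 * C * (K * (N * (C * c0 + C * A0 + 8) + 4)) with hX3
  have p1 : 0 < X1 := by positivity
  have p2 : 0 < X2 := by positivity
  have p3 : 0 < X3 := by positivity
  set θ0 := min (min (ρ / X1) (1 / X1)) (min (1 / X2) (1 / X3)) with hθ0
  have pθ : 0 < θ0 := by positivity
  refine ⟨min 1 (θ0 ^ 4), by positivity, min_le_left _ _, ?_⟩
  intro τ hτ d Ci ζ ξ α B h hCi hCi' hY hadd hα hB hh hsm
  set θ := τ ^ (1 / 4 : ℝ) with hθ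
  have hθp : 0 ≤ θ := Real.rpow_nonneg hτ.1.le _
  have hθle : θ ≤ θ0 := by
    have := Real.rpow_le_rpow hτ.1.le (hτ.2.trans (min_le_right _ _)) (by norm_num : (0 : ℝ) ≤ 1 / 4)
    rwa [← Real.rpow_natCast, ← Real.rpow_mul pθ.le, show ((4 : ℕ) : ℝ) * (1 / 4) = 1 by norm_num,
      Real.rpow_one] at this
  simp only [hθ0, le_min_iff] at hθle
  obtain ⟨⟨q1, q2⟩, q3, q4⟩ := hθle
  rw [le_div_iff₀ (by assumption)] at q1 q2 q3 q4
  have e1 : C * θ * (A0 + c0) = θ * X1 := by rw [hX1]; ring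
  set η0 := C * θ * (A0 + c0) with hη0
  have pη0 : 0 ≤ η0 := by positivity
  have r1 : η0 ≤ ρ := e1 ▸ q1
  have r2 : η0 ≤ 1 := e1 ▸ q2
  obtain ⟨f, hf, hfix⟩ := yb_fix (d := d) (τ := τ) pA.le pc.le pΛ
    (Ψ := fun f t x => ∑ i, α i t x (ζ f t x) • ξ i f t x + B t x (ζ f t x) + h t x)
    (fun f hf => by
      obtain ⟨hz, hx⟩ := hY _ _ f pA.le pc.le hf
      have y1 := yb_sum_smul (Ci := Ci) (b := c0) (e := C * A0 + η0)
        (fun i => (hα i).yb hK.le hz r1 r2) (fun i => by simpa only [add_assoc] using hx i)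
        (by positivity) pc.le (by positivity) fun t ht x => hsm t ht x _ ((hz.sup t ht x).trans r1)
      refine yb_mono (yb_add (yb_add y1 (hB.yb hK.le hz r1 r2)) hh) ?_ ?_
      · have := mul_le_mul_of_nonneg_left r2 (show 0 ≤ N * K by positivity)
        rw [← hN, hA0]; nlinarith
      · have := mul_le_mul_of_nonneg_left r2 (show 0 ≤ N * K by positivity)
        rw [← hN]; nlinarith)
    (fun f g s hs hf hg hfg => by
      have hΛ0 : 0 < Λ := by linarith
      obtain ⟨hz, hx⟩ := hY _ _ f pA.le pc.le hf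
      obtain ⟨hz', hx'⟩ := hY _ _ g pA.le pc.le hg
      obtain ⟨hzd, hxd⟩ := hY _ _ _ (by positivity) hs hfg
      set η := C * θ * (s / Λ + s) with hη
      have pη : 0 ≤ η := by positivity
      have r3 : η ≤ 2 * C * θ * s := by
        have := mul_le_mul_of_nonneg_left (div_le_self hs pΛ) (show 0 ≤ C * θ by positivity)
        rw [hη]; nlinarith
      have hzd' : Yb d τ η η (fun t x => ζ f t x - ζ g t x) :=
        yb_congr hzd fun t ht x => by rw [(hadd _ _ _ _ f g hf hg t ht).1]; rfl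
      have hxd' : ∀ i, Yb d τ η (Ci i * s + (C * (s / Λ) + η)) (fun t x => ξ i f t x - ξ i g t x) :=
        fun i => yb_congr (by simpa only [add_assoc] using hxd i) fun t ht x => by
          rw [(hadd _ _ _ _ f g hf hg t ht).2 i]; rfl
      have y1 := yb_sum_smul (fun i => (hα i).yb hK.le hz r1 r2) hxd'
        (by positivity) hs (by positivity) fun t ht x => hsm t ht x _ ((hz.sup t ht x).trans r1)
      have y2 := yb_sum (s := Finset.univ) fun i _ => ybA_smul ((hα i).yb_sub hK.le hz hz' r1 r2 hzd')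
        (yb_mono (hx' i) r2 (show _ ≤ C * c0 + C * A0 + 1 from by
          have := mul_le_mul_of_nonneg_right (hCi' i) pc.le
          linarith)) (by positivity) (by positivity)
      have y3 := hB.yb_sub hK.le hz hz' r1 r2 hzd'
      simp only [Finset.sum_const, Finset.card_univ, nsmul_eq_mul, ← hN] at y1 y2
      refine yb_congr (yb_mono (yb_add (yb_add y1 y2) y3) ?_ ?_) fun t ht x => ?_
      · rw [le_div_iff₀ hΛ0]
        have h1 := mul_le_mul_of_nonneg_left r3 (show 0 ≤ (2 * N + 1) * K * Λ by positivity)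
        have h2 := mul_le_mul_of_nonneg_right q3 hs
        rw [hX2] at h2
        have h3 : (N * (K * η) + N * (K * η * 1) + K * η) * Λ = (2 * N + 1) * K * Λ * η := by ring
        have h4 : (2 * N + 1) * K * Λ * (2 * C * θ * s) =
            θ * (4 * Λ * ((2 * N + 1) * K * C)) * s / 2 := by ring
        rw [h3]
        linarith
      · have h1 := mul_le_mul_of_nonneg_left r3
          (show 0 ≤ K * (N * (C * c0 + C * A0 + 8) + 4) by positivity)
        have h2 := mul_le_mul_of_nonneg_right q4 hs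
        rw [hX3] at h2
        have h3 : N * (K * (C * (s / Λ))) ≤ s / 8 := by
          rw [show N * (K * (C * (s / Λ))) = N * K * C * s / Λ by ring, div_le_iff₀ hΛ0, hΛ]
          nlinarith
        have h4 : s / 4 + N * (K * (C * (s / Λ) + η) + 2 * K * η) +
            N * (K * η * (C * c0 + C * A0 + 1) + 4 * K * η * 1) + 4 * K * η =
            s / 4 + N * (K * (C * (s / Λ))) + K * (N * (C * c0 + C * A0 + 8) + 4) * η := by ring
        have h5 : K * (N * (C * c0 + C * A0 + 8) + 4) * (2 * C * θ * s) =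
            θ * (16 * C * (K * (N * (C * c0 + C * A0 + 8) + 4))) * s / 8 := by ring
        rw [h4]
        linarith
      · simp only [Pi.sub_apply, smul_sub, sub_smul, Finset.sum_sub_distrib]
        abel)
  exact ⟨f, A0, c0, pA.le, pc.le, hf, r1, hfix⟩

end Crest.Agent.N207.P
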