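import Crest.Agent.N207.P.H4
import Crest.Agent.N207.P.Tr
import Crest.Agent.R281.YVSMax0_355

/-!
# Row 207, parabolic solver (helper17): uniqueness and `apr : AprStmt n F`
-/

set_option autoImplicit false
set_option linter.unusedSectionVars false

open Set Filter Topology

noncomputable section

namespace Crest.Agent.N207.P

variable {n : ℕ} {F : Type*} [NormedAddCommGroup F] [NormedSpace ℝ F]

theorem pd_pd_eq {f : En n → F} {y : En n} (hf : ContDiffAt ℝ 2 f y) (i j : Fin n) :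
    pd i (pd j f) y = fderiv ℝ (fderiv ℝ f) y (EuclideanSpace.single i 1)
      (EuclideanSpace.single j 1) := by
  have hd : DifferentiableAt ℝ (fderiv ℝ f) y :=
    (hf.fderiv_right (m := 1) (by norm_num)).differentiableAt (by simp)
  unfold pd
  rw [fderiv_clm_apply hd (differentiableAt_const _)]
  simp

theorem lop_nonpos {a : Matrix (Fin n) (Fin n) ℝ} (ha : a.PosSemidef) {u : En n → ℝ} {x : En n}
    (hu : ContDiffAt ℝ 2 u x) (h : IsLocalMax u x) : Lop a u x ≤ 0 := by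
  simp only [Lop, pd_pd_eq hu, smul_eq_mul]
  exact R281.YVSMax_355.trace_nonpos ha _ _ (R281.YVSMax_355.hess_nonpos hu h)

theorem lop_clm {G : Type*} [NormedAddCommGroup G] [NormedSpace ℝ G] (a : Matrix (Fin n) (Fin n) ℝ)
    (L : F →L[ℝ] G) {u : En n → F} (hu : ContDiff ℝ 2 u) (x : En n) :
    Lop a (fun y => L (u y)) x = L (Lop a u x) := by
  have h1 : ∀ {v : En n → F}, Differentiable ℝ v → ∀ k, pd k (fun y => L (v y)) = fun y => L (pd k v y) :=
    fun {v} hv k => funext fun y => by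
      unfold pd
      exact DFunLike.congr_fun (L.hasFDerivAt.comp y (hv y).hasFDerivAt).fderiv _
  simp only [Lop, map_sum, map_smul]
  refine Finset.sum_congr rfl fun k _ => Finset.sum_congr rfl fun l _ => ?_
  rw [h1 (hu.differentiable (by norm_num)),
    h1 ((contDiff_pd (m := 1) hu (by norm_num) l).differentiable (by norm_num))]

theorem lop_sub (a : Matrix (Fin n) (Fin n) ℝ) {u v : En n → F} (hu : ContDiff ℝ 2 u)
    (hv : ContDiff ℝ 2 v) (x : En n) : Lop a (fun y => u y - v y) x = Lop a u x - Lop a v x := by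
  simp only [Lop, ← Finset.sum_sub_distrib, ← smul_sub]
  refine Finset.sum_congr rfl fun k _ => Finset.sum_congr rfl fun l _ => ?_
  have e : pd l (fun y => u y - v y) = fun y => pd l u y - pd l v y := funext fun y =>
    pd_sub' (hu.differentiable (by norm_num) y) (hv.differentiable (by norm_num) y) l
  rw [e, pd_sub' ((contDiff_pd (m := 1) hu (by norm_num) l).differentiable (by norm_num) x)
    ((contDiff_pd (m := 1) hv (by norm_num) l).differentiable (by norm_num) x)]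

theorem lop_quad (a : Matrix (Fin n) (Fin n) ℝ) (ε c : ℝ) (x : En n) :
    Lop a (fun y : En n => ε * (‖y‖ ^ 2 + c)) x = ε * (2 * ∑ k, a k k) := by
  have h1 : ∀ l, pd l (fun y : En n => ε * (‖y‖ ^ 2 + c)) = fun y => ε * (2 * y l) := fun l => by
    funext y
    unfold pd
    refine (DFunLike.congr_fun ((((hasFDerivAt_id y).norm_sq).add_const c).const_mul ε).fderiv
      _).trans ?_
    simp [EuclideanSpace.inner_single_right]
  have h2 : ∀ k l, pd k (fun y : En n => ε * (2 * y l)) x = if k = l then ε * 2 else 0 := fun k l => by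
    unfold pd
    refine (DFunLike.congr_fun ((((EuclideanSpace.proj (𝕜 := ℝ) l).hasFDerivAt (x := x)).const_mul
      2).const_mul ε).fderiv _).trans ?_
    by_cases h : k = l
    · simp [h]
    · simp [h, Ne.symm h]
  simp only [Lop, h1, h2, smul_eq_mul, mul_ite, mul_zero, Finset.sum_ite_eq, Finset.mem_univ, if_true,
    Finset.mul_sum]
  exact Finset.sum_congr rfl fun k _ => by ring

theorem deriv_nonneg_of_max {φ : ℝ → ℝ} {τ t d : ℝ} (ht : t ∈ Ioc 0 τ)
    (h : HasDerivWithinAt φ d (Icc 0 τ) t) (hm : ∀ s ∈ Icc 0 τ, φ s ≤ φ t) : 0 ≤ d := by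
  have h1 : HasDerivWithinAt φ d (Ioo 0 t) t :=
    h.mono fun s hs => ⟨hs.1.le, hs.2.le.trans ht.2⟩
  rw [hasDerivWithinAt_iff_tendsto_slope' (by simp)] at h1
  have : (𝓝[Ioo 0 t] t).NeBot := by
    rw [nhdsWithin_Ioo_eq_nhdsLT ht.1]; infer_instance
  refine ge_of_tendsto h1 ?_
  filter_upwards [self_mem_nhdsWithin] with s hs
  rw [slope_def_field]
  exact div_nonneg_of_nonpos (sub_nonpos.2 (hm s ⟨hs.1.le, hs.2.le.trans ht.2⟩))
    (sub_nonpos.2 hs.2.le)

/-- weak maximum principle for bounded solutions on `ℝⁿ` -/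
theorem max_global {a : Matrix (Fin n) (Fin n) ℝ} (ha : a.PosSemidef) {τ B : ℝ}
    {u : ℝ → En n → ℝ} (hc : ContinuousOn (fun p : ℝ × En n => u p.1 p.2) (Icc 0 τ ×ˢ univ))
    (hB : ∀ t ∈ Icc 0 τ, ∀ x, u t x ≤ B) (h0 : ∀ x, u 0 x ≤ 0)
    (h2 : ∀ t ∈ Icc 0 τ, ContDiff ℝ 2 (u t))
    (he : ∀ t ∈ Icc 0 τ, ∀ x, HasDerivWithinAt (fun s => u s x) (Lop a (u t) x) (Icc 0 τ) t)
    {t0 : ℝ} (ht0 : t0 ∈ Icc 0 τ) (x0 : En n) : u t0 x0 ≤ 0 := by
  set K := |2 * ∑ k, a k k| + 1 with hK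
  have hK0 : 0 < K := by positivity
  have key : ∀ ε, 0 < ε → u t0 x0 ≤ ε * (‖x0‖ ^ 2 + K * t0) := by
    intro ε hε
    by_contra hcon
    push Not at hcon
    set φ : ℝ × En n → ℝ := fun p => u p.1 p.2 - ε * (‖p.2‖ ^ 2 + K * p.1) with hφ
    set R := ‖x0‖ + |B| / ε + 1 with hR
    have hR1 : 1 ≤ R := by have : 0 ≤ |B| / ε := by positivity
                           linarith [norm_nonneg x0]
    have hout : ∀ t ∈ Icc 0 τ, ∀ x : En n, R ≤ ‖x‖ → φ (t, x) ≤ 0 := fun t ht x hx => by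
      have h1 : |B| / ε ≤ ‖x‖ ^ 2 := by nlinarith [norm_nonneg x0]
      rw [div_le_iff₀ hε] at h1
      have h3 := mul_nonneg hε.le (mul_nonneg hK0.le ht.1)
      simp only [hφ]
      nlinarith [hB t ht x, le_abs_self B]
    have hφc : ContinuousOn φ (Icc 0 τ ×ˢ Metric.closedBall 0 R) :=
      (hc.mono (prod_mono_right (subset_univ _))).sub (by fun_prop)
    have hx0 : (t0, x0) ∈ Icc 0 τ ×ˢ Metric.closedBall (0 : En n) R :=
      ⟨ht0, by rw [mem_closedBall_zero_iff]; have : 0 ≤ |B| / ε := by positivity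
               linarith⟩
    obtain ⟨⟨t1, x1⟩, ⟨ht1, -⟩, hmax⟩ := (isCompact_Icc.prod (isCompact_closedBall 0 R)).exists_isMaxOn
      ⟨_, hx0⟩ hφc
    have hpos : 0 < φ (t1, x1) := lt_of_lt_of_le (by simp only [hφ]; linarith) (hmax hx0)
    have hall : ∀ t ∈ Icc 0 τ, ∀ x, φ (t, x) ≤ φ (t1, x1) := fun t ht x => by
      rcases le_total ‖x‖ R with h | h
      · exact hmax (show (t, x) ∈ _ from ⟨ht, mem_closedBall_zero_iff.2 h⟩)
      · exact (hout t ht x h).trans hpos.le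
    have ht1' : t1 ∈ Ioc 0 τ := by
      refine ⟨lt_of_le_of_ne ht1.1 ?_, ht1.2⟩
      rintro rfl
      have := h0 x1
      have h3 : 0 ≤ ε * ‖x1‖ ^ 2 := by positivity
      simp only [hφ] at hpos
      linarith
    have hq : ContDiff ℝ 2 fun y : En n => ε * (‖y‖ ^ 2 + K * t1) :=
      contDiff_const.mul ((contDiff_norm_sq ℝ).add contDiff_const)
    have h3 := lop_nonpos ha (u := fun y => u t1 y - ε * (‖y‖ ^ 2 + K * t1)) (x := x1)
      ((h2 t1 ht1).sub hq).contDiffAt (Eventually.of_forall fun x => hall t1 ht1 x)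
    rw [lop_sub a (h2 t1 ht1) hq, lop_quad] at h3
    have h4 : HasDerivWithinAt (fun s => φ (s, x1)) (Lop a (u t1) x1 - ε * K) (Icc 0 τ) t1 := by
      have h5 : HasDerivAt (fun s => ε * (‖x1‖ ^ 2 + K * s)) (ε * K) t1 := by
        simpa using (((hasDerivAt_id t1).const_mul K).const_add (‖x1‖ ^ 2)).const_mul ε
      exact (he t1 ht1 x1).sub h5.hasDerivWithinAt
    have h6 := deriv_nonneg_of_max ht1' h4 fun s hs => hall s hs x1
    have h7 := mul_le_mul_of_nonneg_left (le_abs_self (2 * ∑ k, a k k)) hε.le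
    rw [hK] at h6
    nlinarith
  have hlim : Tendsto (fun ε : ℝ => ε * (‖x0‖ ^ 2 + K * t0)) (𝓝[>] 0) (𝓝 0) := by
    have : Continuous fun ε : ℝ => ε * (‖x0‖ ^ 2 + K * t0) := by fun_prop
    simpa using (this.tendsto 0).mono_left nhdsWithin_le_nhds
  exact ge_of_tendsto hlim (eventually_mem_nhdsWithin.mono fun ε hε => key ε hε)

/-- uniqueness of bounded solutions -/
theorem solves_unique {a : Matrix (Fin n) (Fin n) ℝ} (ha : a.PosSemidef) {τ B B' : ℝ}
    {f w w' : ℝ → En n → F} (h : Solves a τ f w) (h' : Solves a τ f w')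
    (hc : ContinuousOn (fun p : ℝ × En n => w p.1 p.2) (Icc 0 τ ×ˢ univ))
    (hc' : ContinuousOn (fun p : ℝ × En n => w' p.1 p.2) (Icc 0 τ ×ˢ univ))
    (hB : ∀ t ∈ Icc 0 τ, ∀ x, ‖w t x‖ ≤ B) (hB' : ∀ t ∈ Icc 0 τ, ∀ x, ‖w' t x‖ ≤ B') :
    ∀ t ∈ Icc 0 τ, w t = w' t := by
  have key : ∀ L : F →L[ℝ] ℝ, ∀ t ∈ Icc 0 τ, ∀ x, L (w t x - w' t x) ≤ 0 := by
    intro L t ht x
    refine max_global ha (B := ‖L‖ * (B + B')) (u := fun t x => L (w t x - w' t x))
      (L.continuous.comp_continuousOn (hc.sub hc')) (fun t ht x => ?_)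
      (fun x => by simp [h.init, h'.init])
      (fun t ht => L.contDiff.comp ((h.c2 t ht).sub (h'.c2 t ht))) (fun t ht x => ?_) ht x
    · refine (le_abs_self _).trans ((L.le_opNorm _).trans ?_)
      exact mul_le_mul_of_nonneg_left ((norm_sub_le _ _).trans (add_le_add (hB t ht x) (hB' t ht x)))
        (norm_nonneg _)
    · rw [lop_clm a L ((h.c2 t ht).sub (h'.c2 t ht)), lop_sub a (h.c2 t ht) (h'.c2 t ht)]
      have := L.hasFDerivAt.comp_hasDerivWithinAt t ((h.eqn t ht x).sub (h'.eqn t ht x))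
      rw [add_sub_add_right_eq_sub] at this
      exact this
  intro t ht
  funext x
  rw [← sub_eq_zero]
  refine SeparatingDual.eq_zero_of_forall_dual_eq_zero (R := ℝ) fun L => le_antisymm (key L t ht x) ?_
  have := key (-L) t ht x
  simpa using this

theorem apr (n : ℕ) (F : Type*) [NormedAddCommGroup F] [NormedSpace ℝ F] [CompleteSpace F] :
    AprStmt n F := by
  intro a ha
  obtain ⟨C, hC, S, hS⟩ := schauder n F a ha
  refine ⟨C, hC, fun τ hτ A c B f w hc hf hw hwc hB => ?_⟩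
  obtain ⟨h1, h2⟩ := (hS τ hτ).1 A c f hc hf
  exact h2.congr (solves_unique ha.posSemidef hw h1 hwc h2.y0.cont hB h2.y0.sup)

end Crest.Agent.N207.P
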