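import Crest.Agent.N207.P.Lin
import Crest.Agent.N207.P.Abs
import Crest.Agent.N207.P.U

/-!
# Row 207, parabolic solver (helper11): the unconditional theorems
-/

set_option autoImplicit false

open scoped ContDiff Manifold

namespace Crest.Agent.N207.P

theorem regS (n : ℕ) (V : Type*) [NormedAddCommGroup V] [NormedSpace ℝ V] [CompleteSpace V] :
    RegStmt n V := reg_of_apr (apr n V)

variable (n : ℕ) (M : Type*) [TopologicalSpace M] [ChartedSpace (En n) M]
  [IsManifold 𝓘(ℝ, En n) ∞ M] [T2Space M] [CompactSpace M]
  (V : Type*) [NormedAddCommGroup V] [NormedSpace ℝ V] [FiniteDimensional ℝ V]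

theorem coreS : CoreStmt n M V :=
  haveI := FiniteDimensional.complete ℝ V
  core (schauder n V) (fun _ => abs_fix _ _ _ _) (regS n V)

/-- short time existence for quasilinear parabolic systems on a closed manifold -/
theorem qlS : QLStmt n M V := ql_of_core (coreS n M V)

/-- existence for linear parabolic systems on a closed manifold -/
theorem linS : LinStmt n M V :=
  haveI := FiniteDimensional.complete ℝ V
  lin_of_core (coreS n M V) (regS n V)

end Crest.Agent.N207.P
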