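import Crest.Agent.N207.P.Cmp

/-!
# Row 207, parabolic solver (helper11): finite atlases of small balls with cut-offs
-/

set_option autoImplicit false
set_option linter.unusedSectionVars false

open Set Filter Metric
open scoped ContDiff Topology Manifold

noncomputable section

namespace Crest.Agent.N207.P

variable {n : ℕ}

theorem ext_cpt {W : Type*} [NormedAddCommGroup W] [NormedSpace ℝ W] {K U : Set (En n)}
    (hK : IsCompact K) (hU : IsOpen U) (hKU : K ⊆ U) {g : En n → W} (hg : ContDiffOn ℝ ∞ g U) :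
    ∃ g' : En n → W, ContDiff ℝ ∞ g' ∧ HasCompactSupport g' ∧ ∀ y ∈ K, g' =ᶠ[𝓝 y] g := by
  obtain ⟨K', hK', h1, h2⟩ := exists_compact_between hK hU hKU
  obtain ⟨f, hf1, hf0, -⟩ := exists_contMDiffMap_one_nhds_of_subset_interior (n := ⊤)
    𝓘(ℝ, En n) hK.isClosed h1
  have hf : ContDiff ℝ ∞ f := f.contMDiff.contDiff
  refine ⟨fun y => f y • g y, contDiff_iff_contDiffAt.2 fun y => ?_,
    HasCompactSupport.intro hK' fun y hy => by simp [hf0 y hy], fun y hy => ?_⟩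
  · by_cases hy : y ∈ U
    · exact hf.contDiffAt.smul (hg.contDiffAt (hU.mem_nhds hy))
    · refine (contDiffAt_const (c := (0 : W))).congr_of_eventuallyEq ?_
      filter_upwards [hK'.isClosed.isOpen_compl.mem_nhds fun h => hy (h2 h)] with z hz
      simp [hf0 z hz]
  · filter_upwards [(hf1.filter_mono (nhds_le_nhdsSet hy))] with z hz
    simp [hz]

/-- centre of the preferred chart -/
abbrev cen (n : ℕ) {M : Type*} [TopologicalSpace M] [ChartedSpace (En n) M] (x : M) : En n :=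
  chartAt (En n) x x

/-- a finite atlas of balls of radii `r`, a partition of unity and global versions of the
transition data -/
structure Atl (n : ℕ) {M : Type*} [TopologicalSpace M] [ChartedSpace (En n) M] (N : ℕ)
    (r : M → ℝ) where
  x : Fin N → M
  χ : Fin N → M → ℝ
  η : Fin N → En n → ℝ
  ψ : Fin N → Fin N → En n → ℝ
  θ : Fin N → Fin N → En n → En n
  sum : ∀ p, ∑ c, χ c p = 1
  supp : ∀ c p, χ c p ≠ 0 → p ∈ (chartAt (En n) (x c)).source ∧
    chartAt (En n) (x c) p ∈ ball (cen n (x c)) (r (x c))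
  η_sm : ∀ a, ContDiff ℝ ∞ (η a)
  η_one : ∀ a, ∀ y ∈ ball (cen n (x a)) (r (x a)), η a y = 1
  η_zero : ∀ a, ∀ y ∉ closedBall (cen n (x a)) (2 * r (x a)), η a y = 0
  η_le : ∀ a y, |η a y| ≤ 1
  ψ_sm : ∀ c a, ContDiff ℝ ∞ (ψ c a)
  ψ_cs : ∀ c a, HasCompactSupport (ψ c a)
  θ_sm : ∀ c a, ContDiff ℝ ∞ (θ c a)
  θ_cs : ∀ c a, HasCompactSupport (θ c a)
  ψ_eq : ∀ c a, ∀ y ∈ closedBall (cen n (x a)) (2 * r (x a)), ψ c a =ᶠ[𝓝 y] rd n (x a) (χ c)
  dich : ∀ c a, ∀ y ∈ closedBall (cen n (x a)) (2 * r (x a)),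
    (y ∈ td n (x a) (x c) ∧ θ c a =ᶠ[𝓝 y] tr n (x a) (x c)) ∨ rd n (x a) (χ c) =ᶠ[𝓝 y] fun _ => 0

variable {M : Type*} [TopologicalSpace M] [ChartedSpace (En n) M] [IsManifold 𝓘(ℝ, En n) ∞ M]

theorem exists_atl [T2Space M] [CompactSpace M] (r : M → ℝ) (hr : ∀ x, 0 < r x)
    (hsub : ∀ x, closedBall (cen n x) (2 * r x) ⊆ (chartAt (En n) x).target) :
    ∃ N : ℕ, Nonempty (Atl n N r) := by
  set U : M → Set M := fun x =>
    (chartAt (En n) x).source ∩ chartAt (En n) x ⁻¹' ball (cen n x) (r x) with hU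
  have hUo : ∀ x, IsOpen (U x) := fun x =>
    (chartAt (En n) x).isOpen_inter_preimage isOpen_ball
  obtain ⟨s, hs⟩ := isCompact_univ.elim_finite_subcover U hUo fun p _ =>
    mem_iUnion.2 ⟨p, mem_chart_source _ p, mem_ball_self (hr p)⟩
  set x : Fin s.card → M := fun i => (s.equivFin.symm i : M) with hx
  have hcov : (univ : Set M) ⊆ ⋃ i, U (x i) := by
    intro p hp
    obtain ⟨q, hq, hpq⟩ := mem_iUnion₂.1 (hs hp)
    exact mem_iUnion.2 ⟨s.equivFin ⟨q, hq⟩, by simpa [hx] using hpq⟩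
  obtain ⟨f, hf⟩ := SmoothPartitionOfUnity.exists_isSubordinate 𝓘(ℝ, En n) isClosed_univ
    (fun i => U (x i)) (fun i => hUo _) hcov
  have hB : ∀ a, IsCompact (closedBall (cen n (x a)) (2 * r (x a))) := fun a =>
    isCompact_closedBall _ _
  have hψ : ∀ c a, ∃ g' : En n → ℝ, ContDiff ℝ ∞ g' ∧ HasCompactSupport g' ∧
      ∀ y ∈ closedBall (cen n (x a)) (2 * r (x a)), g' =ᶠ[𝓝 y] rd n (x a) (f c) := fun c a =>
    ext_cpt (hB a) (chartAt (En n) (x a)).open_target (hsub _) (contDiffOn_rd (f c).contMDiff _)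
  choose ψ hψ1 hψ2 hψ3 using hψ
  have hθ : ∀ c a, ∃ g' : En n → En n, ContDiff ℝ ∞ g' ∧ HasCompactSupport g' ∧
      ∀ y ∈ closedBall (cen n (x a)) (2 * r (x a)) ∩
        (chartAt (En n) (x a)).symm ⁻¹' tsupport (f c), g' =ᶠ[𝓝 y] tr n (x a) (x c) := by
    intro c a
    refine ext_cpt ?_ (isOpen_td (x a) (x c)) (fun y hy => ⟨hsub _ hy.1, (hf c hy.2).1⟩)
      (contDiffOn_tr _ _)
    exact (hB a).of_isClosed_subset (((chartAt (En n) (x a)).continuousOn_symm.mono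
      (hsub _)).preimage_isClosed_of_isClosed isClosed_closedBall (isClosed_tsupport _))
      inter_subset_left
  choose θ hθ1 hθ2 hθ3 using hθ
  let b : ∀ a : Fin s.card, ContDiffBump (cen n (x a)) := fun a =>
    ⟨r (x a), 2 * r (x a), hr _, by linarith [hr (x a)]⟩
  refine ⟨s.card, ⟨⟨x, fun c => f c, fun a => b a, ψ, θ, fun p => ?_, fun c p hp => ?_,
    fun a => (b a).contDiff, fun a y hy => (b a).one_of_mem_closedBall (ball_subset_closedBall hy),
    fun a y hy => (b a).zero_of_le_dist ?_, fun a y => ?_, hψ1, hψ2, hθ1, hθ2, hψ3,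
    fun c a y hy => ?_⟩⟩⟩
  · have := f.sum_eq_one (mem_univ p)
    rwa [finsum_eq_sum_of_fintype] at this
  · exact hf c (subset_tsupport _ hp)
  · rw [mem_closedBall, not_le] at hy; exact hy.le
  · rw [abs_of_nonneg (b a).nonneg]; exact (b a).le_one
  · by_cases h : (chartAt (En n) (x a)).symm y ∈ tsupport (f c)
    · exact Or.inl ⟨⟨hsub _ hy, (hf c h).1⟩, hθ3 c a y ⟨hy, h⟩⟩
    · refine Or.inr ?_
      have h1 : ContinuousAt (chartAt (En n) (x a)).symm y :=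
        (chartAt (En n) (x a)).continuousAt_symm (hsub _ hy)
      filter_upwards [h1.eventually ((isClosed_tsupport (f c)).isOpen_compl.mem_nhds h)] with z hz
      exact image_eq_zero_of_notMem_tsupport (f := f c) hz

namespace Atl

variable {N : ℕ} {r : M → ℝ} (𝒜 : Atl n N r)

theorem cover (p : M) : ∃ a, p ∈ (chartAt (En n) (𝒜.x a)).source ∧
    chartAt (En n) (𝒜.x a) p ∈ ball (cen n (𝒜.x a)) (r (𝒜.x a)) := by
  by_contra h
  have h0 : ∀ c, 𝒜.χ c p = 0 := fun c => by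
    by_contra hc
    exact h ⟨c, 𝒜.supp c p hc⟩
  have := 𝒜.sum p
  simp [h0] at this

variable {V : Type*} [NormedAddCommGroup V] [NormedSpace ℝ V]

/-- a local piece read in the chart `a` -/
theorem rd_piece (c a : Fin N) {y : En n}
    (hy : y ∈ closedBall (cen n (𝒜.x a)) (2 * r (𝒜.x a))) (w : En n → V) :
    rd n (𝒜.x a) (fun p => 𝒜.χ c p • w (chartAt (En n) (𝒜.x c) p)) =ᶠ[𝓝 y]
      z0 (𝒜.ψ c a) (𝒜.θ c a) w := by
  rcases 𝒜.dich c a y hy with h | h
  · filter_upwards [𝒜.ψ_eq c a y hy, h.2] with z h1 h2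
    simp only [z0, h1, h2]; rfl
  · filter_upwards [𝒜.ψ_eq c a y hy, h] with z h1 h2
    have h3 : 𝒜.χ c ((chartAt (En n) (𝒜.x a)).symm z) = 0 := h2
    simp only [z0, h1, rd, h3, zero_smul]

/-- the top order terms of a local piece -/
theorem top_piece {I : Set ℝ} {O : Set (M × V)} {Op : ℝ → (M → V) → M → V}
    (Q : QLOp n I O Op) (hO : IsOpen O) {t : ℝ} (ht : t ∈ I) (c a : Fin N) {y : En n}
    (hy : y ∈ closedBall (cen n (𝒜.x a)) (2 * r (𝒜.x a))) {v : V}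
    (hm : ((chartAt (En n) (𝒜.x a)).symm y, v) ∈ O) {w : En n → V} (hw : ContDiff ℝ 2 w) :
    ∑ k, ∑ l, Q.a (𝒜.x a) (t, y, v) k l • z3 (𝒜.ψ c a) (𝒜.θ c a) w y k l =
      𝒜.χ c ((chartAt (En n) (𝒜.x a)).symm y) •
        Lop (Q.a (𝒜.x c) (t, tr n (𝒜.x a) (𝒜.x c) y, v)) w (tr n (𝒜.x a) (𝒜.x c) y) := by
  have hψ : 𝒜.ψ c a y = 𝒜.χ c ((chartAt (En n) (𝒜.x a)).symm y) :=
    (𝒜.ψ_eq c a y hy).self_of_nhds
  rcases 𝒜.dich c a y hy with h | h
  · rw [← Q.pc hO ht h.1 hm hw.contDiffAt, ← hψ]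
    have hc : ∀ m, cp (𝒜.θ c a) m =ᶠ[𝓝 y] cp (tr n (𝒜.x a) (𝒜.x c)) m := fun m =>
      h.2.mono fun z hz => by simp only [cp, hz]
    simp only [z3, pd_congr (hc _), h.2.self_of_nhds, Finset.smul_sum, smul_smul]
    refine Finset.sum_congr rfl fun k _ => Finset.sum_congr rfl fun l _ =>
      Finset.sum_congr rfl fun m _ => Finset.sum_congr rfl fun m' _ => ?_
    congr 1; ring
  · have h3 : 𝒜.χ c ((chartAt (En n) (𝒜.x a)).symm y) = 0 := h.self_of_nhds
    simp [z3, hψ, h3]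

end Atl

end Crest.Agent.N207.P
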