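import Crest.Agent.N207.P.Tr

/-!
# Row 207, parabolic solver (helper11): the chart expressions of a `QLOp` are compatible on `C²`
functions
-/

set_option autoImplicit false
set_option linter.unusedSectionVars false

open Set Filter
open scoped ContDiff Topology Manifold

noncomputable section

namespace Crest.Agent.N207.P

variable {n : ℕ} {V : Type*} [NormedAddCommGroup V] [NormedSpace ℝ V]

theorem two_le_inf : (2 : WithTop ℕ∞) ≤ ∞ :=
  WithTop.coe_le_coe.2 (le_top : (2 : ℕ∞) ≤ ⊤)

/-! ### quadratic polynomials -/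

/-- the linear function `w ↦ w k - y k` -/
def lc (y : En n) (k : Fin n) (w : En n) : ℝ := w k - y k

theorem contDiff_lc (y : En n) (k : Fin n) : ContDiff ℝ ∞ (lc y k) :=
  (EuclideanSpace.proj k : En n →L[ℝ] ℝ).contDiff.sub contDiff_const

theorem pd_lc (y w : En n) (k m : Fin n) : pd m (lc y k) w = if k = m then 1 else 0 := by
  have h : HasFDerivAt (lc y k) (EuclideanSpace.proj k : En n →L[ℝ] ℝ) w :=
    (EuclideanSpace.proj k : En n →L[ℝ] ℝ).hasFDerivAt.sub_const _
  unfold pd
  rw [h.fderiv]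
  simp

theorem pd_smul_const' {κ : En n → ℝ} {y : En n} (h : DifferentiableAt ℝ κ y) (c : V) (k : Fin n) :
    pd k (fun z => κ z • c) y = pd k κ y • c := by
  unfold pd; rw [fderiv_smul_const h]; simp

theorem pd_mul' {f g : En n → ℝ} {y : En n} (hf : DifferentiableAt ℝ f y)
    (hg : DifferentiableAt ℝ g y) (k : Fin n) :
    pd k (fun z => f z * g z) y = pd k f y * g y + f y * pd k g y := by
  unfold pd; rw [fderiv_fun_mul hf hg]; simp; ring

/-- affine function with value `v` and gradient `p` at `y` -/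
def aff (y : En n) (v : V) (p : Fin n → V) (w : En n) : V := v + ∑ k, lc y k w • p k

theorem contDiff_aff (y : En n) (v : V) (p : Fin n → V) : ContDiff ℝ ∞ (aff y v p) :=
  contDiff_const.add (ContDiff.sum fun k _ => (contDiff_lc y k).smul contDiff_const)

theorem aff_self (y : En n) (v : V) (p : Fin n → V) : aff y v p y = v := by simp [aff, lc]

theorem pd_aff (y : En n) (v : V) (p : Fin n → V) (m : Fin n) :
    pd m (aff y v p) = fun _ => p m := by
  funext w
  have hd : ∀ k, DifferentiableAt ℝ (lc y k) w := fun k =>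
    (contDiff_lc y k).differentiable (by simp) w
  have h1 : ∀ k, DifferentiableAt ℝ (fun z => lc y k z • p k) w := fun k => (hd k).smul_const _
  unfold aff
  rw [pd_add' (differentiableAt_const _) (DifferentiableAt.fun_sum fun k _ => h1 k), pd_const',
    pd_sum' _ fun k _ => h1 k]
  simp [pd_smul_const' (hd _), pd_lc]

/-- quadratic polynomial with prescribed `2`-jet at `y` -/
def qp (y : En n) (v : V) (p : Fin n → V) (q : Fin n → Fin n → V) (w : En n) : V :=
  aff y v p w + ∑ k, ∑ l, (lc y k w * lc y l w) • ((1 / 2 : ℝ) • q k l)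

theorem contDiff_qp (y : En n) (v : V) (p : Fin n → V) (q : Fin n → Fin n → V) :
    ContDiff ℝ ∞ (qp y v p q) :=
  (contDiff_aff y v p).add (ContDiff.sum fun k _ => ContDiff.sum fun l _ =>
    ((contDiff_lc y k).mul (contDiff_lc y l)).smul contDiff_const)

theorem qp_self (y : En n) (v : V) (p : Fin n → V) (q : Fin n → Fin n → V) :
    qp y v p q y = v := by simp [qp, aff, lc]

theorem pd_qp (y : En n) (v : V) (p : Fin n → V) {q : Fin n → Fin n → V}
    (hq : ∀ k l, q k l = q l k) (m : Fin n) :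
    pd m (qp y v p q) = aff y (p m) (fun k => q k m) := by
  funext w
  have hd : ∀ k, DifferentiableAt ℝ (lc y k) w := fun k =>
    (contDiff_lc y k).differentiable (by simp) w
  have h0 : ∀ k l, DifferentiableAt ℝ (fun z => lc y k z * lc y l z) w := fun k l =>
    (hd k).mul (hd l)
  have h1 : ∀ k l, DifferentiableAt ℝ (fun z => (lc y k z * lc y l z) • ((1 / 2 : ℝ) • q k l)) w :=
    fun k l => (h0 k l).smul_const _
  unfold qp
  rw [pd_add' ((contDiff_aff y v p).differentiable (by simp) w)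
    (DifferentiableAt.fun_sum fun k _ => DifferentiableAt.fun_sum fun l _ => h1 k l), pd_aff,
    pd_sum' _ fun k _ => DifferentiableAt.fun_sum fun l _ => h1 k l]
  simp only [pd_sum' _ fun l _ => h1 _ l, pd_smul_const' (h0 _ _), pd_mul' (hd _) (hd _), pd_lc,
    add_smul, Finset.sum_add_distrib, ite_mul, mul_ite, one_mul, mul_one, zero_mul, mul_zero,
    ite_smul, zero_smul, Finset.sum_ite_eq', Finset.mem_univ, if_true]
  rw [Finset.sum_comm]
  simp only [Finset.sum_ite_eq', Finset.mem_univ, if_true, aff]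
  rw [← Finset.sum_add_distrib]
  congr 1
  refine Finset.sum_congr rfl fun k _ => ?_
  rw [hq m k, ← smul_add, ← add_smul]
  norm_num

/-! ### `2`-jets -/

/-- same `2`-jet at `y` -/
structure Jet2 (f g : En n → V) (y : En n) : Prop where
  e0 : f y = g y
  e1 : ∀ k, pd k f y = pd k g y
  e2 : ∀ k l, pd k (pd l f) y = pd k (pd l g) y

theorem Jet2.of_ev {f g : En n → V} {y : En n} (h : f =ᶠ[𝓝 y] g) : Jet2 f g y :=
  ⟨h.self_of_nhds, pd_congr h, fun k l => pd_congr (pd_congr_ev h l) k⟩

theorem Jet2.d1 {f g : En n → V} {y : En n} (h : Jet2 f g y) : d1 f y = d1 g y := funext h.e1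

theorem Jet2.lop {f g : En n → V} {y : En n} (h : Jet2 f g y) (a : Matrix (Fin n) (Fin n) ℝ) :
    Lop a f y = Lop a g y := by simp only [Lop, h.e2]

theorem Jet2.comp {f g : En n → V} {θ : En n → En n} {y : En n} (h : Jet2 f g (θ y))
    (hθ : ContDiffAt ℝ 2 θ y) (hf : ContDiffAt ℝ 2 f (θ y)) (hg : ContDiffAt ℝ 2 g (θ y)) :
    Jet2 (fun z => f (θ z)) (fun z => g (θ z)) y := by
  have e : ∀ w : En n → V, (fun z => w (θ z)) = z0 (fun _ => 1) θ w := fun w => by
    funext z; simp [z0]
  rw [e f, e g]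
  refine ⟨by simp [z0, h.e0], fun k => ?_, fun k l => ?_⟩
  · rw [pd_z0 contDiffAt_const hθ hf, pd_z0 contDiffAt_const hθ hg]
    simp only [z1, h.e0, h.e1]
  · rw [pd_pd_z0 contDiffAt_const hθ hf, pd_pd_z0 contDiffAt_const hθ hg]
    simp only [z2, z3, h.e0, h.e1, h.e2]

theorem jet2_qp {z : En n → V} {y : En n} (hz : ContDiffAt ℝ 2 z y) :
    Jet2 z (qp y (z y) (d1 z y) fun k l => pd k (pd l z) y) y := by
  have hq : ∀ k l, pd k (pd l z) y = pd l (pd k z) y := pd_symm hz
  refine ⟨(qp_self _ _ _ _).symm, fun k => ?_, fun k l => ?_⟩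
  · rw [pd_qp _ _ _ hq, aff_self]; rfl
  · rw [pd_qp _ _ _ hq, pd_aff]

theorem lop_add {f g : En n → V} {y : En n} (hf : ContDiffAt ℝ 2 f y) (hg : ContDiffAt ℝ 2 g y)
    (k l : Fin n) :
    pd k (pd l fun z => f z + g z) y = pd k (pd l f) y + pd k (pd l g) y := by
  have hev : pd l (fun z => f z + g z) =ᶠ[𝓝 y] fun z => pd l f z + pd l g z := by
    filter_upwards [hf.eventually (by simp), hg.eventually (by simp)] with z h1 h2
    exact pd_add' (h1.differentiableAt (by simp)) (h2.differentiableAt (by simp)) l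
  rw [pd_congr hev, pd_add'
    ((contDiffAt_pd (m := 1) hf (by norm_num) l).differentiableAt (by simp))
    ((contDiffAt_pd (m := 1) hg (by norm_num) l).differentiableAt (by simp))]

/-! ### changes of charts -/

section mfd

variable {M : Type*} [TopologicalSpace M] [ChartedSpace (En n) M] [IsManifold 𝓘(ℝ, En n) ∞ M]

/-- transition map -/
def tr (n : ℕ) {M : Type*} [TopologicalSpace M] [ChartedSpace (En n) M] (x x' : M) (y : En n) :
    En n := chartAt (En n) x' ((chartAt (En n) x).symm y)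

/-- its domain -/
def td (n : ℕ) {M : Type*} [TopologicalSpace M] [ChartedSpace (En n) M] (x x' : M) : Set (En n) :=
  (chartAt (En n) x).target ∩ (chartAt (En n) x).symm ⁻¹' (chartAt (En n) x').source

theorem isOpen_td (x x' : M) : IsOpen (td n x x') :=
  (chartAt (En n) x).isOpen_inter_preimage_symm (chartAt (En n) x').open_source

theorem contDiffOn_tr (x x' : M) : ContDiffOn ℝ ∞ (tr n x x') (td n x x') := by
  rw [← contMDiffOn_iff_contDiffOn]
  have h1 : ContMDiffOn 𝓘(ℝ, En n) 𝓘(ℝ, En n) ∞ (chartAt (En n) x).symm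
    (chartAt (En n) x).target := contMDiffOn_chart_symm
  have h2 : ContMDiffOn 𝓘(ℝ, En n) 𝓘(ℝ, En n) ∞ (chartAt (En n) x') (chartAt (En n) x').source :=
    contMDiffOn_chart
  exact h2.comp (h1.mono inter_subset_left) fun y hy => hy.2

theorem contDiffAt_tr {x x' : M} {y : En n} (hy : y ∈ td n x x') : ContDiffAt ℝ ∞ (tr n x x') y :=
  (contDiffOn_tr x x').contDiffAt ((isOpen_td x x').mem_nhds hy)

theorem symm_tr {x x' : M} {y : En n} (hy : y ∈ td n x x') :
    (chartAt (En n) x').symm (tr n x x' y) = (chartAt (En n) x).symm y :=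
  (chartAt (En n) x').left_inv hy.2

theorem tr_mem {x x' : M} {y : En n} (hy : y ∈ td n x x') :
    tr n x x' y ∈ (chartAt (En n) x').target := (chartAt (En n) x').map_source hy.2

theorem rd_tr {x x' : M} {y : En n} (hy : y ∈ td n x x') (u : M → V) :
    rd n x u =ᶠ[𝓝 y] fun z => rd n x' u (tr n x x' z) := by
  filter_upwards [(isOpen_td x x').mem_nhds hy] with z hz
  simp only [rd, symm_tr hz]

theorem contDiffOn_rd {u : M → V} (hu : ContMDiff 𝓘(ℝ, En n) 𝓘(ℝ, V) ∞ u) (x : M) :
    ContDiffOn ℝ ∞ (rd n x u) (chartAt (En n) x).target := by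
  rw [← contMDiffOn_iff_contDiffOn]
  exact hu.comp_contMDiffOn contMDiffOn_chart_symm

theorem contMDiff_of_rd {u : M → V}
    (h : ∀ x : M, ContDiffAt ℝ ∞ (rd n x u) (chartAt (En n) x x)) :
    ContMDiff 𝓘(ℝ, En n) 𝓘(ℝ, V) ∞ u := by
  intro x
  have h1 : ContMDiffAt 𝓘(ℝ, En n) 𝓘(ℝ, En n) ∞ (chartAt (En n) x) x :=
    (contMDiffOn_chart (x := x)).contMDiffAt (chart_source_mem_nhds (En n) x)
  refine ((h x).contMDiffAt.comp x h1).congr_of_eventuallyEq ?_
  filter_upwards [chart_source_mem_nhds (En n) x] with p hp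
  simp [rd, (chartAt (En n) x).left_inv hp]

theorem isOpen_domO {O : Set (M × V)} (hO : IsOpen O) (x : M) : IsOpen (domO n O x) := by
  have h : ContinuousOn (fun q : En n × V => ((chartAt (En n) x).symm q.1, q.2))
      ((chartAt (En n) x).target ×ˢ univ) :=
    ((chartAt (En n) x).continuousOn_symm.comp continuousOn_fst fun q hq => hq.1).prodMk
      continuousOn_snd
  have := h.isOpen_inter_preimage ((chartAt (En n) x).open_target.prod isOpen_univ) hO
  convert this using 1
  ext q; simp [domO]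

variable {I : Set ℝ} {O : Set (M × V)} {Op : ℝ → (M → V) → M → V}

/-- the expression of the operator in the chart at `x` -/
def QLOp.N (Q : QLOp n I O Op) (x : M) (t : ℝ) (z : En n → V) (y : En n) : V :=
  Lop (Q.a x (t, y, z y)) z y + Q.b x (t, (y, z y), d1 z y)

theorem Jet2.N (Q : QLOp n I O Op) (x : M) (t : ℝ) {f g : En n → V} {y : En n} (h : Jet2 f g y) :
    Q.N x t f y = Q.N x t g y := by
  simp only [QLOp.N, h.e0, h.d1, h.lop]

theorem QLOp.compat (Q : QLOp n I O Op) (hO : IsOpen O) {x x' : M} {t : ℝ} (ht : t ∈ I)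
    {y : En n} (hy : y ∈ td n x x') {z : En n → V} (hz : ContDiffAt ℝ 2 z (tr n x x' y))
    (hm : ((chartAt (En n) x).symm y, z (tr n x x' y)) ∈ O) :
    Q.N x t (fun w => z (tr n x x' w)) y = Q.N x' t z (tr n x x' y) := by
  set y' := tr n x x' y with hy'
  set P := qp y' (z y') (d1 z y') fun k l => pd k (pd l z) y' with hP
  have hPs : ContDiff ℝ ∞ P := contDiff_qp _ _ _ _
  have hJ : Jet2 z P y' := jet2_qp hz
  have hθ : ContDiffAt ℝ 2 (tr n x x') y := (contDiffAt_tr hy).of_le two_le_inf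
  rw [(hJ.comp hθ hz (hPs.contDiffAt.of_le two_le_inf)).N Q x t, hJ.N Q x' t]
  set u : M → V := fun p => P (chartAt (En n) x' p) with hu
  have hus : ContMDiffOn 𝓘(ℝ, En n) 𝓘(ℝ, V) ∞ u (chartAt (En n) x').source :=
    hPs.contMDiff.comp_contMDiffOn contMDiffOn_chart
  have hW : IsOpen ((chartAt (En n) x').source ∩ (fun p => (p, u p)) ⁻¹' O) :=
    (continuousOn_id.prodMk hus.continuousOn).isOpen_inter_preimage
      (chartAt (En n) x').open_source hO
  have hp : (chartAt (En n) x).symm y ∈ (chartAt (En n) x').source ∩ (fun p => (p, u p)) ⁻¹' O := by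
    refine ⟨hy.2, ?_⟩
    show ((chartAt (En n) x).symm y, P y') ∈ O
    rw [← hJ.e0]; exact hm
  have h1 := Q.rep x t ht y hy.1 u _ hW hp (hus.mono inter_subset_left) fun p hp => hp.2
  have h2 := Q.rep x' t ht y' (tr_mem hy) u _ hW (by rw [hy', symm_tr hy]; exact hp)
    (hus.mono inter_subset_left) fun p hp => hp.2
  have h3 : rd n x' u =ᶠ[𝓝 y'] P := by
    filter_upwards [(chartAt (En n) x').open_target.mem_nhds (tr_mem hy)] with w hw
    simp only [rd, hu, (chartAt (En n) x').right_inv hw]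
  rw [← (Jet2.of_ev h3).N Q x' t]
  rw [hy', symm_tr hy] at h2
  exact h1.symm.trans h2

/-- compatibility of the principal parts -/
theorem QLOp.pc (Q : QLOp n I O Op) (hO : IsOpen O) {x x' : M} {t : ℝ} (ht : t ∈ I)
    {y : En n} (hy : y ∈ td n x x') {v : V} (hm : ((chartAt (En n) x).symm y, v) ∈ O)
    {w : En n → V} (hw : ContDiffAt ℝ 2 w (tr n x x' y)) :
    ∑ k, ∑ l, Q.a x (t, y, v) k l • z3 (fun _ => 1) (tr n x x') w y k l =
      Lop (Q.a x' (t, tr n x x' y, v)) w (tr n x x' y) := by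
  set y' := tr n x x' y with hy'
  have hθ : ContDiffAt ℝ 2 (tr n x x') y := (contDiffAt_tr hy).of_le two_le_inf
  have hq : ∀ k l, pd k (pd l w) y' = pd l (pd k w) y' := pd_symm hw
  set P := qp y' v 0 fun k l => pd k (pd l w) y' with hP
  have hPs : ContDiffAt ℝ 2 P y' :=
    (contDiff_qp _ _ _ _).contDiffAt.of_le two_le_inf
  have p0 : P y' = v := qp_self _ _ _ _
  have p1 : ∀ k, pd k P y' = 0 := fun k => by rw [hP, pd_qp _ _ _ hq, aff_self]; rfl
  have p2 : ∀ k l, pd k (pd l P) y' = pd k (pd l w) y' := fun k l => by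
    rw [hP, pd_qp _ _ _ hq, pd_aff]
  have h1 := Q.compat hO ht hy hPs (by rw [p0]; exact hm)
  have h2 := Q.compat hO ht hy (z := fun _ => v) contDiffAt_const hm
  have e : (fun z => P (tr n x x' z)) = z0 (fun _ => 1) (tr n x x') P := by
    funext z; simp [z0]
  have z1' : ∀ k l : Fin n, ∀ y : En n, pd k (pd l fun _ : En n => (1 : ℝ)) y = 0 := by
    intro k l y
    rw [show (pd l fun _ : En n => (1 : ℝ)) = fun _ => 0 from funext fun z => pd_const' _ z l,
      pd_const']
  have z2' : ∀ k l : Fin n, ∀ y : En n, pd k (pd l fun _ : En n => v) y = 0 := by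
    intro k l y
    rw [show (pd l fun _ : En n => v) = fun _ => 0 from funext fun z => pd_const' _ z l,
      pd_const']
  have d0 : d1 (fun z => P (tr n x x' z)) y = 0 := by
    funext k
    rw [d1, e, pd_z0 contDiffAt_const hθ hPs]
    simp [z1, ← hy', p1, pd_const']
  have d0' : d1 P y' = 0 := funext p1
  have d0'' : ∀ y : En n, d1 (fun _ : En n => v) y = 0 := fun y => funext fun k => pd_const' _ _ _
  have l1 : Lop (Q.a x (t, y, v)) (fun z => P (tr n x x' z)) y =
      ∑ k, ∑ l, Q.a x (t, y, v) k l • z3 (fun _ => 1) (tr n x x') w y k l := by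
    simp only [Lop, e, pd_pd_z0 contDiffAt_const hθ hPs, z2, z3, ← hy', p1, p2, z1', smul_zero,
      zero_smul, Finset.sum_const_zero, zero_add]
  have l2 : Lop (Q.a x' (t, y', v)) P y' = Lop (Q.a x' (t, y', v)) w y' := by
    simp only [Lop, p2]
  simp only [QLOp.N, ← hy', p0, d0, d0', d0'', l1, l2] at h1 h2
  simp only [Lop, z2', smul_zero, Finset.sum_const_zero, zero_add] at h2
  rw [h2] at h1
  exact add_right_cancel h1

end mfd

end Crest.Agent.N207.P
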