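import Crest.Agent.N207.P.Tr

/-!
# Row 207, parabolic solver (helper18): calculus of the local Hoelder classes `Yl`
-/

set_option autoImplicit false

open Set Filter Topology Metric
open scoped ContDiff

noncomputable section

namespace Crest.Agent.N207.P

variable {n : ℕ} {V W X : Type*} [NormedAddCommGroup V] [NormedSpace ℝ V]
  [NormedAddCommGroup W] [NormedSpace ℝ W] [NormedAddCommGroup X] [NormedSpace ℝ X]
  {I : Set ℝ} {U : Set (En n)}

theorem fderiv_eq_sum_pd (f : En n → V) (y v : En n) :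
    fderiv ℝ f y v = ∑ k, v k • pd k f y := by
  have hv : v = ∑ k, v k • EuclideanSpace.single k (1 : ℝ) := by
    ext j; simp [Finset.sum_apply, Pi.single_apply]
  conv_lhs => rw [hv]
  simp [pd, map_sum]

theorem norm_clm_le_sum (L : En n →L[ℝ] V) :
    ‖L‖ ≤ ∑ k, ‖L (EuclideanSpace.single k (1 : ℝ))‖ := by
  refine ContinuousLinearMap.opNorm_le_bound _ (by positivity) fun v => ?_
  have hv : v = ∑ k, v k • EuclideanSpace.single k (1 : ℝ) := by
    ext j; simp [Finset.sum_apply, Pi.single_apply]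
  calc ‖L v‖ = ‖∑ k, v k • L (EuclideanSpace.single k (1 : ℝ))‖ := by
        conv_lhs => rw [hv]
        simp [map_sum]
    _ ≤ ∑ k, ‖L (EuclideanSpace.single k (1 : ℝ))‖ * ‖v‖ := by
        refine (norm_sum_le _ _).trans (Finset.sum_le_sum fun k _ => ?_)
        rw [norm_smul, mul_comm]
        exact mul_le_mul_of_nonneg_left (PiLp.norm_apply_le v k) (norm_nonneg _)
    _ = _ := by rw [Finset.sum_mul]

theorem Yl.cont : ∀ {m : ℕ} {f : ℝ → En n → V}, Yl I U m f →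
    ContinuousOn (fun q : ℝ × En n => f q.1 q.2) (I ×ˢ U)
  | 0, _, h => h.1
  | _ + 1, _, h => h.1

theorem Yl.diff {m : ℕ} {f : ℝ → En n → V} (h : Yl I U (m + 1) f) {t : ℝ} (ht : t ∈ I)
    {y : En n} (hy : y ∈ U) : DifferentiableAt ℝ (f t) y := h.2.1 t ht y hy

theorem Yl.pd {m : ℕ} {f : ℝ → En n → V} (h : Yl I U (m + 1) f) (k : Fin n) :
    Yl I U m (fun t => pd k (f t)) := h.2.2 k

/-- the Hoelder bound holds on every smaller ball, with a nonnegative constant -/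
theorem Yl.hol {f : ℝ → En n → V} (h : Yl I U 0 f) {y0 : En n} (hy : y0 ∈ U) :
    ∃ K : ℝ, 0 ≤ K ∧ ∀ᶠ r in 𝓝[>] (0 : ℝ), ∀ t ∈ I, ∀ y ∈ ball y0 r, ∀ y' ∈ ball y0 r,
      ‖f t y - f t y'‖ ≤ K * √(dist y y') := by
  obtain ⟨r, hr, K, hK⟩ := h.2 y0 hy
  refine ⟨max K 0, le_max_right _ _, ?_⟩
  filter_upwards [Ioo_mem_nhdsGT hr] with s hs t ht y h1 y' h2
  exact (hK t ht y (ball_subset_ball hs.2.le h1) y' (ball_subset_ball hs.2.le h2)).trans
    (mul_le_mul_of_nonneg_right (le_max_left _ _) (Real.sqrt_nonneg _))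

theorem ev_ball (hU : IsOpen U) {y0 : En n} (hy : y0 ∈ U) :
    ∀ᶠ r in 𝓝[>] (0 : ℝ), closedBall y0 r ⊆ U := by
  obtain ⟨r, hr, h⟩ := Metric.isOpen_iff.1 hU y0 hy
  filter_upwards [Ioo_mem_nhdsGT hr] with s hs
  exact (closedBall_subset_ball hs.2).trans h

theorem yl_zero {f : ℝ → En n → V} (hc : ContinuousOn (fun q : ℝ × En n => f q.1 q.2) (I ×ˢ U))
    (h : ∀ y0 ∈ U, ∃ K : ℝ, ∀ᶠ r in 𝓝[>] (0 : ℝ), ∀ t ∈ I, ∀ y ∈ ball y0 r, ∀ y' ∈ ball y0 r,
      ‖f t y - f t y'‖ ≤ K * √(dist y y')) : Yl I U 0 f := by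
  refine ⟨hc, fun y0 hy => ?_⟩
  obtain ⟨K, hK⟩ := h y0 hy
  obtain ⟨r, hr, hr0⟩ := (hK.and self_mem_nhdsWithin).exists
  exact ⟨r, hr0, K, hr⟩

omit [NormedSpace ℝ V] in
/-- local boundedness, uniformly in time -/
theorem loc_bdd {f : ℝ → En n → V} (hI : IsCompact I) (hU : IsOpen U)
    (hc : ContinuousOn (fun q : ℝ × En n => f q.1 q.2) (I ×ˢ U)) {y0 : En n} (hy : y0 ∈ U) :
    ∃ K : ℝ, 0 ≤ K ∧ ∀ᶠ r in 𝓝[>] (0 : ℝ), ∀ t ∈ I, ∀ y ∈ ball y0 r, ‖f t y‖ ≤ K := by
  obtain ⟨r, hr, hr0⟩ := ((ev_ball hU hy).and self_mem_nhdsWithin).exists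
  obtain ⟨K, hK⟩ := (hI.prod (isCompact_closedBall y0 r)).exists_bound_of_continuousOn
    (hc.mono (prod_mono Subset.rfl hr))
  refine ⟨max K 0, le_max_right _ _, ?_⟩
  filter_upwards [Ioo_mem_nhdsGT hr0] with s hs t ht y h1
  exact (hK (t, y) ⟨ht, ball_subset_closedBall (ball_subset_ball hs.2.le h1)⟩).trans
    (le_max_left _ _)

theorem Yl.congr (hU : IsOpen U) : ∀ {m : ℕ} {f g : ℝ → En n → V}, Yl I U m f →
    (∀ t ∈ I, ∀ y ∈ U, g t y = f t y) → Yl I U m g
  | 0, f, g, h, e => by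
    refine yl_zero (h.1.congr fun q hq => e _ hq.1 _ hq.2) fun y0 hy => ?_
    obtain ⟨K, -, hK⟩ := h.hol hy
    refine ⟨K, ?_⟩
    filter_upwards [hK, ev_ball hU hy] with r h1 h2 t ht y h3 y' h4
    rw [e t ht y (h2 (ball_subset_closedBall h3)), e t ht y' (h2 (ball_subset_closedBall h4))]
    exact h1 t ht y h3 y' h4
  | m + 1, f, g, h, e => by
    have ee : ∀ t ∈ I, ∀ y ∈ U, g t =ᶠ[𝓝 y] f t := fun t ht y hy => by
      filter_upwards [hU.mem_nhds hy] with z hz using e t ht z hz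
    exact ⟨h.1.congr fun q hq => e _ hq.1 _ hq.2,
      fun t ht y hy => (h.diff ht hy).congr_of_eventuallyEq (ee t ht y hy),
      fun k => Yl.congr hU (h.pd k) fun t ht y hy => pd_congr (ee t ht y hy) k⟩

theorem Yl.mono {I' : Set ℝ} {U' : Set (En n)} (hI : I' ⊆ I) (hU : U' ⊆ U) :
    ∀ {m : ℕ} {f : ℝ → En n → V}, Yl I U m f → Yl I' U' m f
  | 0, _, h => ⟨h.1.mono (prod_mono hI hU), fun y0 hy => by
      obtain ⟨r, hr, K, hK⟩ := h.2 y0 (hU hy)
      exact ⟨r, hr, K, fun t ht => hK t (hI ht)⟩⟩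
  | _ + 1, _, h => ⟨h.1.mono (prod_mono hI hU), fun t ht y hy => h.diff (hI ht) (hU hy),
      fun k => Yl.mono hI hU (h.pd k)⟩

/-- time reparametrisation -/
theorem Yl.comp_time {J : Set ℝ} {σ : ℝ → ℝ} (hσ : ContinuousOn σ J) (hm : MapsTo σ J I) :
    ∀ {m : ℕ} {f : ℝ → En n → V}, Yl I U m f → Yl J U m (fun t => f (σ t)) := by
  have hc : ∀ {f : ℝ → En n → V}, ContinuousOn (fun q : ℝ × En n => f q.1 q.2) (I ×ˢ U) →
      ContinuousOn (fun q : ℝ × En n => f (σ q.1) q.2) (J ×ˢ U) := fun h =>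
    h.comp (f := fun q : ℝ × En n => (σ q.1, q.2))
      ((hσ.comp continuousOn_fst fun q hq => hq.1).prodMk continuousOn_snd)
      fun q hq => ⟨hm hq.1, hq.2⟩
  intro m
  induction m with
  | zero =>
    intro f h
    refine ⟨hc h.1, fun y0 hy => ?_⟩
    obtain ⟨r, hr, K, hK⟩ := h.2 y0 hy
    exact ⟨r, hr, K, fun t ht => hK _ (hm ht)⟩
  | succ m ih =>
    intro f h
    exact ⟨hc h.1, fun t ht y hy => h.diff (hm ht) hy, fun k => ih (h.pd k)⟩

theorem le_sqrt_dist {y0 y y' : En n} {r : ℝ} (hr : r ≤ 1 / 2) (h : y ∈ ball y0 r)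
    (h' : y' ∈ ball y0 r) : dist y y' ≤ √(dist y y') := by
  have h1 : dist y y' ≤ 1 := by
    have := dist_triangle_right y y' y0
    rw [mem_ball] at h h'
    linarith
  exact Real.le_sqrt_of_sq_le (by nlinarith [dist_nonneg (x := y) (y := y')])

/-- differentiable with jointly continuous partial derivatives implies Hoelder -/
theorem yl_zero_of_pd {f : ℝ → En n → V} (hI : IsCompact I) (hU : IsOpen U)
    (hc : ContinuousOn (fun q : ℝ × En n => f q.1 q.2) (I ×ˢ U))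
    (hd : ∀ t ∈ I, ∀ y ∈ U, DifferentiableAt ℝ (f t) y)
    (hp : ∀ k, ContinuousOn (fun q : ℝ × En n => pd k (f q.1) q.2) (I ×ˢ U)) : Yl I U 0 f := by
  refine yl_zero hc fun y0 hy => ?_
  choose K hK0 hK using fun k => loc_bdd (f := fun t => pd k (f t)) hI hU (hp k) hy
  refine ⟨∑ k, K k, ?_⟩
  filter_upwards [eventually_all.2 hK, ev_ball hU hy,
    Ioo_mem_nhdsGT (by norm_num : (0 : ℝ) < 1 / 2)] with r h1 h2 h5 t ht y h3 y' h4
  have hS : 0 ≤ ∑ k, K k := Finset.sum_nonneg fun k _ => hK0 k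
  have := (convex_ball y0 r).norm_image_sub_le_of_norm_fderiv_le (𝕜 := ℝ) (f := f t)
    (C := ∑ k, K k) (fun z hz => hd t ht z (h2 (ball_subset_closedBall hz)))
    (fun z hz => (norm_clm_le_sum _).trans (Finset.sum_le_sum fun k _ => h1 k t ht z hz)) h4 h3
  refine this.trans (mul_le_mul_of_nonneg_left ?_ hS)
  rw [← dist_eq_norm]
  exact le_sqrt_dist h5.2.le h3 h4

theorem Yl.pred (hI : IsCompact I) (hU : IsOpen U) :
    ∀ {m : ℕ} {f : ℝ → En n → V}, Yl I U (m + 1) f → Yl I U m f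
  | 0, _, h => yl_zero_of_pd hI hU h.1 h.2.1 fun k => (h.pd k).cont
  | _ + 1, _, h => ⟨h.1, h.2.1, fun k => Yl.pred hI hU (h.pd k)⟩

theorem Yl.of_le (hI : IsCompact I) (hU : IsOpen U) {m m' : ℕ} (hm : m ≤ m')
    {f : ℝ → En n → V} (h : Yl I U m' f) : Yl I U m f := by
  induction hm with
  | refl => exact h
  | step _ ih => exact ih (h.pred hI hU)

theorem Yl.add (hU : IsOpen U) : ∀ {m : ℕ} {f g : ℝ → En n → V}, Yl I U m f → Yl I U m g →
    Yl I U m (fun t y => f t y + g t y)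
  | 0, f, g, h, h' => by
    refine yl_zero (h.1.add h'.1) fun y0 hy => ?_
    obtain ⟨K, -, hK⟩ := h.hol hy
    obtain ⟨K', -, hK'⟩ := h'.hol hy
    refine ⟨K + K', ?_⟩
    filter_upwards [hK, hK'] with r h1 h2 t ht y h3 y' h4
    rw [add_sub_add_comm, add_mul]
    exact (norm_add_le _ _).trans (add_le_add (h1 t ht y h3 y' h4) (h2 t ht y h3 y' h4))
  | m + 1, f, g, h, h' => by
    refine ⟨h.1.add h'.1, fun t ht y hy => (h.diff ht hy).add (h'.diff ht hy), fun k => ?_⟩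
    refine (Yl.add hU (h.pd k) (h'.pd k)).congr hU fun t ht y hy => ?_
    simp only [P.pd]
    rw [fderiv_fun_add (h.diff ht hy) (h'.diff ht hy)]
    rfl

theorem Yl.clm (hU : IsOpen U) (L : V →L[ℝ] W) : ∀ {m : ℕ} {f : ℝ → En n → V}, Yl I U m f →
    Yl I U m (fun t y => L (f t y))
  | 0, f, h => by
    refine yl_zero (L.continuous.comp_continuousOn h.1) fun y0 hy => ?_
    obtain ⟨K, -, hK⟩ := h.hol hy
    refine ⟨‖L‖ * K, ?_⟩
    filter_upwards [hK] with r h1 t ht y h3 y' h4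
    rw [← map_sub, mul_assoc]
    exact (L.le_opNorm _).trans (mul_le_mul_of_nonneg_left (h1 t ht y h3 y' h4) (norm_nonneg _))
  | m + 1, f, h => by
    refine ⟨L.continuous.comp_continuousOn h.1,
      fun t ht y hy => L.differentiableAt.comp y (h.diff ht hy), fun k => ?_⟩
    refine (Yl.clm hU L (h.pd k)).congr hU fun t ht y hy => ?_
    simp only [P.pd]
    have := (L.hasFDerivAt.comp y (h.diff ht hy).hasFDerivAt).fderiv
    exact congrArg (fun D : En n →L[ℝ] W => D (EuclideanSpace.single k 1)) this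

theorem Yl.neg (hU : IsOpen U) {m : ℕ} {f : ℝ → En n → V} (h : Yl I U m f) :
    Yl I U m (fun t y => -f t y) :=
  h.clm hU (-ContinuousLinearMap.id ℝ V)

theorem Yl.sub (hU : IsOpen U) {m : ℕ} {f g : ℝ → En n → V} (h : Yl I U m f) (h' : Yl I U m g) :
    Yl I U m (fun t y => f t y - g t y) := by
  simpa only [sub_eq_add_neg] using h.add hU (h'.neg hU)

/-- functions of time only -/
theorem yl_time : ∀ {m : ℕ} {θ : ℝ → V}, ContinuousOn θ I → Yl I U m (fun t (_ : En n) => θ t)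
  | 0, θ, h => ⟨h.comp continuousOn_fst fun q hq => hq.1,
      fun y0 _ => ⟨1, one_pos, 0, fun t _ y _ y' _ => by simp⟩⟩
  | m + 1, θ, h => by
    refine ⟨h.comp continuousOn_fst fun q hq => hq.1, fun t _ y _ => differentiableAt_const _,
      fun k => ?_⟩
    have : (fun t => pd k (fun _ : En n => θ t)) = fun (_ : ℝ) (_ : En n) => (0 : V) := by
      funext t y; simp [pd]
    rw [this]
    exact yl_time continuousOn_const

theorem Yl.sum (hU : IsOpen U) {ι : Type*} {m : ℕ} (s : Finset ι) {f : ι → ℝ → En n → V}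
    (h : ∀ i ∈ s, Yl I U m (f i)) : Yl I U m (fun t y => ∑ i ∈ s, f i t y) := by
  classical
  induction s using Finset.induction_on with
  | empty => simpa using yl_time (n := n) (U := U) (m := m) (θ := fun _ => (0 : V)) continuousOn_const
  | insert i s hi ih =>
    simp only [Finset.sum_insert hi]
    exact (h i (Finset.mem_insert_self _ _)).add hU
      (ih fun j hj => h j (Finset.mem_insert_of_mem hj))

theorem Yl.bilin (hI : IsCompact I) (hU : IsOpen U) (B : V →L[ℝ] W →L[ℝ] X) :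
    ∀ {m : ℕ} {f : ℝ → En n → V} {g : ℝ → En n → W}, Yl I U m f → Yl I U m g →
    Yl I U m (fun t y => B (f t y) (g t y))
  | 0, f, g, h, h' => by
    refine yl_zero ((B.continuous.comp_continuousOn h.1).clm_apply h'.1) fun y0 hy => ?_
    obtain ⟨K, hK0, hK⟩ := h.hol hy
    obtain ⟨K', hK0', hK'⟩ := h'.hol hy
    obtain ⟨A, hA0, hA⟩ := loc_bdd hI hU h.1 hy
    obtain ⟨A', hA0', hA'⟩ := loc_bdd hI hU h'.1 hy
    refine ⟨‖B‖ * A * K' + ‖B‖ * K * A', ?_⟩
    filter_upwards [hK, hK', hA, hA'] with r h1 h2 h5 h6 t ht y h3 y' h4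
    have e : B (f t y) (g t y) - B (f t y') (g t y') =
        B (f t y) (g t y - g t y') + B (f t y - f t y') (g t y') := by
      simp only [map_sub, sub_apply]; abel
    rw [e]
    have a1 := h1 t ht y h3 y' h4
    have a2 := h2 t ht y h3 y' h4
    have a3 := h5 t ht y h3
    have a4 := h6 t ht y' h4
    calc _ ≤ ‖B‖ * ‖f t y‖ * ‖g t y - g t y'‖ + ‖B‖ * ‖f t y - f t y'‖ * ‖g t y'‖ :=
          (norm_add_le _ _).trans (add_le_add (B.le_opNorm₂ _ _) (B.le_opNorm₂ _ _))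
      _ ≤ ‖B‖ * A * (K' * √(dist y y')) + ‖B‖ * (K * √(dist y y')) * A' := by gcongr
      _ = _ := by ring
  | m + 1, f, g, h, h' => by
    have hd : ∀ t ∈ I, ∀ y ∈ U, HasFDerivAt (fun y => B (f t y) (g t y))
        (B.precompR (En n) (f t y) (fderiv ℝ (g t) y) +
          B.precompL (En n) (fderiv ℝ (f t) y) (g t y)) y := fun t ht y hy =>
      B.hasFDerivAt_of_bilinear (h.diff ht hy).hasFDerivAt (h'.diff ht hy).hasFDerivAt
    refine ⟨(B.continuous.comp_continuousOn h.1).clm_apply h'.1,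
      fun t ht y hy => (hd t ht y hy).differentiableAt, fun k => ?_⟩
    refine ((Yl.bilin hI hU B (h.pred hI hU) (h'.pd k)).add hU
      (Yl.bilin hI hU B (h.pd k) (h'.pred hI hU))).congr hU fun t ht y hy => ?_
    simp only [P.pd]
    rw [(hd t ht y hy).fderiv]
    rfl

theorem Yl.smul (hI : IsCompact I) (hU : IsOpen U) {m : ℕ} {c : ℝ → En n → ℝ}
    {g : ℝ → En n → V} (h : Yl I U m c) (h' : Yl I U m g) :
    Yl I U m (fun t y => c t y • g t y) :=
  Yl.bilin hI hU (ContinuousLinearMap.lsmul ℝ ℝ) h h'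

theorem Yl.mul (hI : IsCompact I) (hU : IsOpen U) {m : ℕ} {c g : ℝ → En n → ℝ}
    (h : Yl I U m c) (h' : Yl I U m g) : Yl I U m (fun t y => c t y * g t y) :=
  h.smul hI hU h'

/-- smooth functions of space only -/
theorem yl_static (hI : IsCompact I) (hU : IsOpen U) :
    ∀ {m : ℕ} {g : En n → V}, ContDiffOn ℝ ∞ g U → Yl I U m (fun _ => g) := by
  have hc : ∀ {g : En n → V}, ContDiffOn ℝ ∞ g U →
      ContinuousOn (fun q : ℝ × En n => g q.2) (I ×ˢ U) := fun h =>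
    h.continuousOn.comp continuousOn_snd fun q hq => hq.2
  have hd : ∀ {g : En n → V}, ContDiffOn ℝ ∞ g U → ∀ y ∈ U, DifferentiableAt ℝ g y :=
    fun h y hy => (h.contDiffAt (hU.mem_nhds hy)).differentiableAt (by simp)
  intro m
  induction m with
  | zero =>
    intro g h
    exact yl_zero_of_pd hI hU (hc h) (fun _ _ => hd h) fun k => hc (contDiffOn_pd_top hU h k)
  | succ m ih =>
    intro g h
    exact ⟨hc h, fun _ _ => hd h, fun k => ih (contDiffOn_pd_top hU h k)⟩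

/-- extension by zero -/
theorem Yl.ext_zero (hU : IsOpen U) {K : Set (En n)} (hK : IsClosed K) (hKU : K ⊆ U) :
    ∀ {m : ℕ} {f : ℝ → En n → V}, Yl I U m f → (∀ t ∈ I, ∀ y, y ∉ K → f t y = 0) →
      Yl I univ m f := by
  have hc : ∀ {f : ℝ → En n → V}, ContinuousOn (fun q : ℝ × En n => f q.1 q.2) (I ×ˢ U) →
      (∀ t ∈ I, ∀ y, y ∉ K → f t y = 0) →
      ContinuousOn (fun q : ℝ × En n => f q.1 q.2) (I ×ˢ univ) := by
    intro f h h0 q hq
    by_cases hy : q.2 ∈ U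
    · refine (h q ⟨hq.1, hy⟩).mono_of_mem_nhdsWithin ?_
      filter_upwards [self_mem_nhdsWithin,
        mem_nhdsWithin_of_mem_nhds (continuous_snd.continuousAt (hU.mem_nhds hy))] with p h1 h2
      exact ⟨h1.1, h2⟩
    · have hy' : q.2 ∉ K := fun h => hy (hKU h)
      refine (continuousWithinAt_const (b := (0 : V))).congr_of_eventuallyEq ?_ (h0 _ hq.1 _ hy')
      filter_upwards [self_mem_nhdsWithin, mem_nhdsWithin_of_mem_nhds
        (continuous_snd.continuousAt (hK.isOpen_compl.mem_nhds hy'))] with p h1 h2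
      exact h0 _ h1.1 _ h2
  intro m
  induction m with
  | zero =>
    intro f h h0
    refine yl_zero (hc h.1 h0) fun y0 _ => ?_
    by_cases hy : y0 ∈ U
    · obtain ⟨K, -, hK⟩ := h.hol hy
      exact ⟨K, hK⟩
    · refine ⟨0, ?_⟩
      filter_upwards [ev_ball hK.isOpen_compl (fun h => hy (hKU h))] with r h1 t ht y h3 y' h4
      rw [h0 t ht y (h1 (ball_subset_closedBall h3)), h0 t ht y' (h1 (ball_subset_closedBall h4))]
      simp
  | succ m ih =>
    intro f h h0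
    have e0 : ∀ t ∈ I, ∀ y, y ∉ K → f t =ᶠ[𝓝 y] fun _ => 0 := fun t ht y hy => by
      filter_upwards [hK.isOpen_compl.mem_nhds hy] with z hz using h0 t ht z hz
    refine ⟨hc h.1 h0, fun t ht y _ => ?_, fun k => ih (h.pd k) fun t ht y hy => ?_⟩
    · by_cases hy : y ∈ U
      · exact h.diff ht hy
      · exact (differentiableAt_const _).congr_of_eventuallyEq (e0 t ht y fun h => hy (hKU h))
    · rw [pd_congr (e0 t ht y hy)]
      simp [P.pd]

end Crest.Agent.N207.P
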