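import Crest.Agent.N207.P.Atl
import Crest.Agent.N207.P.Yl1

/-!
# Row 207, parabolic solver (helper11): the transported jets
-/

set_option autoImplicit false
set_option linter.unusedSectionVars false

open Set Filter Metric
open scoped ContDiff Topology Manifold

noncomputable section

namespace Crest.Agent.N207.P

variable {n : ℕ} {V : Type*} [NormedAddCommGroup V] [NormedSpace ℝ V]

/-- the space of lower order data -/
abbrev ZZ (n : ℕ) (V : Type*) := V × (Fin n → V) × (Fin n → Fin n → V)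

/-- the lower order data of a transported function -/
def zz (κ : En n → ℝ) (θ : En n → En n) (w : En n → V) (y : En n) : ZZ n V :=
  (z0 κ θ w y, z1 κ θ w y, z2 κ θ w y)

/-- functionals which are small on solutions -/
def Sml {W : Type*} [NormedAddCommGroup W] (V : Type*) [NormedAddCommGroup V] [NormedSpace ℝ V]
    (Φ : (En n → V) → En n → W) : Prop :=
  ∃ C : ℝ, 0 < C ∧ ∀ (τ η c' : ℝ) (w : ℝ → En n → V), 0 ≤ η → SolB τ η c' w →
    Yb dist τ (C * η) (C * η) (fun t => Φ (w t))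

section sml

variable {W W' : Type*} [NormedAddCommGroup W] [NormedSpace ℝ W] [NormedAddCommGroup W']
  [NormedSpace ℝ W']

theorem Sml.add {Φ Ψ : (En n → V) → En n → W} (h : Sml V Φ) (h' : Sml V Ψ) :
    Sml V (fun w y => Φ w y + Ψ w y) := by
  obtain ⟨C, hC, h⟩ := h
  obtain ⟨C', hC', h'⟩ := h'
  refine ⟨C + C', by positivity, fun τ η c' w hη hw => ?_⟩
  rw [add_mul]
  exact yb_add (h τ η c' w hη hw) (h' τ η c' w hη hw)

theorem Sml.sum {ι : Type*} (s : Finset ι) {Φ : ι → (En n → V) → En n → W}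
    (h : ∀ i, Sml V (Φ i)) : Sml V (fun w y => ∑ i ∈ s, Φ i w y) := by
  classical
  induction s using Finset.induction_on with
  | empty =>
    exact ⟨1, one_pos, fun τ η c' w hη _ => by
      simpa using yb_mono (yb_zero (V := W) (d := dist) (τ := τ)) hη hη⟩
  | insert i s hi ih =>
    simp only [Finset.sum_insert hi]
    exact (h i).add ih

theorem Sml.prod {Φ : (En n → V) → En n → W} {Ψ : (En n → V) → En n → W'} (h : Sml V Φ)
    (h' : Sml V Ψ) : Sml V (fun w y => (Φ w y, Ψ w y)) := by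
  obtain ⟨C, hC, h⟩ := h
  obtain ⟨C', hC', h'⟩ := h'
  refine ⟨C + C', by positivity, fun τ η c' w hη hw => ?_⟩
  have h1 : C * η ≤ (C + C') * η := by nlinarith
  have h2 : C' * η ≤ (C + C') * η := by nlinarith
  exact yb_prod (yb_mono (h τ η c' w hη hw) h1 h1) (yb_mono (h' τ η c' w hη hw) h2 h2)

theorem Sml.pi {ι : Type*} [Fintype ι] {Φ : (En n → V) → En n → ι → W}
    (h : ∀ i, Sml V (fun w y => Φ w y i)) : Sml V Φ := by
  choose C hC h using h
  have h0 : 0 ≤ ∑ i, C i := Finset.sum_nonneg fun i _ => (hC i).le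
  refine ⟨∑ i, C i + 1, by positivity, fun τ η c' w hη hw => ?_⟩
  refine yb_pi (by positivity) (by positivity) fun i => ?_
  have h1 : C i ≤ ∑ i, C i := Finset.single_le_sum (fun i _ => (hC i).le) (Finset.mem_univ i)
  have h2 : C i * η ≤ (∑ i, C i + 1) * η := by nlinarith
  exact yb_mono (h i τ η c' w hη hw) h2 h2

end sml

variable {κ : En n → ℝ} {θ : En n → En n}

theorem sml0 (hκ : ContDiff ℝ ∞ κ) (hκc : HasCompactSupport κ) (hθ : ContDiff ℝ ∞ θ)
    (hθc : HasCompactSupport θ) : Sml V (fun w y => κ y • w (θ y)) := by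
  obtain ⟨C, hC, h⟩ := yb_transfer (V := V) hκ hκc hθ hθc
  refine ⟨2 * C, by positivity, fun τ η c' w hη hw => ?_⟩
  exact yb_mono (h τ η η w hη hη hw.y0) (by nlinarith) (by nlinarith)

theorem sml1 (hκ : ContDiff ℝ ∞ κ) (hκc : HasCompactSupport κ) (hθ : ContDiff ℝ ∞ θ)
    (hθc : HasCompactSupport θ) (m : Fin n) : Sml V (fun w y => κ y • pd m w (θ y)) := by
  obtain ⟨C, hC, h⟩ := yb_transfer (V := V) hκ hκc hθ hθc
  refine ⟨2 * C, by positivity, fun τ η c' w hη hw => ?_⟩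
  exact yb_mono (h τ η η _ hη hη (hw.y1 m)) (by nlinarith) (by nlinarith)

theorem contDiff_cp (hθ : ContDiff ℝ ∞ θ) (m : Fin n) : ContDiff ℝ ∞ (cp θ m) :=
  contDiff_iff_contDiffAt.2 fun _ => contDiffAt_cp hθ.contDiffAt m

theorem sml_z1 (hκ : ContDiff ℝ ∞ κ) (hκc : HasCompactSupport κ) (hθ : ContDiff ℝ ∞ θ)
    (hθc : HasCompactSupport θ) (k : Fin n) : Sml V (fun w y => z1 κ θ w y k) :=
  (sml0 (contDiff_pd_top hκ k) (hcs_pd hκc k) hθ hθc).add (Sml.sum _ fun m =>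
    sml1 (κ := fun y => κ y * pd k (cp θ m) y) (hκ.mul (contDiff_pd_top (contDiff_cp hθ m) k))
      hκc.mul_right hθ hθc m)

theorem sml_z2 (hκ : ContDiff ℝ ∞ κ) (hκc : HasCompactSupport κ) (hθ : ContDiff ℝ ∞ θ)
    (hθc : HasCompactSupport θ) (k l : Fin n) : Sml V (fun w y => z2 κ θ w y k l) := by
  refine (sml0 (contDiff_pd_top (contDiff_pd_top hκ l) k) (hcs_pd (hcs_pd hκc l) k) hθ hθc).add
    (Sml.sum _ fun m => sml1 (κ := fun y => pd l κ y * pd k (cp θ m) y +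
      pd k (fun z => κ z * pd l (cp θ m) z) y) ?_ ?_ hθ hθc m)
  · exact ((contDiff_pd_top hκ l).mul (contDiff_pd_top (contDiff_cp hθ m) k)).add
      (contDiff_pd_top (hκ.mul (contDiff_pd_top (contDiff_cp hθ m) l)) k)
  · exact HasCompactSupport.add (f := fun y => pd l κ y * pd k (cp θ m) y)
      (hcs_pd hκc l).mul_right (hcs_pd hκc.mul_right k)

theorem sml_zz (hκ : ContDiff ℝ ∞ κ) (hκc : HasCompactSupport κ) (hθ : ContDiff ℝ ∞ θ)
    (hθc : HasCompactSupport θ) : Sml V (zz κ θ) :=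
  (sml0 hκ hκc hθ hθc).prod ((Sml.pi fun k => sml_z1 hκ hκc hθ hθc k).prod
    (Sml.pi fun k => Sml.pi fun l => sml_z2 hκ hκc hθ hθc k l))

theorem pd_sub_fun {w w' : En n → V} (hw : ContDiff ℝ 2 w) (hw' : ContDiff ℝ 2 w') (m : Fin n) :
    pd m (w - w') = pd m w - pd m w' := funext fun y =>
  pd_sub' (hw.differentiable (by simp) y) (hw'.differentiable (by simp) y) m

theorem pd_pd_sub_fun {w w' : En n → V} (hw : ContDiff ℝ 2 w) (hw' : ContDiff ℝ 2 w')
    (k l : Fin n) : pd k (pd l (w - w')) = pd k (pd l w) - pd k (pd l w') := by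
  rw [pd_sub_fun hw hw']
  exact funext fun y => pd_sub'
    ((contDiff_pd (m := 1) hw (by norm_num) l).differentiable (by simp) y)
    ((contDiff_pd (m := 1) hw' (by norm_num) l).differentiable (by simp) y) k

theorem zz_sub {w w' : En n → V} (hw : ContDiff ℝ 2 w) (hw' : ContDiff ℝ 2 w') (y : En n) :
    zz κ θ (w - w') y = zz κ θ w y - zz κ θ w' y := by
  refine Prod.ext ?_ (Prod.ext (funext fun k => ?_) (funext fun k => funext fun l => ?_))
  · simp [zz, z0, smul_sub]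
  · simp only [zz, z1, pd_sub_fun hw hw', Pi.sub_apply, smul_sub, Finset.sum_sub_distrib,
      Prod.snd_sub, Prod.fst_sub]
    abel
  · simp only [zz, z2, pd_sub_fun hw hw', Pi.sub_apply, smul_sub, Finset.sum_sub_distrib,
      Prod.snd_sub]
    abel

theorem yl_of_yb {τ A c : ℝ} {f : ℝ → En n → V} (h : Yb dist τ A c f) : Yl (Icc 0 τ) univ 0 f :=
  ⟨h.cont, fun _ _ => ⟨1, one_pos, c, fun t ht y _ y' _ => h.hol t ht y y'⟩⟩

theorem yl_z0 (hκ : ContDiff ℝ ∞ κ) (hκc : HasCompactSupport κ) (hθ : ContDiff ℝ ∞ θ)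
    (hθc : HasCompactSupport θ) {τ η c' : ℝ} {w : ℝ → En n → V} (hη : 0 ≤ η) (hc' : 0 ≤ c')
    (hw : SolB τ η c' w) (h2 : ∀ t ∈ Icc 0 τ, ContDiff ℝ 2 (w t)) :
    Yl (Icc 0 τ) univ 2 (fun t => z0 κ θ (w t)) := by
  have k2 : ∀ y, ContDiffAt ℝ 2 κ y := fun y => hκ.contDiffAt.of_le two_le_inf
  have t2 : ∀ y, ContDiffAt ℝ 2 θ y := fun y => hθ.contDiffAt.of_le two_le_inf
  have hz : ∀ t ∈ Icc 0 τ, ∀ y, ContDiffAt ℝ 2 (z0 κ θ (w t)) y := fun t ht y =>
    contDiffAt_z0 (k2 y) (t2 y) (h2 t ht).contDiffAt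
  obtain ⟨C0, -, h0⟩ := sml0 (V := V) hκ hκc hθ hθc
  refine ⟨(h0 τ η c' w hη hw).cont, fun t ht y _ => (hz t ht y).differentiableAt (by simp),
    fun l => ⟨?_, fun t ht y _ =>
      (contDiffAt_pd (m := 1) (hz t ht y) (by norm_num) l).differentiableAt (by simp), fun k => ?_⟩⟩
  · obtain ⟨C1, -, h1⟩ := sml_z1 (V := V) hκ hκc hθ hθc l
    exact (h1 τ η c' w hη hw).cont.congr fun q hq =>
      pd_z0 (k2 _) (t2 _) (h2 _ hq.1).contDiffAt l
  · obtain ⟨C2, -, h3⟩ := sml_z2 (V := V) hκ hκc hθ hθc k l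
    have h4 : Yl (Icc 0 τ) univ 0 (fun t y => z3 κ θ (w t) y k l) := by
      refine Yl.sum isOpen_univ _ fun m _ => Yl.sum isOpen_univ _ fun m' _ => ?_
      obtain ⟨C, -, h5⟩ := yb_transfer (V := V)
        (κ := fun y => κ y * pd l (cp θ m) y * pd k (cp θ m') y)
        ((hκ.mul (contDiff_pd_top (contDiff_cp hθ m) l)).mul
          (contDiff_pd_top (contDiff_cp hθ m') k)) hκc.mul_right.mul_right hθ hθc
      exact yl_of_yb (h5 τ η c' _ hη hc' (hw.y2 m' m))
    exact Yl.congr isOpen_univ (Yl.add isOpen_univ (yl_of_yb (h3 τ η c' w hη hw)) h4)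
      fun t ht y _ => pd_pd_z0 (k2 _) (t2 _) (h2 t ht).contDiffAt k l

theorem pd_pd_sum {ι : Type*} (s : Finset ι) {f : ι → En n → V} {y : En n}
    (hf : ∀ i, ContDiffAt ℝ 2 (f i) y) (k l : Fin n) :
    pd k (pd l fun z => ∑ i ∈ s, f i z) y = ∑ i ∈ s, pd k (pd l (f i)) y := by
  have hev : pd l (fun z => ∑ i ∈ s, f i z) =ᶠ[𝓝 y] fun z => ∑ i ∈ s, pd l (f i) z := by
    filter_upwards [(Finset.eventually_all s).2 fun i _ => (hf i).eventually (by simp)] with z hz
    exact pd_sum' s (fun i hi => (hz i hi).differentiableAt (by simp)) l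
  rw [pd_congr hev, pd_sum' s fun i _ =>
    (contDiffAt_pd (m := 1) (hf i) (by norm_num) l).differentiableAt (by simp)]

end Crest.Agent.N207.P
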