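import Crest.Agent.N207.P.Core1

/-!
# Row 207, parabolic solver (helper11): a fixed point gives a smooth solution
-/

set_option autoImplicit false
set_option linter.unusedSectionVars false

open Set Filter Metric
open scoped ContDiff Topology Manifold

noncomputable section

namespace Crest.Agent.N207.P

variable {n : ℕ} {V : Type*} [NormedAddCommGroup V] [NormedSpace ℝ V]
  {M : Type*} [TopologicalSpace M] [ChartedSpace (En n) M] [IsManifold 𝓘(ℝ, En n) ∞ M]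
  {I : Set ℝ} {O : Set (M × V)} {Op : ℝ → (M → V) → M → V} {N : ℕ} {r : M → ℝ}

/-- the lower order part of the equation in the chart at `x` -/
def QLOp.Phi (Q : QLOp n I O Op) (u0 : M → V) (x : M) (q : ℝ × En n × ZZ n V) : V :=
  ∑ k, ∑ l, Q.a x (q.1, q.2.1, rd n x u0 q.2.1 + q.2.2.1) k l •
      (pd k (pd l (rd n x u0)) q.2.1 + q.2.2.2.2 k l) +
    Q.b x (q.1, (q.2.1, rd n x u0 q.2.1 + q.2.2.1), d1 (rd n x u0) q.2.1 + q.2.2.2.1)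

namespace Atl

variable (𝒜 : Atl n N r)

/-- closed ball of the chart `a` -/
abbrev B (a : Fin N) : Set (En n) := closedBall (cen n (𝒜.x a)) (2 * r (𝒜.x a))

/-- open ball of the chart `a` -/
abbrev U (a : Fin N) : Set (En n) := ball (cen n (𝒜.x a)) (r (𝒜.x a))

theorem U_sub (a : Fin N) : 𝒜.U a ⊆ 𝒜.B a := fun y hy => by
  have h1 : dist y (cen n (𝒜.x a)) < r (𝒜.x a) := hy
  have h2 := dist_nonneg (x := y) (y := cen n (𝒜.x a))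
  exact mem_closedBall.2 (by linarith)

/-- all lower order data in the chart `a` -/
def ze (w : Fin N → En n → V) (a : Fin N) (y : En n) : ZZ n V :=
  ∑ c, zz (𝒜.ψ c a) (𝒜.θ c a) (w c) y

/-- the global function -/
def uu (u0 : M → V) (w : Fin N → En n → V) (p : M) : V :=
  u0 p + ∑ c, 𝒜.χ c p • w c (chartAt (En n) (𝒜.x c) p)

/-- its expression in the chart `a` -/
def gg (u0 : M → V) (w : Fin N → En n → V) (a : Fin N) (y : En n) : V :=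
  rd n (𝒜.x a) u0 y + ∑ c, z0 (𝒜.ψ c a) (𝒜.θ c a) (w c) y

theorem rd_uu (u0 : M → V) (w : Fin N → En n → V) {a : Fin N} {y : En n} (hy : y ∈ 𝒜.B a) :
    rd n (𝒜.x a) (𝒜.uu u0 w) =ᶠ[𝓝 y] 𝒜.gg u0 w a := by
  filter_upwards [(Finset.eventually_all Finset.univ).2
    fun c _ => 𝒜.rd_piece c a hy (w c)] with z hz
  simp only [gg, ← hz _ (Finset.mem_univ _)]
  rfl

variable {𝒜} {u0 : M → V} {w : Fin N → En n → V}

theorem c2_z0 (hw : ∀ c, ContDiff ℝ 2 (w c)) (c a : Fin N) (y : En n) :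
    ContDiffAt ℝ 2 (z0 (𝒜.ψ c a) (𝒜.θ c a) (w c)) y :=
  contDiffAt_z0 ((𝒜.ψ_sm c a).contDiffAt.of_le two_le_inf)
    ((𝒜.θ_sm c a).contDiffAt.of_le two_le_inf) (hw c).contDiffAt

theorem c2_uu (hw : ∀ c, ContDiff ℝ 2 (w c)) {a : Fin N} {y : En n} (hy : y ∈ 𝒜.B a)
    (h0 : ContDiffAt ℝ 2 (rd n (𝒜.x a) u0) y) : ContDiffAt ℝ 2 (rd n (𝒜.x a) (𝒜.uu u0 w)) y :=
  (h0.add (ContDiffAt.sum fun c _ => c2_z0 hw c a y)).congr_of_eventuallyEq (𝒜.rd_uu u0 w hy)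

theorem val_uu {a : Fin N} {y : En n} (hy : y ∈ 𝒜.B a) :
    rd n (𝒜.x a) (𝒜.uu u0 w) y = rd n (𝒜.x a) u0 y + (𝒜.ze w a y).1 := by
  rw [(𝒜.rd_uu u0 w hy).self_of_nhds]
  simp [gg, ze, zz, Prod.fst_sum]

theorem N_uu (Q : QLOp n I O Op) (hO : IsOpen O) {t : ℝ} (ht : t ∈ I)
    (hw : ∀ c, ContDiff ℝ 2 (w c)) {a : Fin N} {y : En n} (hy : y ∈ 𝒜.B a)
    (h0 : ContDiffAt ℝ 2 (rd n (𝒜.x a) u0) y)
    (hm : ((chartAt (En n) (𝒜.x a)).symm y, rd n (𝒜.x a) (𝒜.uu u0 w) y) ∈ O) :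
    Q.N (𝒜.x a) t (rd n (𝒜.x a) (𝒜.uu u0 w)) y = Q.Phi u0 (𝒜.x a) (t, y, 𝒜.ze w a y) +
      ∑ c, 𝒜.χ c ((chartAt (En n) (𝒜.x a)).symm y) •
        Lop (Q.a (𝒜.x c) (t, tr n (𝒜.x a) (𝒜.x c) y, rd n (𝒜.x a) (𝒜.uu u0 w) y)) (w c)
          (tr n (𝒜.x a) (𝒜.x c) y) := by
  have hJ := Jet2.of_ev (𝒜.rd_uu u0 w hy)
  have hs : ContDiffAt ℝ 2 (fun z => ∑ c, z0 (𝒜.ψ c a) (𝒜.θ c a) (w c) z) y :=
    ContDiffAt.sum fun c _ => c2_z0 hw c a y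
  have k2 : ∀ c, ContDiffAt ℝ 2 (𝒜.ψ c a) y := fun c => (𝒜.ψ_sm c a).contDiffAt.of_le two_le_inf
  have t2 : ∀ c, ContDiffAt ℝ 2 (𝒜.θ c a) y := fun c => (𝒜.θ_sm c a).contDiffAt.of_le two_le_inf
  have e1 : d1 (rd n (𝒜.x a) (𝒜.uu u0 w)) y = d1 (rd n (𝒜.x a) u0) y + (𝒜.ze w a y).2.1 := by
    rw [hJ.d1]
    funext k
    have : pd k (𝒜.gg u0 w a) y = _ :=
      pd_add' (h0.differentiableAt (by simp)) (hs.differentiableAt (by simp)) k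
    rw [d1, this, pd_sum' _ fun c _ => (c2_z0 hw c a y).differentiableAt (by simp)]
    simp only [pd_z0 (k2 _) (t2 _) (hw _).contDiffAt, ze, zz, Prod.snd_sum, Prod.fst_sum,
      Pi.add_apply, Finset.sum_apply, d1]
  have e2 : ∀ k l, pd k (pd l (rd n (𝒜.x a) (𝒜.uu u0 w))) y =
      (pd k (pd l (rd n (𝒜.x a) u0)) y + (𝒜.ze w a y).2.2 k l) +
        ∑ c, z3 (𝒜.ψ c a) (𝒜.θ c a) (w c) y k l := by
    intro k l
    have : pd k (pd l (𝒜.gg u0 w a)) y = _ := lop_add h0 hs k l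
    rw [hJ.e2, this, pd_pd_sum _ fun c => c2_z0 hw c a y]
    simp only [pd_pd_z0 (k2 _) (t2 _) (hw _).contDiffAt, ze, zz, Prod.snd_sum,
      Finset.sum_apply, Finset.sum_add_distrib, add_assoc]
  simp only [← 𝒜.top_piece Q hO ht _ a hy hm (hw _)]
  simp only [QLOp.N, QLOp.Phi, Lop, e1, e2, ← val_uu hy, smul_add, Finset.sum_add_distrib,
    Finset.smul_sum]
  have : ∑ k, ∑ l, ∑ c, Q.a (𝒜.x a) (t, y, rd n (𝒜.x a) (𝒜.uu u0 w) y) k l •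
      z3 (𝒜.ψ c a) (𝒜.θ c a) (w c) y k l = ∑ c, ∑ k, ∑ l,
      Q.a (𝒜.x a) (t, y, rd n (𝒜.x a) (𝒜.uu u0 w) y) k l •
      z3 (𝒜.ψ c a) (𝒜.θ c a) (w c) y k l := by
    rw [Finset.sum_comm (s := (Finset.univ : Finset (Fin N)))]
    exact Finset.sum_congr rfl fun k _ => Finset.sum_comm
  rw [this]
  abel

/-- the data produced by the fixed point theorem -/
structure Fx (𝒜 : Atl n N r) (Q : QLOp n I O Op) (u0 : M → V) (H : ℝ → M → V) (s τ : ℝ)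
    (a0 : Fin N → Matrix (Fin n) (Fin n) ℝ) (f w : Fin N → ℝ → En n → V) : Prop where
  sub : ∀ a, 𝒜.B a ⊆ (chartAt (En n) (𝒜.x a)).target
  sol : ∀ a, Solves (a0 a) τ (f a) (w a)
  bd : ∀ a, ∃ η c', 0 ≤ η ∧ 0 ≤ c' ∧ SolB τ η c' (w a)
  mem : ∀ a, ∀ t ∈ Icc 0 τ, ∀ y ∈ 𝒜.B a, ((chartAt (En n) (𝒜.x a)).symm y,
    rd n (𝒜.x a) u0 y + (𝒜.ze (fun c => w c t) a y).1) ∈ O
  fix : ∀ a, ∀ t ∈ Icc 0 τ, ∀ y ∈ 𝒜.U a, f a t y =
    ∑ k, ∑ l, (Q.a (𝒜.x a) (s + t, y, rd n (𝒜.x a) u0 y + (𝒜.ze (fun c => w c t) a y).1) k l -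
      a0 a k l) • pd k (pd l (w a t)) y +
      Q.Phi u0 (𝒜.x a) (s + t, y, 𝒜.ze (fun c => w c t) a y) + rd n (𝒜.x a) (H (s + t)) y

variable {Q : QLOp n I O Op} {H : ℝ → M → V} {s τ : ℝ}
  {a0 : Fin N → Matrix (Fin n) (Fin n) ℝ} {f W : Fin N → ℝ → En n → V}

theorem Fx.memO (h : Fx 𝒜 Q u0 H s τ a0 f W) {t : ℝ} (ht : t ∈ Icc 0 τ) (p : M) :
    (p, 𝒜.uu u0 (fun c => W c t) p) ∈ O := by
  obtain ⟨a, h1, h2⟩ := 𝒜.cover p
  have h3 := h.mem a t ht _ (𝒜.U_sub a h2)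
  rw [← val_uu (𝒜.U_sub a h2), rd, (chartAt (En n) (𝒜.x a)).left_inv h1] at h3
  exact h3

theorem Fx.deriv (h : Fx 𝒜 Q u0 H s τ a0 f W) (hO : IsOpen O)
    (hu0 : ContMDiff 𝓘(ℝ, En n) 𝓘(ℝ, V) ∞ u0) {t : ℝ} (ht : t ∈ Icc 0 τ) (hst : s + t ∈ I)
    {a : Fin N} {y : En n} (hy : y ∈ 𝒜.B a) :
    HasDerivWithinAt (fun t' => rd n (𝒜.x a) (𝒜.uu u0 fun c => W c t') y)
      (Q.N (𝒜.x a) (s + t) (rd n (𝒜.x a) (𝒜.uu u0 fun c => W c t)) y +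
        rd n (𝒜.x a) (H (s + t)) y) (Icc 0 τ) t := by
  set p := (chartAt (En n) (𝒜.x a)).symm y with hp
  set u := 𝒜.uu u0 fun c => W c t with hu
  have hw : ∀ c, ContDiff ℝ 2 (W c t) := fun c => (h.sol c).c2 t ht
  have h0 : ∀ c, ∀ z ∈ 𝒜.B c, ContDiffAt ℝ 2 (rd n (𝒜.x c) u0) z := fun c z hz =>
    ((contDiffOn_rd hu0 _).contDiffAt
      ((chartAt (En n) (𝒜.x c)).open_target.mem_nhds (h.sub c hz))).of_le two_le_inf
  have h1 : HasDerivWithinAt (fun t' => rd n (𝒜.x a) (𝒜.uu u0 fun c => W c t') y)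
      (∑ c, 𝒜.χ c p • (Lop (a0 c) (W c t) (chartAt (En n) (𝒜.x c) p) +
        f c t (chartAt (En n) (𝒜.x c) p))) (Icc 0 τ) t :=
    (HasDerivWithinAt.fun_sum fun c _ =>
      ((h.sol c).eqn t ht (chartAt (En n) (𝒜.x c) p)).const_smul (𝒜.χ c p)).const_add (u0 p)
  convert h1 using 1
  set S := ∑ c, 𝒜.χ c p • Lop (Q.a (𝒜.x c) (s + t, chartAt (En n) (𝒜.x c) p, u p)) (W c t)
    (chartAt (En n) (𝒜.x c) p) with hS
  set N0 := Q.N (𝒜.x a) (s + t) (rd n (𝒜.x a) u) y with hN0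
  have key : ∀ c, 𝒜.χ c p • (Lop (a0 c) (W c t) (chartAt (En n) (𝒜.x c) p) +
      f c t (chartAt (En n) (𝒜.x c) p)) =
      𝒜.χ c p • Lop (Q.a (𝒜.x c) (s + t, chartAt (En n) (𝒜.x c) p, u p)) (W c t)
        (chartAt (En n) (𝒜.x c) p) + 𝒜.χ c p • (N0 - S + H (s + t) p) := by
    intro c
    by_cases hc : 𝒜.χ c p = 0
    · simp [hc]
    obtain ⟨hs1, hs2⟩ := 𝒜.supp c p hc
    rw [← smul_add]
    congr 1
    set yc := chartAt (En n) (𝒜.x c) p with hyc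
    have hpc : (chartAt (En n) (𝒜.x c)).symm yc = p := (chartAt (En n) (𝒜.x c)).left_inv hs1
    have hB := 𝒜.U_sub c hs2
    have hv : rd n (𝒜.x c) u yc = u p := by rw [rd, hpc]
    have hmO : (p, u p) ∈ O := h.memO ht p
    have e1 := N_uu Q hO hst hw hB (h0 c yc hB) (by rw [← hu, hv, hpc]; exact hmO)
    rw [← hu, hv] at e1
    simp only [tr, hpc, ← hS] at e1
    have hyd : y ∈ td n (𝒜.x a) (𝒜.x c) := ⟨h.sub a hy, hs1⟩
    have e2 : N0 = Q.N (𝒜.x c) (s + t) (rd n (𝒜.x c) u) yc := by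
      rw [hN0, (Jet2.of_ev (rd_tr hyd u)).N Q]
      exact Q.compat hO hst hyd (c2_uu hw hB (h0 c yc hB)) (by
        show (p, rd n (𝒜.x c) u yc) ∈ O
        rw [hv]; exact hmO)
    have e3 := h.fix c t ht yc hs2
    rw [← val_uu hB, ← hu, hv] at e3
    rw [e3, e2, e1]
    simp only [Lop, sub_smul, Finset.sum_sub_distrib, rd, hpc]
    abel
  simp only [key, Finset.sum_add_distrib, ← Finset.sum_smul, 𝒜.sum, one_smul, ← hS]
  simp only [rd, ← hp]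
  abel

theorem Fx.yl (h : Fx 𝒜 Q u0 H s τ a0 f W) (hu0 : ContMDiff 𝓘(ℝ, En n) 𝓘(ℝ, V) ∞ u0)
    (a : Fin N) :
    Yl (Icc 0 τ) (𝒜.U a) 2 (fun t => rd n (𝒜.x a) (𝒜.uu u0 fun c => W c t)) := by
  have h1 : Yl (Icc 0 τ) (𝒜.U a) 2 (fun _ => rd n (𝒜.x a) u0) :=
    yl_static isCompact_Icc isOpen_ball
      ((contDiffOn_rd hu0 _).mono ((𝒜.U_sub a).trans (h.sub a)))
  have h2 : Yl (Icc 0 τ) (𝒜.U a) 2 (fun t y => ∑ c, z0 (𝒜.ψ c a) (𝒜.θ c a) (W c t) y) := by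
    refine Yl.sum isOpen_ball _ fun c _ => ?_
    obtain ⟨η, c', h3, h4, h5⟩ := h.bd c
    exact (yl_z0 (𝒜.ψ_sm c a) (𝒜.ψ_cs c a) (𝒜.θ_sm c a) (𝒜.θ_cs c a) h3 h4 h5
      (h.sol c).c2).mono le_rfl (subset_univ _)
  exact Yl.congr isOpen_ball (h1.add isOpen_ball h2) fun t _ y hy =>
    (𝒜.rd_uu u0 _ (𝒜.U_sub a hy)).self_of_nhds

theorem Fx.isSol {a b : ℝ} {Q : QLOp n (Icc a b) O Op} (h : Fx 𝒜 Q u0 H s τ a0 f W)
    (hR : RegStmt n V) (hO : IsOpen O) (hu0 : ContMDiff 𝓘(ℝ, En n) 𝓘(ℝ, V) ∞ u0) (hτ : 0 < τ)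
    (has : a ≤ s) (hsb : s + τ ≤ b) (hH : SmV n H (Icc a b)) :
    𝒜.uu u0 (fun c => W c (s - s)) = u0 ∧
      IsSol n O Op H s (s + τ) (fun t => 𝒜.uu u0 fun c => W c (t - s)) := by
  have hm : ∀ t ∈ Icc s (s + τ), t - s ∈ Icc 0 τ := fun t ht =>
    ⟨by linarith [ht.1], by linarith [ht.2]⟩
  have hI : Icc s (s + τ) ⊆ Icc a b := Icc_subset_Icc has hsb
  have init : 𝒜.uu u0 (fun c => W c (s - s)) = u0 := by
    funext p; simp [uu, (h.sol _).init]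
  set u : ℝ → M → V := fun t => 𝒜.uu u0 fun c => W c (t - s) with hu
  have hmem : ∀ t ∈ Icc s (s + τ), ∀ p, (p, u t p) ∈ O := fun t ht p => h.memO (hm t ht) p
  have hder : ∀ t ∈ Icc s (s + τ), ∀ i, ∀ y ∈ 𝒜.B i,
      HasDerivWithinAt (fun t' => rd n (𝒜.x i) (u t') y)
        (Q.N (𝒜.x i) t (rd n (𝒜.x i) (u t)) y + rd n (𝒜.x i) (H t) y) (Icc s (s + τ)) t := by
    intro t ht i y hy
    have h1 := h.deriv hO hu0 (hm t ht) (by simpa using hI ht) hy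
    have h2 : HasDerivWithinAt (fun t' : ℝ => t' - s) 1 (Icc s (s + τ)) t :=
      (hasDerivWithinAt_id t _).sub_const s
    have h3 := h1.scomp t h2 hm
    simpa [Function.comp_def] using h3
  have hloc : ∀ i, ContDiffOn ℝ ∞ (fun q : ℝ × En n => rd n (𝒜.x i) (u q.1) q.2)
      (Icc s (s + τ) ×ˢ 𝒜.U i) := by
    intro i
    have hUT : 𝒜.U i ⊆ (chartAt (En n) (𝒜.x i)).target := (𝒜.U_sub i).trans (h.sub i)
    refine hR s (s + τ) (𝒜.U i) (domO n O (𝒜.x i)) (Q.a (𝒜.x i))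
      (fun q => Q.b (𝒜.x i) q + rd n (𝒜.x i) (H q.1) q.2.1.1) (fun t => rd n (𝒜.x i) (u t))
      (by linarith) isOpen_ball (isOpen_domO hO _)
      (fun k l => (Q.sa _ k l).mono (prod_mono hI le_rfl)) ?_
      (fun t ht y hy => ⟨hUT hy, hmem t ht _⟩)
      (fun t ht y hy => Q.pos _ t (hI ht) _ ⟨hUT hy, hmem t ht _⟩) ?_ ?_ fun t ht y hy => ?_
    · refine ((Q.sb _).mono (prod_mono hI le_rfl)).add ?_
      exact (hH (𝒜.x i)).comp (f := fun q : ℝ × (En n × V) × (Fin n → V) => (q.1, q.2.1.1))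
        (by fun_prop) fun q hq => ⟨hI hq.1, hq.2.1.1⟩
    · exact (h.yl hu0 i).comp_time (σ := fun t => t - s) (by fun_prop) hm
    · rw [show u s = u0 from init]
      exact (contDiffOn_rd hu0 _).mono hUT
    · have := hder t ht i y (𝒜.U_sub i hy)
      simp only [QLOp.N, add_assoc] at this
      exact this
  have hsm : SmV n u (Icc s (s + τ)) := by
    intro x q hq
    obtain ⟨i, h1, h2⟩ := 𝒜.cover ((chartAt (En n) x).symm q.2)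
    have hd : q.2 ∈ td n x (𝒜.x i) := ⟨hq.2, h1⟩
    have hW : IsOpen (td n x (𝒜.x i) ∩ tr n x (𝒜.x i) ⁻¹' 𝒜.U i) :=
      (contDiffOn_tr _ _).continuousOn.isOpen_inter_preimage (isOpen_td _ _) isOpen_ball
    have h3 : ContDiffOn ℝ ∞ (fun q : ℝ × En n => rd n (𝒜.x i) (u q.1) (tr n x (𝒜.x i) q.2))
        (Icc s (s + τ) ×ˢ (td n x (𝒜.x i) ∩ tr n x (𝒜.x i) ⁻¹' 𝒜.U i)) :=
      (hloc i).comp (f := fun q : ℝ × En n => (q.1, tr n x (𝒜.x i) q.2))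
        (contDiffOn_fst.prodMk ((contDiffOn_tr _ _).comp contDiffOn_snd fun q hq => hq.2.1))
        fun q hq => ⟨hq.1, hq.2.2⟩
    have h4 : ContDiffOn ℝ ∞ (fun q : ℝ × En n => rd n x (u q.1) q.2)
        (Icc s (s + τ) ×ˢ (td n x (𝒜.x i) ∩ tr n x (𝒜.x i) ⁻¹' 𝒜.U i)) :=
      h3.congr fun q hq => by simp only [rd, symm_tr hq.2.1]
    refine (h4 q ⟨hq.1, hd, h2⟩).mono_of_mem_nhdsWithin ?_
    refine mem_nhdsWithin.2 ⟨univ ×ˢ _, isOpen_univ.prod hW, ⟨mem_univ _, hd, h2⟩, ?_⟩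
    exact fun p hp => ⟨hp.2.1, hp.1.2⟩
  refine ⟨init, hsm, hmem, fun t ht p => ?_⟩
  obtain ⟨i, h1, h2⟩ := 𝒜.cover p
  have h3 := hder t ht i _ (𝒜.U_sub i h2)
  have h4 : ContMDiff 𝓘(ℝ, En n) 𝓘(ℝ, V) ∞ (u t) := by
    refine contMDiff_of_rd fun x => ?_
    have h5 : ContDiffOn ℝ ∞ (rd n x (u t)) (chartAt (En n) x).target :=
      (hsm x).comp (f := fun y : En n => (t, y)) (by fun_prop) fun y hy => ⟨ht, hy⟩
    exact h5.contDiffAt ((chartAt (En n) x).open_target.mem_nhds (mem_chart_target _ x))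
  have h6 := Q.rep (𝒜.x i) t (hI ht) _ ((chartAt (En n) (𝒜.x i)).map_source h1) (u t) univ
    isOpen_univ (mem_univ _) h4.contMDiffOn fun p _ => hmem t ht p
  rw [(chartAt (En n) (𝒜.x i)).left_inv h1] at h6
  rw [h6]
  simpa only [rd, (chartAt (En n) (𝒜.x i)).left_inv h1, QLOp.N] using h3

end Atl

end Crest.Agent.N207.P
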