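import Crest.Agent.N207.P.Tr

/-!
# Row 207, parabolic solver (helper11): Nemytskii bounds of smooth coefficients
-/

set_option autoImplicit false
set_option linter.unusedSectionVars false

open Set Filter Metric
open scoped ContDiff Topology

noncomputable section

namespace Crest.Agent.N207.P

variable {n : ℕ}

section par

variable {W G : Type*} [NormedAddCommGroup W] [NormedSpace ℝ W] [NormedAddCommGroup G]
  [NormedSpace ℝ G]

/-- derivative in the second variable -/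
def D2 (Ψ : ℝ × W → G) (q : ℝ × W) : W →L[ℝ] G := fderiv ℝ (fun w => Ψ (q.1, w)) q.2

theorem d2_spec {I : Set ℝ} {Ω : Set W} (hI : UniqueDiffOn ℝ I) (hΩ : IsOpen Ω) {Ψ : ℝ × W → G}
    (h : ContDiffOn ℝ ∞ Ψ (I ×ˢ Ω)) :
    (∀ t ∈ I, ∀ w ∈ Ω, HasFDerivAt (fun w => Ψ (t, w)) (D2 Ψ (t, w)) w) ∧
      ContDiffOn ℝ ∞ (D2 Ψ) (I ×ˢ Ω) := by
  have hu : UniqueDiffOn ℝ (I ×ˢ Ω) := hI.prod hΩ.uniqueDiffOn
  have key : ∀ t ∈ I, ∀ w ∈ Ω, HasFDerivAt (fun w => Ψ (t, w))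
      ((fderivWithin ℝ Ψ (I ×ˢ Ω) (t, w)).comp (ContinuousLinearMap.inr ℝ ℝ W)) w := by
    intro t ht w hw
    have h1 := (h.differentiableOn (by simp) (t, w) ⟨ht, hw⟩).hasFDerivWithinAt
    have h2 : HasFDerivWithinAt (fun w : W => ((t, w) : ℝ × W)) (ContinuousLinearMap.inr ℝ ℝ W)
        Ω w := (hasFDerivAt_prodMk_right t w).hasFDerivWithinAt
    exact (h1.comp w h2 fun z hz => ⟨ht, hz⟩).hasFDerivAt (hΩ.mem_nhds hw)
  refine ⟨fun t ht w hw => (key t ht w hw).differentiableAt.hasFDerivAt, ?_⟩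
  have h3 : ContDiffOn ℝ ∞ (fun q => (fderivWithin ℝ Ψ (I ×ˢ Ω) q).comp
      (ContinuousLinearMap.inr ℝ ℝ W)) (I ×ˢ Ω) :=
    (h.fderivWithin hu (m := ∞) (by simp)).clm_comp contDiffOn_const
  exact h3.congr fun q hq => (key q.1 hq.1 q.2 hq.2).fderiv

end par

section nem

variable {Z G : Type*} [NormedAddCommGroup Z] [NormedSpace ℝ Z] [FiniteDimensional ℝ Z]
  [NormedAddCommGroup G] [NormedSpace ℝ G]

/-- smooth on `[a,b] × Ω`, vanishing for `y` outside of the closed set `Kc` -/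
structure Cut (a b : ℝ) (Kc : Set (En n)) (Ω : Set (En n × Z)) (Ψ : ℝ × En n × Z → G) : Prop where
  sm : ContDiffOn ℝ ∞ Ψ (Icc a b ×ˢ Ω)
  zero : ∀ t, ∀ y ∉ Kc, ∀ z, Ψ (t, y, z) = 0

variable {a b ρ : ℝ} {Kc : Set (En n)} {Ω : Set (En n × Z)}

theorem Cut.d2 (hab : a < b) (hK : IsCompact Kc) (hΩ : IsOpen Ω) {Ψ : ℝ × En n × Z → G}
    (h : Cut a b Kc Ω Ψ) : Cut a b Kc Ω (D2 Ψ) := by
  refine ⟨(d2_spec (uniqueDiffOn_Icc hab) hΩ h.sm).2, fun t y hy z => ?_⟩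
  have : (fun w : En n × Z => Ψ (t, w)) =ᶠ[𝓝 (y, z)] fun _ => 0 := by
    have ho : IsOpen (Kcᶜ ×ˢ (univ : Set Z)) := hK.isClosed.isOpen_compl.prod isOpen_univ
    filter_upwards [ho.mem_nhds ⟨hy, mem_univ _⟩] with w hw
    exact h.zero t w.1 hw.1 w.2
  simp only [D2]
  rw [this.fderiv_eq]; simp

theorem Cut.bdd (hK : IsCompact Kc) (hsub : univ ×ˢ closedBall (0 : Z) ρ ⊆ Ω)
    {Ψ : ℝ × En n × Z → G} (h : Cut a b Kc Ω Ψ) :
    ∃ K : ℝ, 0 < K ∧ ∀ t ∈ Icc a b, ∀ y z, ‖z‖ ≤ ρ → ‖Ψ (t, y, z)‖ ≤ K := by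
  have hc : IsCompact (Icc a b ×ˢ Kc ×ˢ closedBall (0 : Z) ρ) :=
    isCompact_Icc.prod (hK.prod (isCompact_closedBall _ _))
  obtain ⟨K, hK'⟩ := hc.exists_bound_of_continuousOn (f := Ψ) (h.sm.continuousOn.mono
    (prod_mono le_rfl ((prod_mono (subset_univ _) le_rfl).trans hsub)))
  refine ⟨max K 1, lt_max_of_lt_right one_pos, fun t ht y z hz => ?_⟩
  by_cases hy : y ∈ Kc
  · exact (hK' (t, y, z) ⟨ht, hy, by simpa using hz⟩).trans (le_max_left _ _)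
  · rw [h.zero t y hy z]; simp

theorem Cut.lip (hab : a < b) (hK : IsCompact Kc) (hΩ : IsOpen Ω)
    (hsub : univ ×ˢ closedBall (0 : Z) ρ ⊆ Ω) {Ψ : ℝ × En n × Z → G} (h : Cut a b Kc Ω Ψ) :
    ∃ K : ℝ, 0 < K ∧ ∀ t ∈ Icc a b, ∀ x y z z', ‖z‖ ≤ ρ → ‖z'‖ ≤ ρ →
      ‖Ψ (t, x, z) - Ψ (t, y, z')‖ ≤ K * (√(dist x y) + ‖z - z'‖) := by
  obtain ⟨K0, hK0, h0⟩ := h.bdd hK hsub
  obtain ⟨K1, hK1, h1⟩ := (h.d2 hab hK hΩ).bdd hK hsub
  have hd := (d2_spec (uniqueDiffOn_Icc hab) hΩ h.sm).1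
  have hcv : Convex ℝ ((univ : Set (En n)) ×ˢ closedBall (0 : Z) ρ) :=
    convex_univ.prod (convex_closedBall _ _)
  have mv : ∀ t ∈ Icc a b, ∀ x y z z', ‖z‖ ≤ ρ → ‖z'‖ ≤ ρ →
      ‖Ψ (t, x, z) - Ψ (t, y, z')‖ ≤ K1 * ‖((x, z) : En n × Z) - (y, z')‖ := by
    intro t ht x y z z' hz hz'
    exact hcv.norm_image_sub_le_of_norm_hasFDerivWithin_le (f := fun w => Ψ (t, w))
      (f' := fun w => D2 Ψ (t, w)) (fun w hw => (hd t ht w (hsub hw)).hasFDerivWithinAt)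
      (fun w hw => h1 t ht w.1 w.2 (by simpa using hw.2)) ⟨mem_univ _, by simpa using hz'⟩
      ⟨mem_univ _, by simpa using hz⟩
  refine ⟨2 * K0 + K1, by positivity, fun t ht x y z z' hz hz' => ?_⟩
  have e : Ψ (t, x, z) - Ψ (t, y, z') =
      (Ψ (t, x, z) - Ψ (t, y, z)) + (Ψ (t, y, z) - Ψ (t, y, z')) := by abel
  have a1 : ‖Ψ (t, x, z) - Ψ (t, y, z)‖ ≤ (2 * K0 + K1) * √(dist x y) := by
    refine le_sqrt_of_min hK0.le hK1.le dist_nonneg ((norm_sub_le _ _).trans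
      (by linarith [h0 t ht x z hz, h0 t ht y z hz])) ?_
    simpa [Prod.norm_def, dist_eq_norm] using mv t ht x y z z hz hz
  have a2 : ‖Ψ (t, y, z) - Ψ (t, y, z')‖ ≤ K1 * ‖z - z'‖ := by
    simpa [Prod.norm_def] using mv t ht y y z z' hz hz'
  rw [e]
  refine (norm_add_le _ _).trans ?_
  nlinarith [norm_nonneg (z - z')]

theorem Cut.sec (hab : a < b) (hK : IsCompact Kc) (hΩ : IsOpen Ω)
    (hsub : univ ×ˢ closedBall (0 : Z) ρ ⊆ Ω) {Ψ : ℝ × En n × Z → G} (h : Cut a b Kc Ω Ψ) :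
    ∃ K : ℝ, 0 < K ∧ ∀ t ∈ Icc a b, ∀ x y z z' e e', ‖z‖ ≤ ρ → ‖z'‖ ≤ ρ → ‖e‖ ≤ ρ → ‖e'‖ ≤ ρ →
      ‖(Ψ (t, x, z) - Ψ (t, x, z')) - (Ψ (t, y, e) - Ψ (t, y, e'))‖ ≤
        K * (‖(z - z') - (e - e')‖ + (√(dist x y) + ‖z - e‖ + ‖z' - e'‖) * ‖e - e'‖) := by
  obtain ⟨K1, hK1, h1⟩ := (h.d2 hab hK hΩ).bdd hK hsub
  obtain ⟨K2, hK2, h2⟩ := (h.d2 hab hK hΩ).lip hab hK hΩ hsub
  have hd := (d2_spec (uniqueDiffOn_Icc hab) hΩ h.sm).1
  refine ⟨K1 + K2, by positivity, fun t ht x y z z' e e' hz hz' he he' => ?_⟩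
  have seg : ∀ {p q : Z}, ‖p‖ ≤ ρ → ‖q‖ ≤ ρ → ∀ s ∈ Icc (0 : ℝ) 1, ‖q + s • (p - q)‖ ≤ ρ := by
    intro p q hp hq s hs
    have := (convex_closedBall (0 : Z) ρ).add_smul_sub_mem (x := q) (y := p) (by simpa using hq)
      (by simpa using hp) hs
    simpa using this
  have der : ∀ (x : En n) {p q : Z}, ‖p‖ ≤ ρ → ‖q‖ ≤ ρ → ∀ s ∈ Icc (0 : ℝ) 1,
      HasDerivAt (fun s : ℝ => Ψ (t, x, q + s • (p - q)))
        (D2 Ψ (t, x, q + s • (p - q)) (0, p - q)) s := by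
    intro x p q hp hq s hs
    have h3 : HasDerivAt (fun s : ℝ => ((x, q + s • (p - q)) : En n × Z)) (0, p - q) s := by
      refine (hasDerivAt_const s x).prodMk ?_
      simpa using ((hasDerivAt_id s).smul_const (p - q)).const_add q
    exact (hd t ht _ (hsub ⟨mem_univ _, by simpa using seg hp hq s hs⟩)).comp_hasDerivAt s h3
  have key := norm_image_sub_le_of_norm_deriv_le_segment_01'
    (f := fun s : ℝ => Ψ (t, x, z' + s • (z - z')) - Ψ (t, y, e' + s • (e - e')))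
    (f' := fun s => D2 Ψ (t, x, z' + s • (z - z')) (0, z - z') -
      D2 Ψ (t, y, e' + s • (e - e')) (0, e - e'))
    (C := (K1 + K2) * (‖(z - z') - (e - e')‖ + (√(dist x y) + ‖z - e‖ + ‖z' - e'‖) * ‖e - e'‖))
    (fun s hs => ((der x hz hz' s hs).sub (der y he he' s hs)).hasDerivWithinAt) ?_
  · simp only [one_smul, zero_smul, add_zero, add_sub_cancel] at key
    have e1 : Ψ (t, x, z) - Ψ (t, x, z') - (Ψ (t, y, e) - Ψ (t, y, e')) =
        Ψ (t, x, z) - Ψ (t, y, e) - (Ψ (t, x, z') - Ψ (t, y, e')) := by abel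
    rw [e1]; exact key
  · intro s hs
    have hs' : s ∈ Icc (0 : ℝ) 1 := Ico_subset_Icc_self hs
    set L1 := D2 Ψ (t, x, z' + s • (z - z'))
    set L2 := D2 Ψ (t, y, e' + s • (e - e'))
    have e1 : L1 (0, z - z') - L2 (0, e - e') =
        L1 (0, (z - z') - (e - e')) + (L1 - L2) (0, e - e') := by
      have : ((0, (z - z') - (e - e')) : En n × Z) = (0, z - z') - (0, e - e') := by simp
      rw [this, map_sub, sub_apply]; abel
    have b1 : ‖L1 (0, (z - z') - (e - e'))‖ ≤ K1 * ‖(z - z') - (e - e')‖ := by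
      refine (L1.le_opNorm _).trans ?_
      simp only [Prod.norm_def, norm_zero, norm_nonneg, max_eq_right]
      exact mul_le_mul_of_nonneg_right (h1 t ht _ _ (seg hz hz' s hs')) (norm_nonneg _)
    have b3 : ‖z' + s • (z - z') - (e' + s • (e - e'))‖ ≤ ‖z - e‖ + ‖z' - e'‖ := by
      have : z' + s • (z - z') - (e' + s • (e - e')) = s • (z - e) + (1 - s) • (z' - e') := by
        module
      rw [this]
      refine (norm_add_le _ _).trans (add_le_add ?_ ?_)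
      · rw [norm_smul, Real.norm_of_nonneg hs'.1]
        nlinarith [norm_nonneg (z - e), hs'.2]
      · rw [norm_smul, Real.norm_of_nonneg (by linarith [hs'.2])]
        nlinarith [norm_nonneg (z' - e'), hs'.1]
    have b2 : ‖(L1 - L2) (0, e - e')‖ ≤
        K2 * (√(dist x y) + ‖z - e‖ + ‖z' - e'‖) * ‖e - e'‖ := by
      refine ((L1 - L2).le_opNorm _).trans ?_
      simp only [Prod.norm_def, norm_zero, norm_nonneg, max_eq_right]
      refine mul_le_mul_of_nonneg_right ((h2 t ht x y _ _ (seg hz hz' s hs')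
        (seg he he' s hs')).trans ?_) (norm_nonneg _)
      exact mul_le_mul_of_nonneg_left (by linarith) hK2.le
    rw [e1]
    refine (norm_add_le _ _).trans ((add_le_add b1 b2).trans ?_)
    have p1 := norm_nonneg ((z - z') - (e - e'))
    have p2 : 0 ≤ (√(dist x y) + ‖z - e‖ + ‖z' - e'‖) * ‖e - e'‖ := by positivity
    nlinarith

theorem Nem.mono {X : Type*} [TopologicalSpace X] {d : X → X → ℝ} {τ K K' : ℝ}
    {H : ℝ → X → Z → G} (h : Nem d τ ρ K H) (hK : K ≤ K') : Nem d τ ρ K' H :=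
  ⟨h.cont, fun t ht x z hz => (h.sup t ht x z hz).trans hK,
    fun t ht x y z z' hz hz' => (h.lip t ht x y z z' hz hz').trans
      (mul_le_mul_of_nonneg_right hK (by positivity)),
    fun t ht x y z z' e e' hz hz' he he' => (h.sec t ht x y z z' e e' hz hz' he he').trans
      (mul_le_mul_of_nonneg_right hK (by positivity))⟩

theorem Cut.nem (hab : a < b) (hK : IsCompact Kc) (hΩ : IsOpen Ω)
    (hsub : univ ×ˢ closedBall (0 : Z) ρ ⊆ Ω) {Ψ : ℝ × En n × Z → G} (h : Cut a b Kc Ω Ψ) :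
    ∃ K : ℝ, 0 < K ∧ ∀ s τ, a ≤ s → s + τ ≤ b →
      Nem dist τ ρ K (fun t y z => Ψ (s + t, y, z)) := by
  obtain ⟨K0, hK0, h0⟩ := h.bdd hK hsub
  obtain ⟨K1, hK1, h1⟩ := h.lip hab hK hΩ hsub
  obtain ⟨K2, hK2, h2⟩ := h.sec hab hK hΩ hsub
  refine ⟨K0 + K1 + K2, by positivity, fun s τ hs hτ => ?_⟩
  have hm : ∀ t ∈ Icc 0 τ, s + t ∈ Icc a b := fun t ht =>
    ⟨by linarith [ht.1], by linarith [ht.2]⟩
  refine ⟨?_, fun t ht x z hz => (h0 _ (hm t ht) x z hz).trans (by linarith),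
    fun t ht x y z z' hz hz' => (h1 _ (hm t ht) x y z z' hz hz').trans
      (mul_le_mul_of_nonneg_right (by linarith) (by positivity)),
    fun t ht x y z z' e e' hz hz' he he' => (h2 _ (hm t ht) x y z z' e e' hz hz' he he').trans
      (mul_le_mul_of_nonneg_right (by linarith) (by positivity))⟩
  exact h.sm.continuousOn.comp (f := fun p : ℝ × En n × Z => (s + p.1, p.2))
    ((continuous_const.add continuous_fst).prodMk continuous_snd).continuousOn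
    fun p hp => ⟨hm _ hp.1, hsub ⟨mem_univ _, hp.2.2⟩⟩

/-- Nemytskii bounds for `η y • Φ (s + t, y, z)` -/
theorem nem_smooth (hab : a < b) (hK : IsCompact Kc) (hΩ : IsOpen Ω)
    (hsub : Kc ×ˢ closedBall (0 : Z) ρ ⊆ Ω) {η : En n → ℝ} (hη : ContDiff ℝ ∞ η)
    (hηs : ∀ y ∉ Kc, η y = 0) {Φ : ℝ × En n × Z → G} (hΦ : ContDiffOn ℝ ∞ Φ (Icc a b ×ˢ Ω)) :
    ∃ K : ℝ, 0 < K ∧ ∀ s τ, a ≤ s → s + τ ≤ b →
      Nem dist τ ρ K (fun t y z => η y • Φ (s + t, y, z)) := by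
  have ho : IsOpen (Kcᶜ ×ˢ (univ : Set Z)) := hK.isClosed.isOpen_compl.prod isOpen_univ
  have hc : Cut a b Kc (Ω ∪ Kcᶜ ×ˢ univ) (fun q => η q.2.1 • Φ q) := by
    refine ⟨fun q hq => ?_, fun t y hy z => by simp [hηs y hy]⟩
    rcases hq.2 with h | h
    · have h1 : ContDiffWithinAt ℝ ∞ (fun q : ℝ × En n × Z => η q.2.1 • Φ q) (Icc a b ×ˢ Ω) q :=
        ((hη.comp (contDiff_fst.comp contDiff_snd)).contDiffWithinAt).smul (hΦ q ⟨hq.1, h⟩)
      refine h1.mono_of_mem_nhdsWithin ?_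
      refine mem_nhdsWithin.2 ⟨univ ×ˢ Ω, isOpen_univ.prod hΩ, ⟨mem_univ _, h⟩, ?_⟩
      exact fun p hp => ⟨hp.2.1, hp.1.2⟩
    · refine (contDiffAt_const (c := (0 : G))).congr_of_eventuallyEq ?_ |>.contDiffWithinAt
      filter_upwards [(isOpen_univ.prod ho).mem_nhds (⟨mem_univ _, h⟩ : q ∈ univ ×ˢ _)] with p hp
      simp [hηs p.2.1 hp.2.1]
  refine hc.nem hab hK (hΩ.union ho) fun p hp => ?_
  by_cases h : p.1 ∈ Kc
  · exact Or.inl (hsub ⟨h, hp.2⟩)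
  · exact Or.inr ⟨h, mem_univ _⟩

end nem

/-! ### gluing over a finite family of copies of `ℝⁿ` -/

section glue

variable {N : ℕ} {V : Type*} [NormedAddCommGroup V]

/-- the "distance" on a disjoint union -/
def dX (p q : Fin N × En n) : ℝ := if p.1 = q.1 then dist p.2 q.2 else 4

theorem contOn_glue {Y : Type*} [TopologicalSpace Y] {S : Set Y} {τ : ℝ}
    {g : Fin N → ℝ → En n → Y → V}
    (h : ∀ i, ContinuousOn (fun p : ℝ × En n × Y => g i p.1 p.2.1 p.2.2) (Icc 0 τ ×ˢ univ ×ˢ S)) :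
    ContinuousOn (fun p : ℝ × (Fin N × En n) × Y => g p.2.1.1 p.1 p.2.1.2 p.2.2)
      (Icc 0 τ ×ˢ univ ×ˢ S) := by
  intro p hp
  have h1 : ContinuousWithinAt (fun q : ℝ × (Fin N × En n) × Y => g p.2.1.1 q.1 q.2.1.2 q.2.2)
      (Icc 0 τ ×ˢ univ ×ˢ S) p :=
    ContinuousWithinAt.comp (f := fun q : ℝ × (Fin N × En n) × Y => (q.1, q.2.1.2, q.2.2))
      (h p.2.1.1 _ ⟨hp.1, mem_univ _, hp.2.2⟩) (by fun_prop)
      fun q hq => ⟨hq.1, mem_univ _, hq.2.2⟩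
  refine h1.congr_of_eventuallyEq ?_ rfl
  have ho : IsOpen {q : ℝ × (Fin N × En n) × Y | q.2.1.1 = p.2.1.1} :=
    (isOpen_discrete {p.2.1.1}).preimage (by fun_prop)
  filter_upwards [mem_nhdsWithin_of_mem_nhds (ho.mem_nhds rfl)] with q hq
  rw [show q.2.1.1 = p.2.1.1 from hq]

theorem sqrt_four : √(4 : ℝ) = 2 := by
  rw [show (4 : ℝ) = 2 ^ 2 by norm_num]; exact Real.sqrt_sq (by norm_num)

theorem yb_glue {τ A c : ℝ} {g : Fin N → ℝ → En n → V} (h : ∀ i, Yb dist τ A c (g i))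
    (hA : A ≤ c) : Yb dX τ A c (fun t p => g p.1 t p.2) := by
  refine ⟨?_, fun t ht p => (h p.1).sup t ht p.2, fun t ht p q => ?_⟩
  · have h1 := contOn_glue (Y := Unit) (S := univ) (g := fun i t y _ => g i t y) (τ := τ)
      fun i => (h i).cont.comp (f := fun p : ℝ × En n × Unit => (p.1, p.2.1)) (by fun_prop)
        fun q hq => ⟨hq.1, mem_univ _⟩
    exact h1.comp (f := fun p : ℝ × (Fin N × En n) => (p.1, p.2, ())) (by fun_prop)
      fun q hq => ⟨hq.1, mem_univ _, mem_univ _⟩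
  · unfold dX
    split_ifs with e
    · obtain ⟨i, y⟩ := p
      obtain ⟨j, y'⟩ := q
      obtain rfl : i = j := e
      exact (h i).hol t ht y y'
    · rw [sqrt_four]
      exact (norm_sub_le _ _).trans
        (by linarith [(h p.1).sup t ht p.2, (h q.1).sup t ht q.2])

theorem yb_slice {τ A c : ℝ} {f : ℝ → Fin N × En n → V} (h : Yb dX τ A c f) (i : Fin N) :
    Yb dist τ A c (fun t y => f t (i, y)) :=
  ⟨h.cont.comp (f := fun p : ℝ × En n => (p.1, (i, p.2))) (by fun_prop)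
      fun q hq => ⟨hq.1, mem_univ _⟩, fun t ht y => h.sup t ht _, fun t ht y y' => by
    simpa [dX] using h.hol t ht (i, y) (i, y')⟩

theorem nem_glue {Z : Type*} [NormedAddCommGroup Z] {τ ρ K : ℝ} (hK : 0 ≤ K)
    {H : Fin N → ℝ → En n → Z → V} (h : ∀ i, Nem dist τ ρ K (H i)) :
    Nem dX τ ρ K (fun t p z => H p.1 t p.2 z) := by
  refine ⟨contOn_glue fun i => (h i).cont, fun t ht p z hz => (h p.1).sup t ht p.2 z hz,
    fun t ht p q z z' hz hz' => ?_, fun t ht p q z z' e e' hz hz' he he' => ?_⟩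
  · unfold dX
    split_ifs with e
    · obtain ⟨i, y⟩ := p
      obtain ⟨j, y'⟩ := q
      obtain rfl : i = j := e
      exact (h i).lip t ht y y' z z' hz hz'
    · rw [sqrt_four]
      refine (norm_sub_le _ _).trans ?_
      nlinarith [(h p.1).sup t ht p.2 z hz, (h q.1).sup t ht q.2 z' hz', norm_nonneg (z - z')]
  · unfold dX
    split_ifs with e0
    · obtain ⟨i, y⟩ := p
      obtain ⟨j, y'⟩ := q
      obtain rfl : i = j := e0
      exact (h i).sec t ht y y' z z' e e' hz hz' he he'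
    · rw [sqrt_four]
      refine (norm_sub_le _ _).trans ?_
      have h1 := (h p.1).lip t ht p.2 p.2 z z' hz hz'
      have h2 := (h q.1).lip t ht q.2 q.2 e e' he he'
      simp only [dist_self, Real.sqrt_zero, zero_add] at h1 h2
      have h3 : ‖z - z'‖ ≤ ‖(z - z') - (e - e')‖ + ‖e - e'‖ := norm_le_norm_sub_add _ _
      have h4 : 0 ≤ (‖z - e‖ + ‖z' - e'‖) * ‖e - e'‖ := by positivity
      have h5 := mul_le_mul_of_nonneg_left h3 hK
      nlinarith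

theorem nem_zero {X Z : Type*} [TopologicalSpace X] [NormedAddCommGroup Z] {d : X → X → ℝ}
    {τ ρ K : ℝ} (hK : 0 ≤ K) : Nem d τ ρ K (fun (_ : ℝ) (_ : X) (_ : Z) => (0 : V)) :=
  ⟨continuousOn_const, fun _ _ _ _ _ => by simpa using hK, fun _ _ _ _ _ _ _ _ => by
    simp only [sub_zero, norm_zero]; positivity, fun _ _ _ _ _ _ _ _ _ _ _ _ => by
    simp only [sub_zero, norm_zero]; positivity⟩

end glue

end Crest.Agent.N207.P
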