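import Crest.Agent.N207.P.Core2
import Crest.Agent.N207.P.Nem

/-!
# Row 207, parabolic solver (helper11): (CORE) from (H), (ABS), (REG)
-/

set_option autoImplicit false
set_option linter.unusedSectionVars false

open Set Filter Metric
open scoped ContDiff Topology Manifold

noncomputable section

namespace Crest.Agent.N207.P

variable {n : ℕ} {V : Type*} [NormedAddCommGroup V] [NormedSpace ℝ V]
  {M : Type*} [TopologicalSpace M] [ChartedSpace (En n) M] [IsManifold 𝓘(ℝ, En n) ∞ M]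
  {a b : ℝ} {O : Set (M × V)} {Op : ℝ → (M → V) → M → V}

theorem exists_radius (Q : QLOp n (Icc a b) O Op) (hO : IsOpen O) {u0 : M → V}
    (hu0 : ContMDiff 𝓘(ℝ, En n) 𝓘(ℝ, V) ∞ u0) (h0 : ∀ p, (p, u0 p) ∈ O) {s0 : ℝ}
    (hs0 : s0 ∈ Icc a b) (x : M) {ε : ℝ} (hε : 0 < ε) :
    ∃ r δ : ℝ, 0 < r ∧ 0 < δ ∧ ∀ y ∈ closedBall (cen n x) (2 * r), ∀ v : V, ‖v‖ ≤ δ →
      (y, rd n x u0 y + v) ∈ domO n O x ∧ ∀ t ∈ Icc a b, |t - s0| ≤ δ → ∀ k l,
        |Q.a x (t, y, rd n x u0 y + v) k l - Q.a x (s0, cen n x, u0 x) k l| ≤ ε := by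
  have hc : cen n x ∈ (chartAt (En n) x).target := mem_chart_target _ x
  have hx : (chartAt (En n) x).symm (cen n x) = x :=
    (chartAt (En n) x).left_inv (mem_chart_source _ x)
  have hm : (cen n x, u0 x) ∈ domO n O x := ⟨hc, by rw [hx]; exact h0 x⟩
  have hrd : ContinuousAt (rd n x u0) (cen n x) :=
    (contDiffOn_rd hu0 x).continuousOn.continuousAt
      ((chartAt (En n) x).open_target.mem_nhds hc)
  have hv : rd n x u0 (cen n x) = u0 x := by rw [rd, hx]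
  set G : ℝ × En n × V → ℝ × En n × V := fun q => (q.1, q.2.1, rd n x u0 q.2.1 + q.2.2) with hG
  have hGc : Tendsto G (𝓝 (s0, cen n x, 0)) (𝓝 (s0, cen n x, u0 x)) := by
    have h2 : ContinuousAt (fun q : ℝ × En n × V => rd n x u0 q.2.1) (s0, cen n x, 0) :=
      ContinuousAt.comp (f := fun q : ℝ × En n × V => q.2.1) (x := (s0, cen n x, 0)) hrd
        (by fun_prop)
    have h1 : ContinuousAt G (s0, cen n x, 0) :=
      continuousAt_fst.prodMk ((continuousAt_fst.comp continuousAt_snd).prodMk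
        (h2.add (continuousAt_snd.comp continuousAt_snd)))
    simpa [ContinuousAt, hG, hv] using h1
  have e1 : ∀ᶠ q in 𝓝 ((s0, cen n x, u0 x) : ℝ × En n × V), q.2 ∈ domO n O x :=
    continuousAt_snd.eventually ((isOpen_domO hO x).mem_nhds hm)
  have e2 : ∀ᶠ q in 𝓝 ((s0, cen n x, u0 x) : ℝ × En n × V), ∀ k l,
      q ∈ Icc a b ×ˢ domO n O x → |Q.a x q k l - Q.a x (s0, cen n x, u0 x) k l| ≤ ε := by
    refine eventually_all.2 fun k => eventually_all.2 fun l => ?_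
    have h1 := ((Q.sa x k l).continuousOn _ ⟨hs0, hm⟩).eventually
      (closedBall_mem_nhds (Q.a x (s0, cen n x, u0 x) k l) hε)
    exact (eventually_nhdsWithin_iff.1 h1).mono fun q hq hq' => by
      simpa [Real.dist_eq] using hq hq'
  obtain ⟨δ, hδ, h⟩ := Metric.eventually_nhds_iff.1 (hGc.eventually (e1.and e2))
  refine ⟨δ / 4, δ / 2, by positivity, by positivity, fun y hy v hv => ?_⟩
  have key : ∀ t, |t - s0| ≤ δ / 2 → dist ((t, y, v) : ℝ × En n × V) (s0, cen n x, 0) < δ := by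
    intro t ht
    rw [Prod.dist_eq, Prod.dist_eq, Real.dist_eq, dist_zero_right]
    have := mem_closedBall.1 hy
    exact max_lt (by linarith) (max_lt (by linarith) (by linarith))
  have h2 := (h (key s0 (by simp; positivity))).1
  exact ⟨h2, fun t ht hts k l => (h (key t hts)).2 k l ⟨ht, h2⟩⟩

theorem exists_le_all {ι : Type*} [Fintype ι] {K : ι → ℝ} (hK : ∀ i, 0 < K i) :
    ∃ C : ℝ, 0 < C ∧ ∀ i, K i ≤ C :=
  ⟨∑ i, K i + 1, by have := Finset.sum_nonneg fun i (_ : i ∈ Finset.univ) => (hK i).le; positivity,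
    fun i => (Finset.single_le_sum (fun i _ => (hK i).le) (Finset.mem_univ i)).trans
      (by linarith)⟩

theorem exists_ge_all {ι : Type*} [Fintype ι] {δ : ι → ℝ} (hδ : ∀ i, 0 < δ i) :
    ∃ ρ : ℝ, 0 < ρ ∧ ∀ i, ρ ≤ δ i := by
  obtain ⟨C, hC, h⟩ := exists_le_all (K := fun i => (δ i)⁻¹) fun i => inv_pos.2 (hδ i)
  exact ⟨C⁻¹, inv_pos.2 hC, fun i => by
    simpa using inv_anti₀ (inv_pos.2 (hδ i)) (h i)⟩

/-- the domain of the coefficients in the chart at `x` -/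
def omZ (n : ℕ) {M : Type*} [TopologicalSpace M] [ChartedSpace (En n) M] (O : Set (M × V))
    (u0 : M → V) (x : M) : Set (En n × ZZ n V) :=
  {q | (q.1, rd n x u0 q.1 + q.2.1) ∈ domO n O x}

theorem cd_rd_snd {u0 : M → V} (x : M) {W : Type*} [NormedAddCommGroup W] [NormedSpace ℝ W]
    {g : En n → W} (hg : ContDiffOn ℝ ∞ g (chartAt (En n) x).target) :
    ContDiffOn ℝ ∞ (fun q : ℝ × En n × ZZ n V => g q.2.1) (Icc a b ×ˢ omZ n O u0 x) :=
  hg.comp (f := fun q : ℝ × En n × ZZ n V => q.2.1) (by fun_prop) fun _ hq => hq.2.1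

theorem isOpen_omZ (hO : IsOpen O) {u0 : M → V} (hu0 : ContMDiff 𝓘(ℝ, En n) 𝓘(ℝ, V) ∞ u0)
    (x : M) : IsOpen (omZ n O u0 x) := by
  have h : ContinuousOn (fun q : En n × ZZ n V => (q.1, rd n x u0 q.1 + q.2.1))
      ((chartAt (En n) x).target ×ˢ univ) :=
    continuousOn_fst.prodMk (((contDiffOn_rd hu0 x).continuousOn.comp continuousOn_fst
      fun q hq => hq.1).add (by fun_prop))
  have := h.isOpen_inter_preimage ((chartAt (En n) x).open_target.prod isOpen_univ)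
    (isOpen_domO hO x)
  convert this using 1
  ext q
  exact ⟨fun hq => ⟨⟨hq.1, mem_univ _⟩, hq⟩, fun hq => hq.2⟩

theorem cd_a (Q : QLOp n (Icc a b) O Op) {u0 : M → V}
    (hu0 : ContMDiff 𝓘(ℝ, En n) 𝓘(ℝ, V) ∞ u0) (x : M) (k l : Fin n) :
    ContDiffOn ℝ ∞ (fun q : ℝ × En n × ZZ n V =>
      Q.a x (q.1, q.2.1, rd n x u0 q.2.1 + q.2.2.1) k l) (Icc a b ×ˢ omZ n O u0 x) :=
  (Q.sa x k l).comp (f := fun q : ℝ × En n × ZZ n V =>
      (q.1, q.2.1, rd n x u0 q.2.1 + q.2.2.1))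
    (contDiffOn_fst.prodMk ((by fun_prop : ContDiffOn ℝ ∞ (fun q : ℝ × En n × ZZ n V => q.2.1) _).prodMk
      ((cd_rd_snd x (contDiffOn_rd hu0 x)).add (by fun_prop)))) fun _ hq => ⟨hq.1, hq.2⟩

theorem cd_Phi (Q : QLOp n (Icc a b) O Op) {u0 : M → V}
    (hu0 : ContMDiff 𝓘(ℝ, En n) 𝓘(ℝ, V) ∞ u0) (x : M) :
    ContDiffOn ℝ ∞ (Q.Phi u0 x) (Icc a b ×ˢ omZ n O u0 x) := by
  have ho := (chartAt (En n) x).open_target
  have h0 := contDiffOn_rd hu0 x
  refine (ContDiffOn.sum fun k _ => ContDiffOn.sum fun l _ => (cd_a Q hu0 x k l).smul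
    ((cd_rd_snd x (contDiffOn_pd_top ho (contDiffOn_pd_top ho h0 l) k)).add (by fun_prop))).add ?_
  refine (Q.sb x).comp (f := fun q : ℝ × En n × ZZ n V =>
    (q.1, (q.2.1, rd n x u0 q.2.1 + q.2.2.1), d1 (rd n x u0) q.2.1 + q.2.2.2.1))
    (contDiffOn_fst.prodMk (((by fun_prop : ContDiffOn ℝ ∞
      (fun q : ℝ × En n × ZZ n V => q.2.1) _).prodMk
      ((cd_rd_snd x h0).add (by fun_prop))).prodMk (ContDiffOn.add ?_ (by fun_prop))))
    fun _ hq => ⟨hq.1, hq.2, mem_univ _⟩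
  exact contDiffOn_pi.2 fun k => cd_rd_snd x (contDiffOn_pd_top ho h0 k)

theorem core [FiniteDimensional ℝ V] [T2Space M] [CompactSpace M] (hS : SchauderStmt n V)
    (hA : ∀ N : ℕ, AbsStmt (Fin N × En n) V (ZZ n V) (Fin N × Fin n × Fin n))
    (hR : RegStmt n V) : CoreStmt n M V := by
  intro a b O Op Q u0 s0 hab hO hu0 h0 hs0
  have hm : ∀ x : M, (cen n x, u0 x) ∈ domO n O x := fun x =>
    ⟨mem_chart_target _ x, by
      rw [(chartAt (En n) x).left_inv (mem_chart_source _ x)]; exact h0 x⟩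
  choose C hC1 S hS using fun x : M => hS _ (Q.pos x s0 hs0 _ (hm x))
  have hC0 : ∀ x, 0 < C x := fun x => one_pos.trans_le (hC1 x)
  have hε : ∀ x, 0 < 1 / (4 * ((n : ℝ) ^ 2 + 1) * C x) := fun x => by
    have := hC0 x; positivity
  choose r δ hr hδ hP using fun x : M => exists_radius Q hO hu0 h0 hs0 x (hε x)
  have hsub : ∀ x, closedBall (cen n x) (2 * r x) ⊆ (chartAt (En n) x).target :=
    fun x y hy => (hP x y hy 0 (by simpa using (hδ x).le)).1.1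
  obtain ⟨N, ⟨𝒜⟩⟩ := exists_atl r hr hsub
  obtain ⟨ρ, hρ, hρδ⟩ := exists_ge_all fun i : Fin N => hδ (𝒜.x i)
  have hBc : ∀ i, IsCompact (𝒜.B i) := fun i => isCompact_closedBall _ _
  have hBo : ∀ i, 𝒜.B i ×ˢ closedBall (0 : ZZ n V) ρ ⊆ omZ n O u0 (𝒜.x i) := fun i q hq =>
    (hP _ _ hq.1 _ ((norm_fst_le q.2).trans ((mem_closedBall_zero_iff.1 hq.2).trans (hρδ i)))).1
  set a0 : Fin N → Matrix (Fin n) (Fin n) ℝ := fun i => Q.a (𝒜.x i) (s0, cen n (𝒜.x i), u0 (𝒜.x i))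
    with ha0
  choose Kα hKα hα using fun j : Fin N × Fin n × Fin n =>
    nem_smooth hab (hBc j.1) (isOpen_omZ hO hu0 _) (hBo j.1) (𝒜.η_sm j.1) (𝒜.η_zero j.1)
      ((cd_a Q hu0 (𝒜.x j.1) j.2.1 j.2.2).sub (contDiffOn_const (c := a0 j.1 j.2.1 j.2.2)))
  choose KB hKB hB using fun i : Fin N =>
    nem_smooth hab (hBc i) (isOpen_omZ hO hu0 _) (hBo i) (𝒜.η_sm i) (𝒜.η_zero i)
      (cd_Phi Q hu0 (𝒜.x i))
  obtain ⟨K1, hK1, hK1'⟩ := exists_le_all hKα
  obtain ⟨K2, hK2, hK2'⟩ := exists_le_all hKB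
  choose Cz hCz hz using fun j : Fin N × Fin N =>
    sml_zz (V := V) (𝒜.ψ_sm j.1 j.2) (𝒜.ψ_cs j.1 j.2) (𝒜.θ_sm j.1 j.2) (𝒜.θ_cs j.1 j.2)
  obtain ⟨C1, hC1p, hC1'⟩ := exists_le_all fun i : Fin N => hC0 (𝒜.x i)
  obtain ⟨C2, hC2p, hC2'⟩ := exists_le_all hCz
  set Cc : ℝ := C1 + N * (C2 * C1) with hCc
  have hCcp : 0 < Cc := by positivity
  obtain ⟨τ₁, hτ₁, hτ₁1, hAbs⟩ := hA N Cc (K1 + K2) ρ hCcp (by positivity) hρ
  refine ⟨min τ₁ (ρ / 2), by positivity, fun s s' has hss' hsb hs hs' H hH => ?_⟩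
  obtain ⟨τ, rfl⟩ : ∃ τ, s' = s + τ := ⟨s' - s, by ring⟩
  have hτ : τ ∈ Ioc 0 τ₁ := ⟨by linarith, by linarith [min_le_left τ₁ (ρ / 2)]⟩
  have hτρ : τ ≤ ρ / 2 := by linarith [min_le_right τ₁ (ρ / 2)]
  have hτ1 : τ ∈ Ioc (0 : ℝ) 1 := ⟨hτ.1, hτ.2.trans hτ₁1⟩
  have hq : 0 ≤ τ ^ (1 / 4 : ℝ) := Real.rpow_nonneg hτ.1.le _
  choose KH hKH hHn using fun i : Fin N =>
    nem_smooth hab (hBc i) (isOpen_omZ hO hu0 _) (hBo i) (𝒜.η_sm i) (𝒜.η_zero i)
      ((hH (𝒜.x i)).comp (f := fun q : ℝ × En n × ZZ n V => (q.1, q.2.1)) (by fun_prop)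
        fun q hq => ⟨hq.1, hq.2.1⟩)
  obtain ⟨K3, hK3, hK3'⟩ := exists_le_all hKH
  refine ⟨K3⁻¹, inv_pos.2 hK3, ?_⟩
  set W : (ℝ → Fin N × En n → V) → Fin N → ℝ → En n → V :=
    fun f i => S (𝒜.x i) fun t y => f t (i, y) with hW
  have hsol : ∀ A c f, 0 ≤ c → Yb dX τ A c f → ∀ i,
      Solves (a0 i) τ (fun t y => f t (i, y)) (W f i) ∧
      SolB τ (C (𝒜.x i) * τ ^ (1 / 4 : ℝ) * (A + c)) (C (𝒜.x i) * c) (W f i) :=
    fun A c f hc hf i => (hS (𝒜.x i) τ hτ1).1 A c _ hc (yb_slice hf i)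
  refine Exists.elim (hAbs τ hτ dX (fun j => C (𝒜.x j.1))
    (fun f t p => 𝒜.ze (fun i => W f i t) p.1 p.2)
    (fun j f t p => pd j.2.1 (pd j.2.2 (W f j.1 t)) p.2)
    (fun j t p z => if p.1 = j.1 then 𝒜.η j.1 p.2 •
      (Q.a (𝒜.x j.1) (s + t, p.2, rd n (𝒜.x j.1) u0 p.2 + z.1) j.2.1 j.2.2 - a0 j.1 j.2.1 j.2.2)
      else 0)
    (fun t p z => 𝒜.η p.1 p.2 • Q.Phi u0 (𝒜.x p.1) (s + t, p.2, z))
    (fun t p => K3⁻¹ • (𝒜.η p.1 p.2 • rd n (𝒜.x p.1) (H (s + t)) p.2))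
    (fun j => (hC0 _).le) (fun j => (hC1' j.1).trans
      (by rw [hCc]; linarith [show 0 ≤ (N : ℝ) * (C2 * C1) by positivity]))
    ?_ ?_ ?_ ?_ ?_ ?_) ?_
  rotate_right
  · rintro f ⟨A, c, hA0, hc0, hf, hfρ, hfix⟩
    have hζ : ∀ t ∈ Icc 0 τ, ∀ i y, ‖𝒜.ze (fun i => W f i t) i y‖ ≤ ρ := by
      intro t ht i y
      have h1 : ‖𝒜.ze (fun i => W f i t) i y‖ ≤ ∑ j : Fin N,
          C2 * (C1 * τ ^ (1 / 4 : ℝ) * (A + c)) := by
        refine (norm_sum_le _ _).trans (Finset.sum_le_sum fun j _ => ?_)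
        have h2 := (hz (j, i) τ _ _ _ (by have := hC0 (𝒜.x j); positivity)
          (hsol A c f hc0 hf j).2).sup t ht y
        refine h2.trans ?_
        have := hC0 (𝒜.x j)
        gcongr
        exacts [hC2' (j, i), hC1' j]
      simp only [Finset.sum_const, Finset.card_univ, Fintype.card_fin, nsmul_eq_mul] at h1
      have h3 : 0 ≤ C1 * τ ^ (1 / 4 : ℝ) * (A + c) := by positivity
      refine h1.trans (le_trans ?_ hfρ)
      rw [hCc]; nlinarith
    have hF : 𝒜.Fx Q u0 (fun t p => K3⁻¹ • H t p) s τ a0 (fun i t y => f t (i, y)) (W f) := by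
      refine ⟨fun i => hsub _, fun i => (hsol A c f hc0 hf i).1, fun i => ⟨_, _, ?_, ?_,
        (hsol A c f hc0 hf i).2⟩, fun i t ht y hy => ?_, fun i t ht y hy => ?_⟩
      · have := hC0 (𝒜.x i); positivity
      · have := hC0 (𝒜.x i); positivity
      · exact (hBo i (mk_mem_prod hy (mem_closedBall_zero_iff.2 (hζ t ht i y)))).2
      · have h1 := hfix t ht (i, y)
        simp only [Fintype.sum_prod_type, ite_smul, zero_smul, Finset.sum_ite_irrel,
          Finset.sum_const_zero, Finset.sum_ite_eq, Finset.mem_univ, if_true,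
          𝒜.η_one i y hy, one_smul] at h1
        exact h1
    obtain ⟨h1, h2⟩ := hF.isSol hR hO hu0 hτ.1 has hsb fun x => (hH x).const_smul K3⁻¹
    exact ⟨_, h1, h2⟩
  · intro A c f hA0 hc0 hf
    have hE : 0 ≤ τ ^ (1 / 4 : ℝ) * (A + c) := by positivity
    have hC1c : C1 ≤ Cc := by rw [hCc]; linarith [show 0 ≤ (N : ℝ) * (C2 * C1) by positivity]
    refine ⟨yb_glue (g := fun i t y => 𝒜.ze (fun j => W f j t) i y) (fun i => ?_) le_rfl,
      fun j => yb_glue (g := fun _ t y => pd j.2.1 (pd j.2.2 (W f j.1 t)) y) (fun _ => ?_) ?_⟩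
    · have h1 := yb_sum Finset.univ fun j _ => hz (j, i) τ _ _ _
        (by have := hC0 (𝒜.x j); positivity) (hsol A c f hc0 hf j).2
      have h2 : ∑ j : Fin N, Cz (j, i) * (C (𝒜.x j) * τ ^ (1 / 4 : ℝ) * (A + c)) ≤
          Cc * τ ^ (1 / 4 : ℝ) * (A + c) := by
        have h3 : ∑ j : Fin N, Cz (j, i) * (C (𝒜.x j) * τ ^ (1 / 4 : ℝ) * (A + c)) ≤
            ∑ j : Fin N, C2 * (C1 * τ ^ (1 / 4 : ℝ) * (A + c)) := by
          refine Finset.sum_le_sum fun j _ => ?_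
          have := hC0 (𝒜.x j)
          gcongr
          exacts [hC2' (j, i), hC1' j]
        simp only [Finset.sum_const, Finset.card_univ, Fintype.card_fin, nsmul_eq_mul] at h3
        refine h3.trans ?_
        rw [hCc]; nlinarith
      exact yb_mono h1 h2 h2
    · refine yb_mono ((hsol A c f hc0 hf j.1).2.y2 j.2.1 j.2.2) ?_ ?_
      · have := (hC1' j.1).trans hC1c
        gcongr
      · have : 0 ≤ Cc * τ ^ (1 / 4 : ℝ) * (A + c) := by positivity
        have : 0 ≤ Cc * A := by positivity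
        linarith
    · have := hC0 (𝒜.x j.1)
      have : 0 ≤ C (𝒜.x j.1) * c + Cc * A := by positivity
      linarith
  · intro A c A' c' f g hf hg t ht
    have hd : ∀ i, W (f - g) i t = W f i t - W g i t := fun i =>
      (hS (𝒜.x i) τ hτ1).2 A c A' c' _ _ (yb_slice hf i) (yb_slice hg i) t ht
    have h2 : ∀ {A c : ℝ} {f : ℝ → Fin N × En n → V}, Yb dX τ A c f → ∀ i,
        ContDiff ℝ 2 (W f i t) := fun {A c f} hf i =>
      (hsol A (max c 0) f (le_max_right _ _) (yb_mono hf le_rfl (le_max_left _ _)) i).1.c2 t ht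
    refine ⟨funext fun p => ?_, fun j => funext fun p => ?_⟩
    · simp only [Atl.ze, hd, zz_sub (h2 hf _) (h2 hg _), Finset.sum_sub_distrib, Pi.sub_apply]
    · simp only [hd, pd_pd_sub_fun (h2 hf _) (h2 hg _), Pi.sub_apply]
  · intro j
    refine nem_glue (H := fun i t y (z : ZZ n V) => if i = j.1 then 𝒜.η j.1 y •
      (Q.a (𝒜.x j.1) (s + t, y, rd n (𝒜.x j.1) u0 y + z.1) j.2.1 j.2.2 - a0 j.1 j.2.1 j.2.2)
      else 0) (by positivity) fun i => ?_
    by_cases hi : i = j.1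
    · simp only [hi, if_true]
      exact (hα j s τ has hsb).mono (by linarith [hK1' j])
    · simp only [hi, if_false]
      exact nem_zero (by positivity)
  · exact nem_glue (H := fun i t y z => 𝒜.η i y • Q.Phi u0 (𝒜.x i) (s + t, y, z))
      (by positivity) fun i => (hB i s τ has hsb).mono (by linarith [hK2' i])
  · refine yb_glue (g := fun i t y => K3⁻¹ • (𝒜.η i y • rd n (𝒜.x i) (H (s + t)) y))
      (fun i => ?_) le_rfl
    have h1 := (hHn i s τ has hsb).mono (hK3' i)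
    have hz0 : ‖(0 : ZZ n V)‖ ≤ ρ := by simpa using hρ.le
    refine ⟨ContinuousOn.const_smul (h1.cont.comp
      (f := fun p : ℝ × En n => (p.1, p.2, (0 : ZZ n V))) (by fun_prop)
      fun p hp => ⟨hp.1, mem_univ _, mem_closedBall_self hρ.le⟩) _, fun t ht y => ?_,
      fun t ht y y' => ?_⟩
    · rw [norm_smul, Real.norm_of_nonneg (inv_pos.2 hK3).le, inv_mul_le_iff₀ hK3, mul_one]
      exact h1.sup t ht y 0 hz0
    · rw [← smul_sub, norm_smul, Real.norm_of_nonneg (inv_pos.2 hK3).le, inv_mul_le_iff₀ hK3,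
        one_mul]
      simpa using h1.lip t ht y y' 0 0 hz0 hz0
  · intro t ht p z hz'
    obtain ⟨i, y⟩ := p
    simp only [Fintype.sum_prod_type, apply_ite abs, abs_zero, mul_ite, mul_zero,
      Finset.sum_ite_irrel, Finset.sum_const_zero, Finset.sum_ite_eq, Finset.mem_univ, if_true]
    have hCi := hC0 (𝒜.x i)
    have h1 : ∀ k l, C (𝒜.x i) * |𝒜.η i y • (Q.a (𝒜.x i) (s + t, y, rd n (𝒜.x i) u0 y + z.1) k l -
        a0 i k l)| ≤ 1 / (4 * ((n : ℝ) ^ 2 + 1)) := by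
      intro k l
      by_cases hy : y ∈ 𝒜.B i
      · have h2 := (hP _ y hy z.1 ((norm_fst_le z).trans (hz'.trans (hρδ i)))).2 (s + t)
          ⟨by linarith [ht.1], by linarith [ht.2]⟩ (by
            have := abs_le.1 (hs.trans (min_le_right _ _))
            rw [abs_le]; constructor <;> linarith [ht.1, ht.2, hρδ i]) k l
        rw [smul_eq_mul, abs_mul]
        have h3 := mul_le_mul (𝒜.η_le i y) h2 (abs_nonneg _) zero_le_one
        calc _ ≤ C (𝒜.x i) * (1 * (1 / (4 * ((n : ℝ) ^ 2 + 1) * C (𝒜.x i)))) := by gcongr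
          _ = _ := by field_simp
      · simp only [𝒜.η_zero i y hy, zero_smul, abs_zero, mul_zero]; positivity
    refine (Finset.sum_le_sum fun k _ => Finset.sum_le_sum fun l _ => h1 k l).trans ?_
    simp only [Finset.sum_const, Finset.card_univ, Fintype.card_fin, nsmul_eq_mul]
    rw [← mul_assoc, mul_one_div, div_le_div_iff₀ (by positivity) (by norm_num)]
    nlinarith

end Crest.Agent.N207.P
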