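import Mathlib

/-!
# Row 207, parabolic solver (helper17): vocabulary and the Euclidean statements

* `pd k f p`   : partial derivative of a vector valued function;
* `Yb d τ A c f` : `f` jointly continuous on `[0,τ] × X`, `‖f‖ ≤ A`, `1/2`-Hoelder in `x` for the
  "distance" `d` with constant `c`, uniformly in `t ∈ [0,τ]`;
* `Lop a w p = ∑ a k l • ∂_k ∂_l w`;
* `SchauderStmt`, `AprStmt`, `Nem`, `AbsStmt` : the statements (H), (U), (ABS).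
-/

set_option autoImplicit false

open Set

noncomputable section

namespace Crest.Agent.N207.P

abbrev En (n : ℕ) : Type := EuclideanSpace ℝ (Fin n)

section defs

variable {n : ℕ} {F : Type*} [NormedAddCommGroup F] [NormedSpace ℝ F]

/-- partial derivative (for `F = ℝ` it is `CoordMetric.pderiv` by `rfl`) -/
def pd (k : Fin n) (f : En n → F) (p : En n) : F := fderiv ℝ f p (EuclideanSpace.single k 1)

/-- `∑ a k l • ∂_k ∂_l w` -/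
def Lop (a : Matrix (Fin n) (Fin n) ℝ) (w : En n → F) (p : En n) : F :=
  ∑ k, ∑ l, a k l • pd k (pd l w) p

/-- the space `Y`: jointly continuous, sup bound `A`, spatial `1/2`-Hoelder bound `c` -/
structure Yb {X : Type*} [TopologicalSpace X] (d : X → X → ℝ) (τ A c : ℝ) (f : ℝ → X → F) :
    Prop where
  cont : ContinuousOn (fun p : ℝ × X => f p.1 p.2) (Icc 0 τ ×ˢ univ)
  sup : ∀ t ∈ Icc 0 τ, ∀ x, ‖f t x‖ ≤ A
  hol : ∀ t ∈ Icc 0 τ, ∀ x y, ‖f t x - f t y‖ ≤ c * √(d x y)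

/-- the bounds of a solution `w` of `∂ₜ w = Lop a w + f`, `w 0 = 0` -/
structure SolB (τ η c' : ℝ) (w : ℝ → En n → F) : Prop where
  y0 : Yb dist τ η η w
  y1 : ∀ k, Yb dist τ η η (fun t => pd k (w t))
  y2 : ∀ k l, Yb dist τ η c' (fun t => pd k (pd l (w t)))

/-- `w` solves `∂ₜ w = Lop a w + f` on `[0,τ] × ℝⁿ`, `w 0 = 0` -/
structure Solves (a : Matrix (Fin n) (Fin n) ℝ) (τ : ℝ) (f w : ℝ → En n → F) : Prop where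
  init : ∀ x, w 0 x = 0
  c2 : ∀ t ∈ Icc 0 τ, ContDiff ℝ 2 (w t)
  eqn : ∀ t ∈ Icc 0 τ, ∀ x, HasDerivWithinAt (fun s => w s x) (Lop a (w t) x + f t x) (Icc 0 τ) t

end defs

/-- (H): the solution operator of the constant coefficient equation -/
def SchauderStmt (n : ℕ) (F : Type*) [NormedAddCommGroup F] [NormedSpace ℝ F] : Prop :=
  ∀ a : Matrix (Fin n) (Fin n) ℝ, a.PosDef → ∃ C : ℝ, 1 ≤ C ∧
    ∃ S : (ℝ → En n → F) → ℝ → En n → F, ∀ τ ∈ Ioc (0 : ℝ) 1,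
      (∀ (A c : ℝ) (f : ℝ → En n → F), 0 ≤ c → Yb dist τ A c f →
        Solves a τ f (S f) ∧ SolB τ (C * τ ^ (1 / 4 : ℝ) * (A + c)) (C * c) (S f)) ∧
      ∀ (A c A' c' : ℝ) (f g : ℝ → En n → F), Yb dist τ A c f → Yb dist τ A' c' g →
        ∀ t ∈ Icc 0 τ, S (f - g) t = S f t - S g t

/-- (U): the a priori estimate for every solution with bounded continuous derivatives -/
def AprStmt (n : ℕ) (F : Type*) [NormedAddCommGroup F] [NormedSpace ℝ F] : Prop :=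
  ∀ a : Matrix (Fin n) (Fin n) ℝ, a.PosDef → ∃ C : ℝ, 1 ≤ C ∧ ∀ τ ∈ Ioc (0 : ℝ) 1,
    ∀ (A c B : ℝ) (f w : ℝ → En n → F), 0 ≤ c → Yb dist τ A c f → Solves a τ f w →
      ContinuousOn (fun p : ℝ × En n => w p.1 p.2) (Icc 0 τ ×ˢ univ) →
      (∀ t ∈ Icc 0 τ, ∀ x, ‖w t x‖ ≤ B) →
      SolB τ (C * τ ^ (1 / 4 : ℝ) * (A + c)) (C * c) w

/-- Nemytskii bounds of a coefficient `H t x ζ` for `t ∈ [0,τ]`, `‖ζ‖ ≤ ρ` -/
structure Nem {X Z G : Type*} [TopologicalSpace X] [NormedAddCommGroup Z] [NormedAddCommGroup G]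
    (d : X → X → ℝ) (τ ρ K : ℝ) (H : ℝ → X → Z → G) : Prop where
  cont : ContinuousOn (fun p : ℝ × X × Z => H p.1 p.2.1 p.2.2)
    (Icc 0 τ ×ˢ univ ×ˢ Metric.closedBall 0 ρ)
  sup : ∀ t ∈ Icc 0 τ, ∀ x z, ‖z‖ ≤ ρ → ‖H t x z‖ ≤ K
  lip : ∀ t ∈ Icc 0 τ, ∀ x y z z', ‖z‖ ≤ ρ → ‖z'‖ ≤ ρ →
    ‖H t x z - H t y z'‖ ≤ K * (√(d x y) + ‖z - z'‖)
  sec : ∀ t ∈ Icc 0 τ, ∀ x y z z' e e', ‖z‖ ≤ ρ → ‖z'‖ ≤ ρ → ‖e‖ ≤ ρ → ‖e'‖ ≤ ρ →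
    ‖(H t x z - H t x z') - (H t y e - H t y e')‖ ≤
      K * (‖(z - z') - (e - e')‖ + (√(d x y) + ‖z - e‖ + ‖z' - e'‖) * ‖e - e'‖)

/-- (ABS): the abstract fixed point theorem.  `τ₁` depends only on `C, K, ρ` and the number of
indices. -/
def AbsStmt (X : Type*) [TopologicalSpace X] (F Z : Type*) [NormedAddCommGroup F] [NormedSpace ℝ F]
    [NormedAddCommGroup Z] [NormedSpace ℝ Z] (ι : Type*) [Fintype ι] : Prop :=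
  ∀ (C K ρ : ℝ), 0 < C → 0 < K → 0 < ρ → ∃ τ₁ : ℝ, 0 < τ₁ ∧ τ₁ ≤ 1 ∧ ∀ τ ∈ Ioc 0 τ₁,
    ∀ (d : X → X → ℝ) (Ci : ι → ℝ) (ζ : (ℝ → X → F) → ℝ → X → Z)
      (ξ : ι → (ℝ → X → F) → ℝ → X → F) (α : ι → ℝ → X → Z → ℝ) (B : ℝ → X → Z → F)
      (h : ℝ → X → F),
      (∀ i, 0 ≤ Ci i) → (∀ i, Ci i ≤ C) →
      (∀ A c f, 0 ≤ A → 0 ≤ c → Yb d τ A c f →
        Yb d τ (C * τ ^ (1 / 4 : ℝ) * (A + c)) (C * τ ^ (1 / 4 : ℝ) * (A + c)) (ζ f) ∧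
        ∀ i, Yb d τ (C * τ ^ (1 / 4 : ℝ) * (A + c))
          (Ci i * c + C * A + C * τ ^ (1 / 4 : ℝ) * (A + c)) (ξ i f)) →
      (∀ A c A' c' f g, Yb d τ A c f → Yb d τ A' c' g → ∀ t ∈ Icc 0 τ,
        ζ (f - g) t = ζ f t - ζ g t ∧ ∀ i, ξ i (f - g) t = ξ i f t - ξ i g t) →
      (∀ i, Nem d τ ρ K (α i)) → Nem d τ ρ K B → Yb d τ 1 1 h →
      (∀ t ∈ Icc 0 τ, ∀ x z, ‖z‖ ≤ ρ → ∑ i, Ci i * |α i t x z| ≤ 1 / 4) →
      ∃ (f : ℝ → X → F) (A c : ℝ), 0 ≤ A ∧ 0 ≤ c ∧ Yb d τ A c f ∧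
        C * τ ^ (1 / 4 : ℝ) * (A + c) ≤ ρ ∧
        ∀ t ∈ Icc 0 τ, ∀ x,
          f t x = ∑ i, α i t x (ζ f t x) • ξ i f t x + B t x (ζ f t x) + h t x

end Crest.Agent.N207.P
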