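import Crest.Agent.N207.P.H0

/-!
# Row 207, parabolic solver (helper17): averages against a rescaled Schwartz kernel

`Mv L φ s f x = ∫ L (φ z) (f (x - s z)) dz`: bounds, continuity, derivatives in `x` and in `s`.
-/

set_option autoImplicit false

open MeasureTheory Set Filter Topology SchwartzMap

noncomputable section

namespace Crest.Agent.N207.P

variable {n : ℕ} {F V G : Type*} [NormedAddCommGroup F] [NormedSpace ℝ F]
  [NormedAddCommGroup V] [NormedSpace ℝ V] [NormedAddCommGroup G] [NormedSpace ℝ G]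

/-- the average of `f` against the kernel `φ` at scale `s` -/
def Mv (L : V →L[ℝ] F →L[ℝ] G) (φ : 𝓢(En n, V)) (s : ℝ) (f : En n → F) (x : En n) : G :=
  ∫ z, L (φ z) (f (x - s • z))

def m0 (φ : 𝓢(En n, V)) : ℝ := ∫ z, ‖φ z‖

def m1 (φ : 𝓢(En n, V)) : ℝ := ∫ z, ‖φ z‖ * √‖z‖

theorem m0_nonneg (φ : 𝓢(En n, V)) : 0 ≤ m0 φ := integral_nonneg fun _ => norm_nonneg _

theorem m1_nonneg (φ : 𝓢(En n, V)) : 0 ≤ m1 φ :=
  integral_nonneg fun _ => mul_nonneg (norm_nonneg _) (Real.sqrt_nonneg _)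

theorem intg_m1 (φ : 𝓢(En n, V)) : Integrable (fun z => ‖φ z‖ * √‖z‖) := by
  have h0 := φ.integrable_pow_mul volume 0
  have h1 := φ.integrable_pow_mul volume 1
  refine (h0.add h1).mono' (by fun_prop) (Eventually.of_forall fun z => ?_)
  have hz : √‖z‖ ≤ 1 + ‖z‖ := by
    rw [Real.sqrt_le_left (by positivity)]
    nlinarith [norm_nonneg z]
  rw [Real.norm_eq_abs, abs_of_nonneg (by positivity)]
  simp only [Pi.add_apply, pow_zero, one_mul, pow_one]
  nlinarith [norm_nonneg (φ z)]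

theorem exists_decay (φ : 𝓢(En n, V)) : ∃ C : ℝ, 0 ≤ C ∧ ∀ z,
    ‖φ z‖ ≤ C * (1 + ‖z‖) ^ (-((n : ℝ) + 1)) := by
  refine ⟨2 ^ (n + 1) * (Finset.Iic (n + 1, 0)).sup
    (fun m : ℕ × ℕ => SchwartzMap.seminorm ℝ m.1 m.2) φ, by positivity, fun z => ?_⟩
  have h := SchwartzMap.one_add_le_sup_seminorm_apply (𝕜 := ℝ) (m := (n + 1, 0)) (k := n + 1)
    (n := 0) le_rfl le_rfl φ z
  rw [norm_iteratedFDeriv_zero] at h
  have hp : 0 < 1 + ‖z‖ := by positivity
  rw [Real.rpow_neg hp.le, ← div_eq_mul_inv, le_div_iff₀ (by positivity)]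
  have e : (1 + ‖z‖) ^ ((n : ℝ) + 1) = (1 + ‖z‖) ^ (n + 1) := by
    rw [← Real.rpow_natCast]; push_cast; rfl
  rw [e, mul_comm]
  exact h

theorem intg_dec : Integrable (fun z : En n => (1 + ‖z‖) ^ (-((n : ℝ) + 1))) :=
  integrable_one_add_norm (by simp)

variable (L : V →L[ℝ] F →L[ℝ] G) (φ : 𝓢(En n, V))

theorem bil_le (v : V) {w : F} {A : ℝ} (h : ‖w‖ ≤ A) : ‖L v w‖ ≤ ‖L‖ * A * ‖v‖ := by
  calc ‖L v w‖ ≤ ‖L‖ * ‖v‖ * ‖w‖ := L.le_opNorm₂ v w
    _ ≤ ‖L‖ * ‖v‖ * A := by gcongr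
    _ = _ := by ring

theorem intg_Mv {f : En n → F} (hf : Continuous f) {A : ℝ} (hA : ∀ x, ‖f x‖ ≤ A) (s : ℝ)
    (x : En n) : Integrable (fun z => L (φ z) (f (x - s • z))) := by
  refine ((φ.integrable.norm).const_mul (‖L‖ * A)).mono' ?_ (Eventually.of_forall fun z => ?_)
  · have := φ.continuous
    exact Continuous.aestronglyMeasurable (by fun_prop)
  · exact bil_le L _ (hA _)

theorem Mv_le {f : En n → F} {A : ℝ} (hA : ∀ x, ‖f x‖ ≤ A) (s : ℝ) (x : En n) :
    ‖Mv L φ s f x‖ ≤ ‖L‖ * A * m0 φ := by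
  unfold Mv m0
  rw [← integral_const_mul]
  exact norm_integral_le_of_norm_le ((φ.integrable.norm).const_mul _)
    (Eventually.of_forall fun z => bil_le L _ (hA _))

theorem Mv_le_hol (h0 : ∀ v : F, ∫ z, L (φ z) v = 0) {f : En n → F} (hf : Continuous f) {A c : ℝ}
    (hA : ∀ x, ‖f x‖ ≤ A) (hc : ∀ x y, ‖f x - f y‖ ≤ c * √(dist x y)) {s : ℝ} (hs : 0 ≤ s)
    (x : En n) : ‖Mv L φ s f x‖ ≤ ‖L‖ * c * √s * m1 φ := by
  have e : Mv L φ s f x = ∫ z, L (φ z) (f (x - s • z) - f x) := by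
    have h1 := intg_Mv L φ hf hA s x
    have h2 := intg_Mv L φ (f := fun _ => f x) continuous_const (fun _ => le_rfl) s x
    simp only [map_sub]
    rw [integral_sub h1 h2, h0, sub_zero]
    rfl
  rw [e]
  unfold m1
  rw [← integral_const_mul]
  refine norm_integral_le_of_norm_le ((intg_m1 φ).const_mul _) (Eventually.of_forall fun z => ?_)
  have h := hc (x - s • z) x
  have hd : dist (x - s • z) x = s * ‖z‖ := by
    rw [dist_eq_norm]; simp [norm_smul, abs_of_nonneg hs]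
  rw [hd, Real.sqrt_mul hs] at h
  calc _ ≤ ‖L‖ * (c * (√s * √‖z‖)) * ‖φ z‖ := bil_le L _ h
    _ = _ := by ring

theorem Mv_sub {f g : En n → F} (hf : Continuous f) (hg : Continuous g) {A B : ℝ}
    (hA : ∀ x, ‖f x‖ ≤ A) (hB : ∀ x, ‖g x‖ ≤ B) (s : ℝ) (x : En n) :
    Mv L φ s (f - g) x = Mv L φ s f x - Mv L φ s g x := by
  unfold Mv
  rw [← integral_sub (intg_Mv L φ hf hA s x) (intg_Mv L φ hg hB s x)]
  simp

theorem continuous_Mv {P : Type*} [TopologicalSpace P] [FirstCountableTopology P] {s : P → ℝ}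
    {x : P → En n} {g : P → En n → F} (hs : Continuous s) (hx : Continuous x)
    (hg : Continuous fun q : P × En n => g q.1 q.2) {A : ℝ} (hA : ∀ p y, ‖g p y‖ ≤ A) :
    Continuous fun p => Mv L φ (s p) (g p) (x p) := by
  refine continuous_of_dominated (bound := fun z => ‖L‖ * A * ‖φ z‖) (fun p => ?_)
    (fun p => Eventually.of_forall fun z => bil_le L _ (hA _ _))
    ((φ.integrable.norm).const_mul _) (Eventually.of_forall fun z => ?_)
  · exact (intg_Mv L φ (hg.comp (Continuous.prodMk_right p)) (hA p) _ _).aestronglyMeasurable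
  · exact (L (φ z)).continuous.comp
      (hg.comp (continuous_id.prodMk (hx.sub (hs.smul continuous_const))))

theorem hasFDerivAt_conv {f : En n → F} (hf : Continuous f) {A : ℝ} (hA : ∀ x, ‖f x‖ ≤ A)
    (u0 : En n) :
    HasFDerivAt (fun u => ∫ y, L (φ (u - y)) (f y))
      (∫ y, L.precompL (En n) (fderivCLM ℝ (En n) V φ (u0 - y)) (f y)) u0 := by
  obtain ⟨C, hC0, hC⟩ := exists_decay (fderivCLM ℝ (En n) V φ)
  have hφ := φ.continuous
  have hφ' := (fderivCLM ℝ (En n) V φ).continuous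
  have hA0 : 0 ≤ A := (norm_nonneg _).trans (hA 0)
  refine hasFDerivAt_integral_of_dominated_of_fderiv_le (s := Metric.ball u0 1)
    (F' := fun u y => L.precompL (En n) (fderivCLM ℝ (En n) V φ (u - y)) (f y))
    (bound := fun y => ‖L‖ * A * (C * 2 ^ ((n : ℝ) + 1) * (1 + ‖u0 - y‖) ^ (-((n : ℝ) + 1))))
    (Metric.ball_mem_nhds _ one_pos)
    (Eventually.of_forall fun u => Continuous.aestronglyMeasurable (by fun_prop)) ?_
    (Continuous.aestronglyMeasurable (by fun_prop)) (Eventually.of_forall fun y u hu => ?_)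
    (((intg_dec.comp_sub_left u0).const_mul _).const_mul _)
    (Eventually.of_forall fun y u _ => ?_)
  · refine (((φ.integrable.norm).comp_sub_left u0).const_mul (‖L‖ * A)).mono'
      (Continuous.aestronglyMeasurable (by fun_prop)) (Eventually.of_forall fun y => ?_)
    exact bil_le L _ (hA _)
  · refine (bil_le _ _ (hA y)).trans ?_
    have h1 : ‖fderivCLM ℝ (En n) V φ (u - y)‖ ≤
        C * 2 ^ ((n : ℝ) + 1) * (1 + ‖u0 - y‖) ^ (-((n : ℝ) + 1)) := by
      refine (hC _).trans ?_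
      rw [mul_assoc]
      refine mul_le_mul_of_nonneg_left ?_ hC0
      have h2 : (1 + ‖u0 - y‖) / 2 ≤ 1 + ‖u - y‖ := by
        have h3 : ‖u0 - y‖ ≤ ‖u0 - u‖ + ‖u - y‖ := norm_sub_le_norm_sub_add_norm_sub _ _ _
        have h4 : ‖u0 - u‖ < 1 := by rwa [Metric.mem_ball, dist_comm, dist_eq_norm] at hu
        nlinarith [norm_nonneg (u - y)]
      have h5 := Real.rpow_le_rpow_of_nonpos (z := -((n : ℝ) + 1)) (by positivity) h2
        (by have : (0 : ℝ) ≤ n := Nat.cast_nonneg n; linarith)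
      refine h5.trans (le_of_eq ?_)
      rw [Real.div_rpow (by positivity) (by norm_num), Real.rpow_neg (by norm_num : (0 : ℝ) ≤ 2)]
      field_simp
    have h6 := L.norm_precompL_le (En n)
    gcongr
  · have h1 : HasFDerivAt (fun u => φ (u - y)) (fderiv ℝ φ (u - y)) u := by
      have := (φ.differentiableAt (x := u - y)).hasFDerivAt.comp u
        ((hasFDerivAt_id u).sub_const y)
      rw [ContinuousLinearMap.comp_id] at this
      exact this
    have h2 := ((L.flip (f y)).hasFDerivAt).comp u h1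
    exact h2

theorem Mv_eq_conv {s : ℝ} (hs : 0 < s) (f : En n → F) (x : En n) :
    Mv L φ s f x = ∫ y, L (φ (s⁻¹ • x - y)) (f (s • y)) := by
  unfold Mv
  rw [← integral_sub_left_eq_self (fun y => L (φ (s⁻¹ • x - y)) (f (s • y))) volume (s⁻¹ • x)]
  simp [smul_sub, smul_smul, hs.ne']

theorem hasFDerivAt_Mv {f : En n → F} (hf : Continuous f) {A : ℝ} (hA : ∀ x, ‖f x‖ ≤ A) {s : ℝ}
    (hs : 0 < s) (x : En n) :
    HasFDerivAt (Mv L φ s f)
      (s⁻¹ • Mv (L.precompL (En n)) (fderivCLM ℝ (En n) V φ) s f x) x := by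
  have h1 := hasFDerivAt_conv L φ (f := fun y => f (s • y)) (by fun_prop) (fun y => hA _) (s⁻¹ • x)
  have h2 := h1.comp x ((hasFDerivAt_id x).const_smul s⁻¹)
  have e : Mv L φ s f = fun x => ∫ y, L (φ (s⁻¹ • x - y)) (f (s • y)) :=
    funext fun x => Mv_eq_conv L φ hs f x
  rw [e, Mv_eq_conv _ _ hs]
  refine h2.congr_fderiv ?_
  ext v
  simp

theorem integral_fderiv_zero (v : F) :
    ∫ z, L.precompL (En n) (fderivCLM ℝ (En n) V φ z) v = 0 := by
  have h1 := hasFDerivAt_Mv L φ (f := fun _ => v) continuous_const (fun _ => le_rfl) one_pos 0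
  have e : Mv L φ 1 (fun _ => v) = fun _ => ∫ z, L (φ z) v := rfl
  rw [e] at h1
  have := h1.unique (hasFDerivAt_const _ _)
  simpa [Mv] using this

theorem Mv_eq_scale {s : ℝ} (hs : 0 < s) (f : En n → F) (x : En n) :
    Mv L φ s f x = (s ^ n)⁻¹ • ∫ u, L (φ (s⁻¹ • u)) (f (x - u)) := by
  have h := Measure.integral_comp_smul (volume : Measure (En n))
    (fun u => L (φ (s⁻¹ • u)) (f (x - u))) s
  simp only [smul_smul, inv_mul_cancel₀ hs.ne', one_smul, finrank_euclideanSpace,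
    Fintype.card_fin] at h
  rw [abs_of_pos (by positivity)] at h
  exact h

theorem hasDerivAt_Mv (ψ : 𝓢(En n, V)) (hψ : ∀ z, ψ z = fderiv ℝ φ z z) {f : En n → F}
    (hf : Continuous f) {A : ℝ} (hA : ∀ x, ‖f x‖ ≤ A) {s0 : ℝ} (hs : 0 < s0) (x : En n) :
    HasDerivAt (fun s => Mv L φ s f x)
      (-(s0⁻¹ • ((n : ℝ) • Mv L φ s0 f x + Mv L ψ s0 f x))) s0 := by
  obtain ⟨C, hC0, hC⟩ := exists_decay ψ
  have hφ := φ.continuous
  have hψc := ψ.continuous
  have hA0 : 0 ≤ A := (norm_nonneg _).trans (hA 0)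
  have hI : HasDerivAt (fun s : ℝ => ∫ u, L (φ (s⁻¹ • u)) (f (x - u)))
      (∫ u, -(s0⁻¹ • L (ψ (s0⁻¹ • u)) (f (x - u)))) s0 := by
    refine (hasDerivAt_integral_of_dominated_loc_of_deriv_le (s := Ioo (s0 / 2) (2 * s0))
      (F' := fun s u => -(s⁻¹ • L (ψ (s⁻¹ • u)) (f (x - u))))
      (bound := fun u => (s0 / 2)⁻¹ * (‖L‖ * A *
        (C * (1 + ‖(2 * s0)⁻¹ • u‖) ^ (-((n : ℝ) + 1)))))
      (Ioo_mem_nhds (by linarith) (by linarith))
      (Eventually.of_forall fun u => Continuous.aestronglyMeasurable (by fun_prop)) ?_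
      (Continuous.aestronglyMeasurable (by fun_prop)) (Eventually.of_forall fun u s hs' => ?_)
      ((((intg_dec.comp_smul (by positivity)).const_mul _).const_mul _).const_mul _)
      (Eventually.of_forall fun u s hs' => ?_)).2
    · refine (((φ.integrable.norm).comp_smul (R := s0⁻¹) (by positivity)).const_mul
        (‖L‖ * A)).mono' (Continuous.aestronglyMeasurable (by fun_prop))
        (Eventually.of_forall fun y => ?_)
      exact bil_le L _ (hA _)
    · have hs1 : 0 < s := by linarith [hs'.1]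
      rw [norm_neg, norm_smul, Real.norm_eq_abs, abs_of_pos (by positivity)]
      have h1 : s⁻¹ ≤ (s0 / 2)⁻¹ := inv_anti₀ (by positivity) hs'.1.le
      have h2 : ‖ψ (s⁻¹ • u)‖ ≤ C * (1 + ‖(2 * s0)⁻¹ • u‖) ^ (-((n : ℝ) + 1)) := by
        refine (hC _).trans (mul_le_mul_of_nonneg_left ?_ hC0)
        refine Real.rpow_le_rpow_of_nonpos (by positivity) ?_
          (by have : (0 : ℝ) ≤ n := Nat.cast_nonneg n; linarith)
        have h3 : (2 * s0)⁻¹ ≤ s⁻¹ := inv_anti₀ hs1 hs'.2.le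
        rw [norm_smul, norm_smul, Real.norm_eq_abs, Real.norm_eq_abs, abs_of_pos (by positivity),
          abs_of_pos (by positivity)]
        gcongr
      have h4 := (bil_le L (ψ (s⁻¹ • u)) (hA (x - u))).trans
        (mul_le_mul_of_nonneg_left h2 (by positivity))
      gcongr
    · have hs1 : 0 < s := by linarith [hs'.1]
      have h1 : HasDerivAt (fun s : ℝ => s⁻¹ • u) ((-(s ^ 2)⁻¹) • u) s :=
        (hasDerivAt_inv hs1.ne').smul_const u
      have h2 := (φ.differentiableAt (x := s⁻¹ • u)).hasFDerivAt.comp_hasDerivAt s h1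
      have h3 := ((L.flip (f (x - u))).hasFDerivAt).comp_hasDerivAt s h2
      refine h3.congr_deriv ?_
      rw [hψ]
      simp [smul_smul, sq]
  have hp : HasDerivAt (fun s : ℝ => (s ^ n)⁻¹) (-((n : ℝ) * s0⁻¹ * (s0 ^ n)⁻¹)) s0 := by
    refine ((hasDerivAt_pow n s0).inv (by positivity)).congr_deriv ?_
    rcases n with _ | m
    · simp
    · simp only [Nat.add_sub_cancel]
      field_simp
      ring
  have h := hp.smul hI
  have e : (fun s => Mv L φ s f x) =ᶠ[𝓝 s0]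
      fun s : ℝ => (s ^ n)⁻¹ • ∫ u, L (φ (s⁻¹ • u)) (f (x - u)) := by
    filter_upwards [Ioi_mem_nhds hs] with s hs' using Mv_eq_scale L φ hs' f x
  refine (h.congr_of_eventuallyEq e).congr_deriv ?_
  rw [Mv_eq_scale L φ hs, Mv_eq_scale L ψ hs, integral_neg, integral_smul]
  simp only [smul_neg, smul_add, neg_add, neg_smul, smul_smul]
  rw [add_comm]
  congr 3 <;> ring

end Crest.Agent.N207.P
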