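import Crest.Agent.N207.P.H1

/-!
# Row 207, parabolic solver (helper17): Duhamel integrals

`DI p L φ f t x = ∫₀ᵗ τ^(-p/2) Mv L φ √τ (f (t - τ)) x dτ`: bounds, continuity, `x`-derivative,
Hoelder estimate; the Leibniz rule for `t ↦ ∫₀ᵗ k τ (t - τ) dτ`.
-/

set_option autoImplicit false
set_option linter.unusedSectionVars false

open MeasureTheory Set Filter Topology SchwartzMap

noncomputable section

namespace Crest.Agent.N207.P

variable {n : ℕ} {F V G : Type*} [NormedAddCommGroup F] [NormedSpace ℝ F]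
  [NormedAddCommGroup V] [NormedSpace ℝ V] [NormedAddCommGroup G] [NormedSpace ℝ G]

/-- global version of `Yb` -/
structure Gy (A c : ℝ) (f : ℝ → En n → F) : Prop where
  cont : Continuous fun p : ℝ × En n => f p.1 p.2
  sup : ∀ t x, ‖f t x‖ ≤ A
  hol : ∀ t x y, ‖f t x - f t y‖ ≤ c * √(dist x y)

theorem Gy.slice {A c : ℝ} {f : ℝ → En n → F} (h : Gy A c f) (t : ℝ) : Continuous (f t) :=
  h.cont.comp (Continuous.prodMk_right t)

def kern (p : ℕ) (L : V →L[ℝ] F →L[ℝ] G) (φ : 𝓢(En n, V)) (g : En n → F) (x : En n) (τ : ℝ) : G :=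
  ((√τ)⁻¹) ^ p • Mv L φ (√τ) g x

def DI (p : ℕ) (L : V →L[ℝ] F →L[ℝ] G) (φ : 𝓢(En n, V)) (f : ℝ → En n → F) (t : ℝ) (x : En n) :
    G := ∫ τ in (0 : ℝ)..t, kern p L φ (f (t - τ)) x τ

/-- the kernel bound `K τ^(-γ)` -/
def KB (p : ℕ) (L : V →L[ℝ] F →L[ℝ] G) (φ : 𝓢(En n, V)) (f : ℝ → En n → F) (K γ : ℝ) : Prop :=
  ∀ r x, ∀ τ : ℝ, 0 < τ → ‖kern p L φ (f r) x τ‖ ≤ K * τ ^ (-γ)

variable {p : ℕ} {L : V →L[ℝ] F →L[ℝ] G} {φ : 𝓢(En n, V)} {f : ℝ → En n → F} {A c K γ : ℝ}

theorem sqrt_inv_pow {τ : ℝ} (hτ : 0 < τ) (p : ℕ) : ((√τ)⁻¹) ^ p = τ ^ (-((p : ℝ) / 2)) := by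
  rw [Real.sqrt_eq_rpow, ← Real.rpow_neg hτ.le, ← Real.rpow_natCast, ← Real.rpow_mul hτ.le]
  congr 1; ring

theorem kb_sup (h : Gy A c f) : KB p L φ f (‖L‖ * A * m0 φ) (p / 2) := by
  intro r x τ hτ
  unfold kern
  rw [norm_smul, Real.norm_eq_abs, abs_of_nonneg (by positivity), sqrt_inv_pow hτ, mul_comm]
  exact mul_le_mul_of_nonneg_right (Mv_le L φ (h.sup r) _ _) (by positivity)

theorem kb_hol (h : Gy A c f) (h0 : ∀ v : F, ∫ z, L (φ z) v = 0) :
    KB p L φ f (‖L‖ * c * m1 φ) (p / 2 - 1 / 4) := by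
  intro r x τ hτ
  unfold kern
  rw [norm_smul, Real.norm_eq_abs, abs_of_nonneg (by positivity), sqrt_inv_pow hτ]
  have h1 := Mv_le_hol L φ h0 (h.slice r) (h.sup r) (h.hol r) (Real.sqrt_nonneg τ) x
  have e : √(√τ) = τ ^ (1 / 4 : ℝ) := by
    rw [Real.sqrt_eq_rpow, Real.sqrt_eq_rpow, ← Real.rpow_mul hτ.le]; norm_num
  rw [e] at h1
  refine (mul_le_mul_of_nonneg_left h1 (by positivity)).trans (le_of_eq ?_)
  rw [show -((p : ℝ) / 2 - 1 / 4) = -((p : ℝ) / 2) + 1 / 4 by ring, Real.rpow_add hτ]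
  ring

theorem kern_meas (h : Gy A c f) (t : ℝ) (x : En n) (μ : Measure ℝ) :
    AEStronglyMeasurable (fun τ => kern p L φ (f (t - τ)) x τ) μ := by
  have h1 : Continuous fun τ : ℝ => Mv L φ (√τ) (f (t - τ)) x :=
    continuous_Mv L φ (g := fun τ => f (t - τ)) Real.continuous_sqrt continuous_const
      (h.cont.comp ((continuous_const.sub continuous_fst).prodMk continuous_snd))
      (fun _ _ => h.sup _ _)
  have h2 : Measurable fun τ : ℝ => ((√τ)⁻¹) ^ p := by fun_prop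
  exact h2.aestronglyMeasurable.smul h1.aestronglyMeasurable

theorem intg_rpow (hγ : γ < 1) (K a b : ℝ) :
    IntervalIntegrable (fun τ : ℝ => K * τ ^ (-γ)) volume a b :=
  (intervalIntegral.intervalIntegrable_rpow' (by linarith)).const_mul K

theorem kern_intg (h : Gy A c f) (hb : KB p L φ f K γ) (hγ : γ < 1) (t : ℝ) {a b : ℝ} (ha : 0 ≤ a)
    (hab : a ≤ b) (x : En n) :
    IntervalIntegrable (fun τ => kern p L φ (f (t - τ)) x τ) volume a b := by
  refine (intg_rpow hγ K a b).mono_fun' (kern_meas h t x _) ?_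
  rw [uIoc_of_le hab]
  filter_upwards [ae_restrict_mem measurableSet_Ioc] with τ hτ
  exact hb _ _ _ (ha.trans_lt hτ.1)

theorem int_rpow (hγ : γ < 1) (K : ℝ) (b : ℝ) :
    ∫ τ in (0 : ℝ)..b, K * τ ^ (-γ) = K * (b ^ (1 - γ) / (1 - γ)) := by
  rw [intervalIntegral.integral_const_mul, integral_rpow (Or.inl (by linarith)),
    Real.zero_rpow (by linarith), sub_zero, show -γ + 1 = 1 - γ by ring]

theorem part_le (hb : KB p L φ f K γ) (hγ : γ < 1) (t : ℝ) {b : ℝ} (hb0 : 0 ≤ b) (x : En n) :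
    ‖∫ τ in (0 : ℝ)..b, kern p L φ (f (t - τ)) x τ‖ ≤ K * (b ^ (1 - γ) / (1 - γ)) := by
  rw [← int_rpow hγ]
  refine intervalIntegral.norm_integral_le_of_norm_le hb0 (Eventually.of_forall fun τ hτ => ?_)
    (intg_rpow hγ K 0 b)
  exact hb _ _ _ hτ.1

theorem DI_le (hb : KB p L φ f K γ) (hγ : γ < 1) {t : ℝ} (ht : 0 ≤ t) (x : En n) :
    ‖DI p L φ f t x‖ ≤ K * (t ^ (1 - γ) / (1 - γ)) := part_le hb hγ t ht x

theorem DI_cont (h : Gy A c f) (hb : KB p L φ f K γ) (hγ : γ < 1) (T : ℝ) :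
    ContinuousOn (fun q : ℝ × En n => DI p L φ f q.1 q.2) (Icc 0 T ×ˢ univ) := by
  have e : ∀ q ∈ Icc (0 : ℝ) T ×ˢ (univ : Set (En n)), DI p L φ f q.1 q.2 =
      ∫ τ in Ioc 0 T, (Iic q.1).indicator (fun τ => kern p L φ (f (q.1 - τ)) q.2 τ) τ := by
    intro q hq
    rw [setIntegral_indicator measurableSet_Iic, DI, intervalIntegral.integral_of_le hq.1.1]
    congr 2
    ext τ
    simp only [mem_Ioc, mem_inter_iff, mem_Iic]
    exact ⟨fun h => ⟨⟨h.1, h.2.trans hq.1.2⟩, h.2⟩, fun h => ⟨h.1.1, h.2⟩⟩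
  refine ContinuousOn.congr (fun q hq => ?_) e
  have hT : 0 ≤ T := hq.1.1.trans hq.1.2
  refine continuousWithinAt_of_dominated (bound := fun τ => |K| * τ ^ (-γ))
    (Eventually.of_forall fun q => (kern_meas h _ _ _).indicator measurableSet_Iic)
    (Eventually.of_forall fun q => ?_)
    ((intervalIntegrable_iff_integrableOn_Ioc_of_le hT).1 (intg_rpow hγ _ 0 T)) ?_
  · filter_upwards [ae_restrict_mem measurableSet_Ioc] with τ hτ
    have hτ0 := hτ.1
    refine (norm_indicator_le_norm_self _ _).trans ((hb _ _ _ hτ.1).trans ?_)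
    exact mul_le_mul_of_nonneg_right (le_abs_self K) (by positivity)
  · have hne : ∀ᵐ τ ∂(volume.restrict (Ioc 0 T)), τ ≠ q.1 :=
      ae_restrict_of_ae (by simp [ae_iff])
    filter_upwards [hne] with τ hτ
    refine ContinuousAt.continuousWithinAt ?_
    rcases lt_or_gt_of_ne hτ with hl | hl
    · have hc : Continuous fun q : ℝ × En n => kern p L φ (f (q.1 - τ)) q.2 τ :=
        (continuous_Mv L φ (g := fun q : ℝ × En n => f (q.1 - τ)) continuous_const continuous_snd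
          (h.cont.comp ((continuous_fst.fst.sub continuous_const).prodMk continuous_snd))
          (fun _ _ => h.sup _ _)).const_smul _
      refine hc.continuousAt.congr ?_
      filter_upwards [(isOpen_lt continuous_const continuous_fst).mem_nhds
        (show q ∈ {q : ℝ × En n | τ < q.1} from hl)] with q' hq'
      rw [indicator_of_mem (show τ ∈ Iic q'.1 from le_of_lt hq')]
    · refine (continuousAt_const (y := (0 : G))).congr ?_
      filter_upwards [(isOpen_lt continuous_fst continuous_const).mem_nhds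
        (show q ∈ {q : ℝ × En n | q.1 < τ} from hl)] with q' hq'
      rw [indicator_of_notMem (show τ ∉ Iic q'.1 from not_le.2 hq')]

theorem kern_fderiv {g : En n → F} (hg : Continuous g) (hA : ∀ x, ‖g x‖ ≤ A) {τ : ℝ} (hτ : 0 < τ)
    (x : En n) : HasFDerivAt (fun x => kern p L φ g x τ)
      (kern (p + 1) (L.precompL (En n)) (fderivCLM ℝ (En n) V φ) g x τ) x := by
  have h := (hasFDerivAt_Mv L φ hg hA (Real.sqrt_pos.2 hτ) x).const_smul (((√τ)⁻¹) ^ p)
  refine h.congr_fderiv ?_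
  rw [kern, smul_smul, pow_succ]

theorem DI_fderiv (h : Gy A c f) (hb : KB p L φ f K γ) (hγ : γ < 1) {K' γ' : ℝ}
    (hb' : KB (p + 1) (L.precompL (En n)) (fderivCLM ℝ (En n) V φ) f K' γ') (hγ' : γ' < 1) {t : ℝ}
    (ht : 0 ≤ t) (x : En n) :
    HasFDerivAt (DI p L φ f t) (DI (p + 1) (L.precompL (En n)) (fderivCLM ℝ (En n) V φ) f t x) x := by
  refine hasFDerivAt_integral_of_dominated_of_fderiv_le'' (s := univ)
    (F := fun x τ => kern p L φ (f (t - τ)) x τ)
    (F' := fun x τ => kern (p + 1) (L.precompL (En n)) (fderivCLM ℝ (En n) V φ) (f (t - τ)) x τ)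
    (bound := fun τ => K' * τ ^ (-γ')) univ_mem (Eventually.of_forall fun x => kern_meas h t x _)
    (kern_intg h hb hγ t le_rfl ht x) (kern_meas h t x _) ?_ (intg_rpow hγ' _ _ _) ?_
  · rw [uIoc_of_le ht]
    filter_upwards [ae_restrict_mem measurableSet_Ioc] with τ hτ x _
    exact hb' _ _ _ hτ.1
  · rw [uIoc_of_le ht]
    filter_upwards [ae_restrict_mem measurableSet_Ioc] with τ hτ x _
    exact kern_fderiv (h.slice _) (h.sup _) hτ.1 x

theorem DI_hol (h : Gy A c f) (hb : KB p L φ f K (3 / 4)) (hK : 0 ≤ K) {K' : ℝ} (hK' : 0 ≤ K')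
    (hb' : KB (p + 1) (L.precompL (En n)) (fderivCLM ℝ (En n) V φ) f K' (5 / 4)) {t : ℝ}
    (ht : 0 ≤ t) (x y : En n) :
    ‖DI p L φ f t x - DI p L φ f t y‖ ≤ (8 * K + 4 * K') * √(dist x y) := by
  rcases eq_or_ne x y with rfl | hxy
  · simp
  set r := dist x y with hr
  have hr0 : 0 < r := dist_pos.2 hxy
  have e4 : (r ^ 2) ^ (1 - 3 / 4 : ℝ) = √r := by
    rw [Real.sqrt_eq_rpow, ← Real.rpow_natCast, ← Real.rpow_mul hr0.le]; norm_num
  have h34 : (3 / 4 : ℝ) < 1 := by norm_num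
  have hs : 0 ≤ √r := Real.sqrt_nonneg r
  rcases le_or_gt t (r ^ 2) with hl | hl
  · have h1 : t ^ (1 - 3 / 4 : ℝ) ≤ √r := e4 ▸ Real.rpow_le_rpow ht hl (by norm_num)
    have h2 := DI_le hb h34 ht x
    have h3 := DI_le hb h34 ht y
    have h4 := norm_sub_le (DI p L φ f t x) (DI p L φ f t y)
    have h5 := mul_le_mul_of_nonneg_left h1 hK
    have e7 : ∀ u : ℝ, K * (u / (1 - 3 / 4)) = 4 * (K * u) := fun u => by ring
    rw [e7] at h2 h3
    have h6 := mul_nonneg hK' hs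
    rw [add_mul, mul_assoc, mul_assoc]
    linarith
  · have hr2 : 0 < r ^ 2 := by positivity
    have sp : ∀ z, DI p L φ f t z = (∫ τ in (0 : ℝ)..r ^ 2, kern p L φ (f (t - τ)) z τ) +
        ∫ τ in r ^ 2..t, kern p L φ (f (t - τ)) z τ := fun z =>
      (intervalIntegral.integral_add_adjacent_intervals (kern_intg h hb h34 t le_rfl hr2.le z)
        (kern_intg h hb h34 t hr2.le hl.le z)).symm
    have h1 := part_le hb h34 t hr2.le x
    have h2 := part_le hb h34 t hr2.le y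
    rw [e4] at h1 h2
    have h3 : ‖(∫ τ in r ^ 2..t, kern p L φ (f (t - τ)) x τ) -
        ∫ τ in r ^ 2..t, kern p L φ (f (t - τ)) y τ‖ ≤ 4 * K' * √r := by
      rw [← intervalIntegral.integral_sub (kern_intg h hb h34 t hr2.le hl.le x)
        (kern_intg h hb h34 t hr2.le hl.le y)]
      have hi : IntervalIntegrable (fun τ : ℝ => K' * r * τ ^ (-(5 / 4) : ℝ)) volume (r ^ 2) t := by
        refine (intervalIntegral.intervalIntegrable_rpow (Or.inr ?_)).const_mul _
        rw [uIcc_of_le hl.le]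
        exact fun h => absurd h.1 (not_le.2 hr2)
      refine (intervalIntegral.norm_integral_le_of_norm_le hl.le
        (Eventually.of_forall fun τ hτ => ?_) hi).trans ?_
      · have hτ0 : 0 < τ := hr2.trans hτ.1
        have := Convex.norm_image_sub_le_of_norm_hasFDerivWithin_le (𝕜 := ℝ) (s := univ)
          (f := fun z => kern p L φ (f (t - τ)) z τ) (C := K' * τ ^ (-(5 / 4) : ℝ))
          (fun z _ => (kern_fderiv (h.slice _) (h.sup _) hτ0 z).hasFDerivWithinAt)
          (fun z _ => hb' _ _ _ hτ0) convex_univ (mem_univ y) (mem_univ x)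
        rw [← dist_eq_norm x y, ← hr] at this
        refine this.trans (le_of_eq (by ring))
      · rw [intervalIntegral.integral_const_mul, integral_rpow (Or.inr ⟨by norm_num, ?_⟩)]
        swap
        · rw [uIcc_of_le hl.le]
          exact fun h => absurd h.1 (not_le.2 hr2)
        have e5 : r * (r ^ 2) ^ (-(5 / 4) + 1 : ℝ) = √r := by
          rw [Real.sqrt_eq_rpow, ← Real.rpow_natCast, ← Real.rpow_mul hr0.le]
          nth_rewrite 1 [← Real.rpow_one r]
          rw [← Real.rpow_add hr0]; norm_num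
        have h6 : 0 ≤ K' * r * t ^ (-(5 / 4) + 1 : ℝ) := by positivity
        have e6 : K' * r * ((t ^ (-(5 / 4) + 1 : ℝ) - (r ^ 2) ^ (-(5 / 4) + 1 : ℝ)) / (-(5 / 4) + 1))
            = 4 * K' * (r * (r ^ 2) ^ (-(5 / 4) + 1 : ℝ)) - 4 * (K' * r * t ^ (-(5 / 4) + 1 : ℝ)) := by
          ring
        rw [e6, e5]
        linarith
    rw [sp x, sp y, add_sub_add_comm]
    refine (norm_add_le _ _).trans ?_
    have h4 := norm_sub_le (∫ τ in (0 : ℝ)..r ^ 2, kern p L φ (f (t - τ)) x τ)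
      (∫ τ in (0 : ℝ)..r ^ 2, kern p L φ (f (t - τ)) y τ)
    have e7 : ∀ u : ℝ, K * (u / (1 - 3 / 4)) = 4 * (K * u) := fun u => by ring
    rw [e7] at h1 h2
    rw [add_mul, mul_assoc 8]
    linarith

theorem DI_sub {g : ℝ → En n → F} {A' c' K' γ' : ℝ} (h : Gy A c f) (hb : KB p L φ f K γ) (hγ : γ < 1)
    (hg : Gy A' c' g) (hb' : KB p L φ g K' γ') (hγ' : γ' < 1) {t : ℝ} (ht : 0 ≤ t) (x : En n) :
    DI p L φ (f - g) t x = DI p L φ f t x - DI p L φ g t x := by
  unfold DI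
  rw [← intervalIntegral.integral_sub (kern_intg h hb hγ t le_rfl ht x)
    (kern_intg hg hb' hγ' t le_rfl ht x)]
  refine intervalIntegral.integral_congr fun τ _ => ?_
  simp only [kern, Pi.sub_apply]
  rw [Mv_sub L φ (h.slice _) (hg.slice _) (h.sup _) (hg.sup _), smul_sub]

section leibniz

variable [CompleteSpace F]

theorem hasDerivAt_diag {Φ : ℝ → ℝ → F} (hΦ : Continuous fun q : ℝ × ℝ => Φ q.1 q.2) (t : ℝ) :
    HasDerivAt (fun u => ∫ σ in t..u, Φ u σ) (Φ t t) t := by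
  rw [hasDerivAt_iff_isLittleO, Asymptotics.isLittleO_iff]
  intro ε hε
  obtain ⟨δ, hδ, h⟩ := Metric.continuousAt_iff.1 (hΦ.continuousAt (x := (t, t))) ε hε
  filter_upwards [Metric.ball_mem_nhds t hδ] with u hu
  have hc : Continuous (Φ u) := hΦ.comp (Continuous.prodMk_right u)
  have e : (∫ σ in t..u, Φ u σ) - (∫ σ in t..t, Φ t σ) - (u - t) • Φ t t =
      ∫ σ in t..u, (Φ u σ - Φ t t) := by
    rw [intervalIntegral.integral_sub (hc.intervalIntegrable _ _) (by simp)]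
    simp
  rw [e, Real.norm_eq_abs]
  refine intervalIntegral.norm_integral_le_of_norm_le_const fun σ hσ => ?_
  rw [← dist_eq_norm]
  refine (h (x := (u, σ)) ?_).le
  rw [Prod.dist_eq, max_lt_iff]
  refine ⟨hu, lt_of_le_of_lt ?_ hu⟩
  rw [Real.dist_eq, Real.dist_eq]
  exact abs_sub_left_of_mem_uIcc (uIoc_subset_uIcc hσ)

theorem leibniz_right {k q : ℝ → ℝ → F} (hk : Continuous fun z : ℝ × ℝ => k z.1 z.2)
    (hq : ∀ σ τ, 0 < τ → HasDerivAt (fun τ => k τ σ) (q τ σ) τ) (hK : 0 ≤ K)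
    (hb : ∀ σ τ, 0 < τ → ‖q τ σ‖ ≤ K * τ ^ (-(3 / 4) : ℝ)) {t : ℝ} (ht : 0 ≤ t) :
    HasDerivWithinAt (fun u => ∫ τ in (0 : ℝ)..u, k τ (u - τ))
      (k 0 t + ∫ τ in (0 : ℝ)..t, q τ (t - τ)) (Ioi t) t := by
  have e : (fun u => ∫ τ in (0 : ℝ)..u, k τ (u - τ)) = fun u =>
      (∫ σ in t..u, k (u - σ) σ) + ∫ τ in (0 : ℝ)..t, k (τ + (u - t)) (t - τ) := by
    funext u
    have hc : Continuous fun σ => k (u - σ) σ := hk.comp ((continuous_const.sub continuous_id).prodMk
      continuous_id)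
    have h1 := intervalIntegral.integral_comp_sub_left (a := 0) (b := u) (fun σ => k (u - σ) σ) u
    have h2 := intervalIntegral.integral_comp_sub_left (a := 0) (b := t) (fun σ => k (u - σ) σ) t
    simp only [sub_sub_cancel, sub_self, sub_zero] at h1 h2
    rw [h1, ← intervalIntegral.integral_add_adjacent_intervals (b := t) (hc.intervalIntegrable _ _)
      (hc.intervalIntegrable _ _), add_comm, ← h2]
    congr 1
    refine intervalIntegral.integral_congr fun τ _ => ?_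
    show k (u - (t - τ)) (t - τ) = k (τ + (u - t)) (t - τ)
    congr 1; ring
  rw [e]
  have hd := hasDerivAt_diag (Φ := fun u σ => k (u - σ) σ)
    (hk.comp ((continuous_fst.sub continuous_snd).prodMk continuous_snd)) t
  simp only [sub_self] at hd
  refine hd.hasDerivWithinAt.add ?_
  rw [hasDerivWithinAt_iff_tendsto_slope' (by simp)]
  have hc : ∀ u, Continuous fun τ => k (τ + (u - t)) (t - τ) := fun u =>
    hk.comp ((continuous_id.add continuous_const).prodMk (continuous_const.sub continuous_id))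
  have e2 : slope (fun u => ∫ τ in (0 : ℝ)..t, k (τ + (u - t)) (t - τ)) t = fun u =>
      ∫ τ in (0 : ℝ)..t, (u - t)⁻¹ • (k (τ + (u - t)) (t - τ) - k (τ + (t - t)) (t - τ)) := by
    funext u
    rw [slope, vsub_eq_sub, intervalIntegral.integral_smul,
      intervalIntegral.integral_sub ((hc u).intervalIntegrable _ _) ((hc t).intervalIntegrable _ _)]
  rw [e2]
  refine intervalIntegral.tendsto_integral_filter_of_dominated_convergence
    (fun τ => K * τ ^ (-(3 / 4) : ℝ))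
    (Eventually.of_forall fun u => (((hc u).sub (hc t)).const_smul _).aestronglyMeasurable) ?_
    (intg_rpow (by norm_num) _ _ _) (Eventually.of_forall fun τ hτ => ?_)
  · filter_upwards [self_mem_nhdsWithin] with u hu
    refine Eventually.of_forall fun τ hτ => ?_
    rw [uIoc_of_le ht] at hτ
    have hu' : 0 < u - t := sub_pos.2 hu
    have := norm_image_sub_le_of_norm_deriv_le_segment' (f := fun r => k r (t - τ))
      (f' := fun r => q r (t - τ)) (a := τ) (b := τ + (u - t)) (C := K * τ ^ (-(3 / 4) : ℝ))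
      (fun r hr => (hq _ _ (hτ.1.trans_le hr.1)).hasDerivWithinAt)
      (fun r hr => (hb _ _ (hτ.1.trans_le hr.1)).trans (mul_le_mul_of_nonneg_left
        (Real.rpow_le_rpow_of_nonpos hτ.1 hr.1 (by norm_num)) hK))
      (τ + (u - t)) ⟨by linarith, le_rfl⟩
    rw [norm_smul, Real.norm_eq_abs, abs_of_pos (by positivity), sub_self, add_zero,
      inv_mul_le_iff₀ hu']
    refine this.trans (le_of_eq (by ring))
  · rw [uIoc_of_le ht] at hτ
    have h1 : HasDerivAt (fun u => k (τ + (u - t)) (t - τ)) (q τ (t - τ)) t := by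
      have h2 := hq (t - τ) (τ + (t - t)) (by simpa using hτ.1)
      have h3 := h2.scomp t (((hasDerivAt_id t).sub_const t).const_add τ)
      simpa [Function.comp_def] using h3
    have h4 := (hasDerivWithinAt_iff_tendsto_slope' (s := Ioi t) (by simp)).1 h1.hasDerivWithinAt
    refine h4.congr fun u => ?_
    rw [slope, vsub_eq_sub]

theorem hasDerivWithinAt_Icc_of_right {W g : ℝ → F} {T : ℝ} (hW : ContinuousOn W (Icc 0 T))
    (hg : ContinuousOn g (Icc 0 T)) (hd : ∀ t ∈ Ioo 0 T, HasDerivWithinAt W (g t) (Ioi t) t)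
    {t : ℝ} (ht : t ∈ Icc 0 T) : HasDerivWithinAt W (g t) (Icc 0 T) t := by
  have hi : ∀ u ∈ Icc 0 T, IntervalIntegrable g volume 0 u := fun u hu =>
    (hg.mono (by rw [uIcc_of_le hu.1]; exact Icc_subset_Icc le_rfl hu.2)).intervalIntegrable
  have e : ∀ u ∈ Icc 0 T, W u = W 0 + ∫ r in (0 : ℝ)..u, g r := fun u hu => by
    rw [intervalIntegral.integral_eq_sub_of_hasDeriv_right_of_le hu.1
      (hW.mono (Icc_subset_Icc le_rfl hu.2)) (fun r hr => hd r ⟨hr.1, hr.2.trans_le hu.2⟩) (hi u hu)]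
    simp
  have : Fact (t ∈ Icc 0 T) := ⟨ht⟩
  have h1 := intervalIntegral.integral_hasDerivWithinAt_right (s := Icc 0 T) (t := Icc 0 T)
    (hi t ht) (hg.stronglyMeasurableAtFilter_nhdsWithin measurableSet_Icc t) (hg t ht)
  exact (h1.const_add (W 0)).congr e (e t ht)

end leibniz

end Crest.Agent.N207.P
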