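import Crest.Agent.N207.P.H2
import Crest.Agent.R338.HOGauss

/-!
# Row 207, parabolic solver (helper17): the Gaussian kernel and the Schauder estimate

* `exists_kernel` : the anisotropic Gaussian of a positive definite matrix;
* `schauder` : `SchauderStmt n F`;
* small lemmas on `Yb` (`congr`, `mono`, `nonneg`), `hol_of_lip`.
-/

set_option autoImplicit false
set_option linter.unusedSectionVars false

open MeasureTheory Set Filter Topology SchwartzMap
open scoped InnerProductSpace MatrixOrder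

noncomputable section

namespace Crest.Agent.N207.P

variable {n : ℕ} {F : Type*} [NormedAddCommGroup F] [NormedSpace ℝ F]

theorem exists_root {a : Matrix (Fin n) (Fin n) ℝ} (ha : a.PosDef) :
    ∃ P Q : Matrix (Fin n) (Fin n) ℝ, P * Q = 1 ∧ Q * P = 1 ∧
      P * a * P.transpose = (1 / 2 : ℝ) • (1 : Matrix (Fin n) (Fin n) ℝ) := by
  obtain ⟨B, hB⟩ := CStarAlgebra.nonneg_iff_eq_star_mul_self.mp ha.posSemidef.nonneg
  have hB' : a = B.transpose * B := by rw [hB]; rfl
  have hd : IsUnit B.det := by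
    have h := ha.det_pos
    rw [hB', Matrix.det_mul, Matrix.det_transpose] at h
    exact isUnit_iff_ne_zero.2 fun h0 => by simp [h0] at h
  have hd' : IsUnit B.transpose.det := by rwa [Matrix.det_transpose]
  have h2 : (0 : ℝ) < √2 := by positivity
  refine ⟨(√2)⁻¹ • B.transpose⁻¹, √2 • B.transpose, ?_, ?_, ?_⟩
  · rw [Matrix.smul_mul, Matrix.mul_smul, smul_smul, Matrix.nonsing_inv_mul _ hd',
      inv_mul_cancel₀ h2.ne', one_smul]
  · rw [Matrix.smul_mul, Matrix.mul_smul, smul_smul, Matrix.mul_nonsing_inv _ hd',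
      mul_inv_cancel₀ h2.ne', one_smul]
  · rw [hB', Matrix.transpose_smul, Matrix.transpose_nonsing_inv, Matrix.transpose_transpose,
      Matrix.smul_mul, Matrix.smul_mul, Matrix.mul_smul, smul_smul, ← Matrix.mul_assoc,
      Matrix.nonsing_inv_mul _ hd', Matrix.one_mul, Matrix.mul_nonsing_inv _ hd, ← mul_inv,
      Real.mul_self_sqrt (by norm_num), one_div]

theorem exists_kernel {a : Matrix (Fin n) (Fin n) ℝ} (ha : a.PosDef) :
    ∃ G : 𝓢(En n, ℝ), ∫ z, G z = 1 ∧ ∀ z, fderiv ℝ G z z = -(n * G z) -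
      2 * ∑ k, ∑ l, a k l * fderiv ℝ (fderiv ℝ G) z (EuclideanSpace.single k 1)
        (EuclideanSpace.single l 1) := by
  obtain ⟨P, Q, hPQ, hQP, hP⟩ := exists_root ha
  let T : En n ≃L[ℝ] En n := ContinuousLinearEquiv.equivOfInverse
    (Matrix.toEuclideanCLM (𝕜 := ℝ) P) (Matrix.toEuclideanCLM (𝕜 := ℝ) Q)
    (fun x => by rw [← mul_apply_eq_comp, ← map_mul, hQP, map_one]; rfl)
    (fun x => by rw [← mul_apply_eq_comp, ← map_mul, hPQ, map_one]; rfl)
  have hT : ∀ k i, T (EuclideanSpace.single k 1) i = P i k := fun k i => by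
    show (Matrix.toEuclideanCLM (𝕜 := ℝ) P (EuclideanSpace.single k 1)).ofLp i = _
    rw [Matrix.ofLp_toEuclideanCLM]
    simp
  let G0 : 𝓢(En n, ℝ) := compCLMOfContinuousLinearEquiv ℝ T (R338.HO.gaussRS (En n))
  have hG0 : ∀ z, G0 z = Real.exp (-(‖T z‖ ^ 2) / 2) := fun z => rfl
  have hpos : 0 < ∫ z, G0 z := integral_pos_of_integrable_nonneg_nonzero (x := 0) G0.continuous
    G0.integrable (fun z => (Real.exp_pos _).le) (Real.exp_pos _).ne'
  set c := (∫ z, G0 z)⁻¹ with hc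
  have hG : ∀ z, (c • G0) z = c * Real.exp (-(‖T z‖ ^ 2) / 2) := fun z => rfl
  have hD : ∀ z, HasFDerivAt (c • G0 : 𝓢(En n, ℝ))
      (-((c • G0) z) • (innerSL ℝ (T z)).comp (T : En n →L[ℝ] En n)) z := fun z => by
    have h1 := ((((T : En n →L[ℝ] En n).hasFDerivAt (x := z)).norm_sq.const_mul
      (-(1 / 2) : ℝ)).exp).const_mul c
    have e : ((c • G0 : 𝓢(En n, ℝ)) : En n → ℝ) =
        fun y => c * Real.exp (-(1 / 2) * ‖(T : En n →L[ℝ] En n) y‖ ^ 2) := by
      funext y
      rw [hG]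
      congr 2
      simp only [ContinuousLinearEquiv.coe_coe]
      ring
    rw [e]
    refine h1.congr_fderiv ?_
    ext v
    simp
    ring
  have hD' : fderiv ℝ (c • G0 : 𝓢(En n, ℝ)) =
      fun z => -((c • G0) z) • (innerSL ℝ (T z)).comp (T : En n →L[ℝ] En n) :=
    funext fun z => (hD z).fderiv
  have hD2 : ∀ z u v, fderiv ℝ (fderiv ℝ (c • G0 : 𝓢(En n, ℝ))) z u v =
      (⟪T z, T u⟫_ℝ * ⟪T z, T v⟫_ℝ - ⟪T u, T v⟫_ℝ) * (c • G0) z := fun z u v => by
    let M : En n →L[ℝ] En n →L[ℝ] ℝ :=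
      ((ContinuousLinearMap.compL ℝ (En n) (En n) ℝ).flip (T : En n →L[ℝ] En n)).comp
        ((innerSL ℝ).comp (T : En n →L[ℝ] En n))
    have h1 := (hD z).neg.smul (M.hasFDerivAt (x := z))
    have e : fderiv ℝ (c • G0 : 𝓢(En n, ℝ)) = (-(c • G0 : 𝓢(En n, ℝ)) : En n → ℝ) • (M : En n → _) := by
      rw [hD']; rfl
    rw [e, h1.fderiv]
    simp [M]
    ring
  refine ⟨c • G0, ?_, fun z => ?_⟩
  · simp only [hG, ← hG0]
    rw [integral_const_mul, hc, inv_mul_cancel₀ hpos.ne']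
  · simp only [hD2]
    rw [hD']
    set w := T z with hw
    have hin : ∀ k, ⟪w, T (EuclideanSpace.single k 1)⟫_ℝ = ∑ i, w i * P i k := fun k => by
      simp [PiLp.inner_apply, hT, mul_comm]
    have hin2 : ∀ k l, ⟪T (EuclideanSpace.single k 1), T (EuclideanSpace.single l 1)⟫_ℝ =
        ∑ i, P i k * P i l := fun k l => by
      simp [PiLp.inner_apply, hT, mul_comm]
    have hE : ∀ i j, ∑ k, ∑ l, P i k * a k l * P j l = if i = j then 1 / 2 else 0 := fun i j => by
      have := congrFun (congrFun hP i) j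
      simp only [Matrix.mul_apply, Matrix.transpose_apply, Matrix.smul_apply, Matrix.one_apply,
        smul_eq_mul, mul_ite, mul_one, mul_zero, Finset.sum_mul] at this
      rw [Finset.sum_comm, this]
    have s1 : ∑ k, ∑ l, a k l * ((∑ i, w i * P i k) * ∑ j, w j * P j l) = ‖w‖ ^ 2 / 2 := by
      calc _ = ∑ k, ∑ l, ∑ i, ∑ j, w i * w j * (P i k * a k l * P j l) := by
            refine Finset.sum_congr rfl fun k _ => Finset.sum_congr rfl fun l _ => ?_
            rw [Finset.sum_mul_sum, Finset.mul_sum]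
            refine Finset.sum_congr rfl fun i _ => ?_
            rw [Finset.mul_sum]
            exact Finset.sum_congr rfl fun j _ => by ring
        _ = ∑ i, ∑ j, w i * w j * ∑ k, ∑ l, (P i k * a k l * P j l) := by
            simp only [Finset.mul_sum]
            rw [Finset.sum_congr rfl fun k _ => Finset.sum_comm, Finset.sum_comm]
            refine Finset.sum_congr rfl fun i _ => ?_
            rw [Finset.sum_congr rfl fun k _ => Finset.sum_comm, Finset.sum_comm]
        _ = ‖w‖ ^ 2 / 2 := by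
            simp only [hE, mul_ite, mul_zero, Finset.sum_ite_eq, Finset.mem_univ, if_true]
            rw [EuclideanSpace.real_norm_sq_eq, Finset.sum_div]
            exact Finset.sum_congr rfl fun i _ => by ring
    have s2 : ∑ k, ∑ l, a k l * ∑ i, P i k * P i l = n / 2 := by
      calc _ = ∑ i, ∑ k, ∑ l, P i k * a k l * P i l := by
            simp only [Finset.mul_sum]
            rw [Finset.sum_congr rfl fun k _ => Finset.sum_comm, Finset.sum_comm]
            exact Finset.sum_congr rfl fun i _ => Finset.sum_congr rfl fun k _ =>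
              Finset.sum_congr rfl fun l _ => by ring
        _ = n / 2 := by simp [hE]; ring
    have s3 : ∑ k, ∑ l, a k l * ((⟪w, T (EuclideanSpace.single k 1)⟫_ℝ *
        ⟪w, T (EuclideanSpace.single l 1)⟫_ℝ -
        ⟪T (EuclideanSpace.single k 1), T (EuclideanSpace.single l 1)⟫_ℝ) * (c • G0) z) =
        (‖w‖ ^ 2 / 2 - n / 2) * (c • G0) z := by
      rw [← s1, ← s2, ← Finset.sum_sub_distrib, Finset.sum_mul]
      refine Finset.sum_congr rfl fun k _ => ?_
      rw [← Finset.sum_sub_distrib, Finset.sum_mul]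
      refine Finset.sum_congr rfl fun l _ => ?_
      rw [hin, hin, hin2]; ring
    rw [s3]
    simp [← hw]
    ring

section Y

variable {X : Type*} [TopologicalSpace X] {d : X → X → ℝ} {τ A c : ℝ} {f g : ℝ → X → F}

theorem Yb.congr (h : Yb d τ A c f) (e : ∀ t ∈ Icc 0 τ, g t = f t) : Yb d τ A c g :=
  ⟨h.cont.congr fun q hq => by simp only [e q.1 hq.1], fun t ht x => e t ht ▸ h.sup t ht x,
    fun t ht x y => e t ht ▸ h.hol t ht x y⟩

theorem Yb.mono (h : Yb d τ A c f) {A' c' : ℝ} (hA : A ≤ A') (hc : c ≤ c') : Yb d τ A' c' f :=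
  ⟨h.cont, fun t ht x => (h.sup t ht x).trans hA, fun t ht x y =>
    (h.hol t ht x y).trans (mul_le_mul_of_nonneg_right hc (Real.sqrt_nonneg _))⟩

theorem Yb.nonneg [Nonempty X] (h : Yb d τ A c f) (hτ : 0 ≤ τ) : 0 ≤ A :=
  (norm_nonneg _).trans (h.sup 0 ⟨le_rfl, hτ⟩ (Classical.arbitrary X))

end Y

theorem hol_of_lip {X : Type*} [PseudoMetricSpace X] {v : X → F} {a b : ℝ} (ha : ∀ x, ‖v x‖ ≤ a)
    (hb0 : 0 ≤ b) (hb : ∀ x y, ‖v x - v y‖ ≤ b * dist x y) (x y : X) :
    ‖v x - v y‖ ≤ (2 * a + b) * √(dist x y) := by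
  have ha0 : 0 ≤ a := (norm_nonneg _).trans (ha x)
  have hs := Real.sqrt_nonneg (dist x y)
  rcases le_total (dist x y) 1 with h | h
  · have h1 : dist x y ≤ √(dist x y) := by
      rw [Real.le_sqrt dist_nonneg dist_nonneg]; nlinarith [dist_nonneg (x := x) (y := y)]
    have h2 := mul_le_mul_of_nonneg_left h1 hb0
    nlinarith [hb x y, mul_nonneg ha0 hs]
  · have h1 : 1 ≤ √(dist x y) := Real.one_le_sqrt.2 h
    nlinarith [norm_sub_le (v x) (v y), ha x, ha y, mul_nonneg hb0 hs]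

theorem lip_of_fderiv {v : En n → F} {v' : En n → En n →L[ℝ] F} (h : ∀ x, HasFDerivAt v (v' x) x)
    {b : ℝ} (hb : ∀ x, ‖v' x‖ ≤ b) (x y : En n) : ‖v x - v y‖ ≤ b * dist x y := by
  rw [dist_eq_norm]
  exact Convex.norm_image_sub_le_of_norm_hasFDerivWithin_le (𝕜 := ℝ) (s := univ)
    (fun z _ => (h z).hasFDerivWithinAt) (fun z _ => hb z) convex_univ (mem_univ y) (mem_univ x)

theorem Yb.apply {G : Type*} [NormedAddCommGroup G] [NormedSpace ℝ G] {τ A c : ℝ}
    {f : ℝ → En n → En n →L[ℝ] G} (h : Yb dist τ A c f) (k : Fin n) :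
    Yb dist τ A c (fun t x => f t x (EuclideanSpace.single k 1)) := by
  have hk : ∀ T : En n →L[ℝ] G, ‖T (EuclideanSpace.single k 1)‖ ≤ ‖T‖ := fun T => by
    simpa using T.le_opNorm (EuclideanSpace.single k 1)
  refine ⟨h.cont.clm_apply continuousOn_const, fun t ht x => (hk _).trans (h.sup t ht x),
    fun t ht x y => ?_⟩
  rw [← sub_apply]
  exact (hk _).trans (h.hol t ht x y)

theorem Yb.clamp {τ A c : ℝ} {f : ℝ → En n → F} (h : Yb dist τ A c f) (hτ : 0 ≤ τ) :
    Gy A c (fun t => f (projIcc 0 τ hτ t)) :=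
  ⟨h.cont.comp_continuous
    (((continuous_subtype_val.comp (continuous_projIcc (h := hτ))).comp continuous_fst).prodMk continuous_snd)
    fun q => ⟨(projIcc 0 τ hτ q.1).2, mem_univ _⟩,
   fun t x => h.sup _ (projIcc 0 τ hτ t).2 x, fun t x y => h.hol _ (projIcc 0 τ hτ t).2 x y⟩

theorem rpow_le_quarter {t τ γ : ℝ} (ht : t ∈ Icc 0 τ) (hτ : τ ≤ 1) (hγ : 1 / 4 ≤ γ) :
    t ^ γ ≤ τ ^ (1 / 4 : ℝ) :=
  (Real.rpow_le_rpow_of_exponent_ge' ht.1 (ht.2.trans hτ) (by norm_num) hγ).trans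
    (Real.rpow_le_rpow ht.1 ht.2 (by norm_num))

end Crest.Agent.N207.P
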