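import Crest.Agent.N207.P.H3

/-!
# Row 207, parabolic solver (helper17): `schauder : SchauderStmt n F`
-/

set_option autoImplicit false
set_option linter.unusedSectionVars false

open MeasureTheory Set Filter Topology SchwartzMap

noncomputable section

namespace Crest.Agent.N207.P

variable {n : ℕ} {F : Type*} [NormedAddCommGroup F] [NormedSpace ℝ F]

abbrev L0 (F : Type*) [NormedAddCommGroup F] [NormedSpace ℝ F] : ℝ →L[ℝ] F →L[ℝ] F :=
  ContinuousLinearMap.lsmul ℝ ℝ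

abbrev L1 (n : ℕ) (F : Type*) [NormedAddCommGroup F] [NormedSpace ℝ F] := (L0 F).precompL (En n)
abbrev G1 (G : 𝓢(En n, ℝ)) := fderivCLM ℝ (En n) ℝ G
/-- directional derivative of a kernel -/
def Dv (v : En n) (G : 𝓢(En n, ℝ)) : 𝓢(En n, ℝ) :=
  (G1 G).postcompCLM (ContinuousLinearMap.apply ℝ ℝ v)
abbrev Dk (k : Fin n) (G : 𝓢(En n, ℝ)) : 𝓢(En n, ℝ) := Dv (EuclideanSpace.single k 1) G

/-- operator norm (instances fixed) -/
def nL {V H : Type*} [NormedAddCommGroup V] [NormedSpace ℝ V] [NormedAddCommGroup H]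
    [NormedSpace ℝ H] (L : V →L[ℝ] F →L[ℝ] H) : ℝ := ‖L‖

theorem Dv_apply (v : En n) (G : 𝓢(En n, ℝ)) (z : En n) : Dv v G z = fderiv ℝ G z v := rfl

variable [CompleteSpace F] {a : Matrix (Fin n) (Fin n) ℝ} {G : 𝓢(En n, ℝ)} {A c : ℝ}
  {f : ℝ → En n → F}

theorem KB.mono {V H : Type*} [NormedAddCommGroup V] [NormedSpace ℝ V] [NormedAddCommGroup H]
    [NormedSpace ℝ H] {p : ℕ} {L : V →L[ℝ] F →L[ℝ] H} {φ : 𝓢(En n, V)} {K K' γ : ℝ}
    (h : KB p L φ f K γ) (hK : K ≤ K') : KB p L φ f K' γ := fun r x τ hτ =>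
  (h r x τ hτ).trans (mul_le_mul_of_nonneg_right hK (by positivity))

theorem Mv_apply {g : En n → F} (hg : Continuous g) (hA : ∀ x, ‖g x‖ ≤ A) (s : ℝ) (x v : En n) :
    Mv (L1 n F) (G1 G) s g x v = Mv (L0 F) (Dv v G) s g x := by
  unfold Mv
  rw [ContinuousLinearMap.integral_apply (intg_Mv _ _ hg hA s x)]
  rfl

theorem Dv_zero (v : En n) (G : 𝓢(En n, ℝ)) (w : F) : ∫ z, L0 F (Dv v G z) w = 0 := by
  have h := Mv_apply (G := G) (g := fun _ => w) continuous_const (fun _ => le_rfl) 1 0 v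
  have h2 : Mv (L1 n F) (G1 G) 1 (fun _ => w) 0 = 0 := integral_fderiv_zero (L0 F) G w
  rw [h2] at h
  exact h.symm

theorem DI_apply {p : ℕ} {K γ : ℝ} (h : Gy A c f) (hb : KB p (L1 n F) (G1 G) f K γ) (hγ : γ < 1)
    {t : ℝ} (ht : 0 ≤ t) (x v : En n) :
    DI p (L1 n F) (G1 G) f t x v = DI p (L0 F) (Dv v G) f t x := by
  unfold DI
  rw [ContinuousLinearMap.intervalIntegral_apply (kern_intg h hb hγ t le_rfl ht x)]
  refine intervalIntegral.integral_congr fun τ _ => ?_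
  simp only [kern, smul_apply, Mv_apply (h.slice _) (h.sup _)]

theorem kb2 (h : Gy A c f) (G : 𝓢(En n, ℝ)) :
    KB 2 (L1 n F) (G1 G) f (nL (L1 n F) * m1 (G1 G) * c) (3 / 4) := by
  have := kb_hol (p := 2) (L := L1 n F) (φ := G1 G) h (integral_fderiv_zero _ _)
  unfold nL
  rwa [mul_right_comm, show ((2 : ℕ) : ℝ) / 2 - 1 / 4 = 3 / 4 by norm_num] at this

theorem kb2' (h : Gy A c f) (G : 𝓢(En n, ℝ)) (v : En n) :
    KB 2 (L0 F) (Dv v G) f (‖L0 F‖ * m1 (Dv v G) * c) (3 / 4) := by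
  have := kb_hol (p := 2) (L := L0 F) (φ := Dv v G) h (Dv_zero _ _)
  rwa [mul_right_comm, show ((2 : ℕ) : ℝ) / 2 - 1 / 4 = 3 / 4 by norm_num] at this

theorem pd_S (h : Gy A c f) {t : ℝ} (ht : 0 ≤ t) (x : En n) :
    HasFDerivAt (DI 0 (L0 F) G f t) (DI 1 (L1 n F) (G1 G) f t x) x :=
  DI_fderiv h (kb_sup h) (by norm_num) (kb_sup h) (by norm_num) ht x

theorem pd_S1 (h : Gy A c f) {t : ℝ} (ht : 0 ≤ t) (x : En n) :
    HasFDerivAt (DI 1 (L0 F) G f t) (DI 2 (L1 n F) (G1 G) f t x) x :=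
  DI_fderiv h (kb_sup h) (by norm_num) (kb2 h G) (by norm_num) ht x

theorem pd1_eq (h : Gy A c f) {t : ℝ} (ht : 0 ≤ t) (l : Fin n) :
    pd l (DI 0 (L0 F) G f t) = DI 1 (L0 F) (Dk l G) f t :=
  funext fun x => by rw [pd, (pd_S h ht x).fderiv, DI_apply h (kb_sup h) (by norm_num) ht]

theorem pd2_eq (h : Gy A c f) {t : ℝ} (ht : 0 ≤ t) (k l : Fin n) :
    pd k (pd l (DI 0 (L0 F) G f t)) = DI 2 (L0 F) (Dk k (Dk l G)) f t := by
  funext x
  rw [pd1_eq h ht, pd, (pd_S1 h ht x).fderiv, DI_apply h (kb2 h _) (by norm_num) ht]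

theorem Dk_Dk (G : 𝓢(En n, ℝ)) (k l : Fin n) (z : En n) : Dk k (Dk l G) z =
    fderiv ℝ (fderiv ℝ G) z (EuclideanSpace.single k 1) (EuclideanSpace.single l 1) := by
  have h : HasFDerivAt (fderiv ℝ G) (fderiv ℝ (fderiv ℝ G) z) z :=
    ((G1 G).differentiableAt (x := z)).hasFDerivAt
  have e : ((Dk l G : 𝓢(En n, ℝ)) : En n → ℝ) =
      fun z => fderiv ℝ G z (EuclideanSpace.single l 1) := rfl
  rw [Dv_apply, e, (h.clm_apply (hasFDerivAt_const _ z)).fderiv]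
  simp

theorem heat_deriv (hG : ∀ z, fderiv ℝ G z z = -(n * G z) -
      2 * ∑ k, ∑ l, a k l * fderiv ℝ (fderiv ℝ G) z (EuclideanSpace.single k 1)
        (EuclideanSpace.single l 1)) {g : En n → F} (hg : Continuous g) (hA : ∀ x, ‖g x‖ ≤ A)
    (x : En n) {τ : ℝ} (hτ : 0 < τ) :
    HasDerivAt (fun τ => Mv (L0 F) G (√τ) g x)
      (∑ k, ∑ l, a k l • kern 2 (L0 F) (Dk k (Dk l G)) g x τ) τ := by
  let ψ : 𝓢(En n, ℝ) := -((n : ℝ) • G) - (2 : ℝ) • ∑ k, ∑ l, a k l • Dk k (Dk l G)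
  have hψ0 : ∀ z, ψ z = -(n * G z) - 2 * ∑ k, ∑ l, a k l * Dk k (Dk l G) z := fun z => by
    simp [ψ]
  have hψ : ∀ z, ψ z = fderiv ℝ G z z := fun z => by
    simp only [hψ0, hG, Dk_Dk]
  have hs : 0 < √τ := Real.sqrt_pos.2 hτ
  have h1 := (hasDerivAt_Mv (L0 F) G ψ hψ hg hA hs x).scomp τ (Real.hasDerivAt_sqrt hτ.ne')
  refine h1.congr_deriv ?_
  have e : (n : ℝ) • Mv (L0 F) G (√τ) g x + Mv (L0 F) ψ (√τ) g x =
      (-2 : ℝ) • ∑ k, ∑ l, a k l • Mv (L0 F) (Dk k (Dk l G)) (√τ) g x := by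
    have hi := fun φ : 𝓢(En n, ℝ) => intg_Mv (L0 F) φ hg hA (√τ) x
    let M : 𝓢(En n, ℝ) →ₗ[ℝ] F :=
      { toFun := fun φ => Mv (L0 F) φ (√τ) g x
        map_add' := fun φ φ' => by
          unfold Mv
          rw [← integral_add (hi φ) (hi φ')]
          simp
        map_smul' := fun r φ => by
          unfold Mv
          rw [RingHom.id_apply, ← integral_smul]
          simp [smul_smul] }
    show (n : ℝ) • M G + M ψ = (-2 : ℝ) • ∑ k, ∑ l, a k l • M (Dk k (Dk l G))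
    simp only [ψ, map_sub, map_neg, map_smul, map_sum, neg_smul]
    abel
  rw [e]
  simp only [kern, smul_comm (a _ _), ← Finset.smul_sum]
  rw [smul_smul, ← neg_smul, smul_smul]
  congr 1
  field_simp

theorem solves_global (hG1 : ∫ z, G z = 1) (hG : ∀ z, fderiv ℝ G z z = -(n * G z) -
      2 * ∑ k, ∑ l, a k l * fderiv ℝ (fderiv ℝ G) z (EuclideanSpace.single k 1)
        (EuclideanSpace.single l 1)) (h : Gy A c f) (hc : 0 ≤ c) (τ : ℝ) :
    Solves a τ f (DI 0 (L0 F) G f) := by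
  have h34 : (3 / 4 : ℝ) < 1 := by norm_num
  have hL : ∀ t, 0 ≤ t → ∀ x, Lop a (DI 0 (L0 F) G f t) x =
      ∑ k, ∑ l, a k l • DI 2 (L0 F) (Dk k (Dk l G)) f t x :=
    fun t ht x => by simp only [Lop, pd2_eq h ht]
  refine ⟨fun x => by simp [DI], fun t ht => ?_, fun t ht x => ?_⟩
  · refine contDiff_succ_iff_hasFDerivAt (n := 1) |>.2 ⟨_, ?_, pd_S h ht.1⟩
    refine contDiff_clm_apply_iff.2 fun v => ?_
    simp only [DI_apply (p := 1) h (kb_sup h) (by norm_num) ht.1]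
    refine contDiff_succ_iff_hasFDerivAt (n := 0) |>.2 ⟨_, ?_, pd_S1 h ht.1⟩
    rw [Nat.cast_zero, contDiff_zero]
    exact (DI_cont h (kb2 h (Dv v G)) h34 τ).comp_continuous (f := fun x => (t, x))
      (Continuous.prodMk_right t) fun x => ⟨ht, mem_univ _⟩
  · refine hasDerivWithinAt_Icc_of_right (W := fun s => DI 0 (L0 F) G f s x)
      (g := fun t => Lop a (DI 0 (L0 F) G f t) x + f t x) ?_ ?_ (fun t ht => ?_) ht
    · exact (DI_cont h (kb_sup h) (by norm_num) τ).comp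
        (continuous_id.prodMk continuous_const).continuousOn fun t ht => ⟨ht, mem_univ _⟩
    · refine ContinuousOn.add (ContinuousOn.congr ?_ fun t ht => hL t ht.1 x)
        (h.cont.comp (continuous_id.prodMk continuous_const)).continuousOn
      refine continuousOn_finsetSum _ fun k _ => continuousOn_finsetSum _ fun l _ => ?_
      exact ContinuousOn.const_smul ((DI_cont h (kb2' h _ _) h34 τ).comp
        (continuous_id.prodMk continuous_const).continuousOn fun t ht => ⟨ht, mem_univ _⟩) _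
    · have h1 := leibniz_right (k := fun τ σ => Mv (L0 F) G (√τ) (f σ) x)
        (q := fun τ σ => ∑ k, ∑ l, a k l • kern 2 (L0 F) (Dk k (Dk l G)) (f σ) x τ)
        (K := ∑ k, ∑ l, |a k l| * (‖L0 F‖ * m1 (Dk k (Dk l G)) * c))
        (continuous_Mv _ _ (g := fun z : ℝ × ℝ => f z.2) (Real.continuous_sqrt.comp continuous_fst)
          continuous_const (h.cont.comp (continuous_fst.snd.prodMk continuous_snd))
          fun _ _ => h.sup _ _)
        (fun σ τ hτ => heat_deriv hG (h.slice σ) (h.sup σ) x hτ)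
        (Finset.sum_nonneg fun k _ => Finset.sum_nonneg fun l _ => by
          have := m1_nonneg (Dk k (Dk l G)); positivity)
        (fun σ τ hτ => by
          rw [Finset.sum_mul]
          refine norm_sum_le_of_le _ fun k _ => ?_
          rw [Finset.sum_mul]
          refine norm_sum_le_of_le _ fun l _ => ?_
          rw [norm_smul, Real.norm_eq_abs, mul_assoc]
          exact mul_le_mul_of_nonneg_left (kb2' h _ _ σ x τ hτ) (abs_nonneg _)) ht.1.le
      have e0 : Mv (L0 F) G (√0) (f t) x = f t x := by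
        simp [Mv, integral_smul_const, hG1]
      have hi : ∀ k l, IntervalIntegrable
          (fun τ => a k l • kern 2 (L0 F) (Dk k (Dk l G)) (f (t - τ)) x τ) volume 0 t :=
        fun k l => (kern_intg h (kb2' h (Dk l G) (EuclideanSpace.single k 1)) h34 t le_rfl
          ht.1.le x).smul (a k l)
      have e1 : ∫ τ in (0 : ℝ)..t, ∑ k, ∑ l, a k l • kern 2 (L0 F) (Dk k (Dk l G)) (f (t - τ)) x τ =
          ∑ k, ∑ l, a k l • DI 2 (L0 F) (Dk k (Dk l G)) f t x := by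
        rw [intervalIntegral.integral_finsetSum fun k _ => ?_]
        · refine Finset.sum_congr rfl fun k _ => ?_
          rw [intervalIntegral.integral_finsetSum fun l _ => hi k l]
          exact Finset.sum_congr rfl fun l _ => intervalIntegral.integral_smul _ _
        · have := IntervalIntegrable.sum (s := Finset.univ) fun l _ => hi k l
          rw [Finset.sum_fn] at this
          exact this
      rw [e0, e1, add_comm] at h1
      rw [hL t ht.1.le]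
      simpa [DI, kern] using h1

theorem solB_global (G : 𝓢(En n, ℝ)) (F : Type*) [NormedAddCommGroup F] [NormedSpace ℝ F]
    [CompleteSpace F] : ∃ C : ℝ, 1 ≤ C ∧ ∀ τ ∈ Ioc (0 : ℝ) 1, ∀ (A c : ℝ) (f : ℝ → En n → F),
      0 ≤ c → Gy A c f →
      SolB τ (C * τ ^ (1 / 4 : ℝ) * (A + c)) (C * c) (DI 0 (L0 F) G f) := by
  obtain ⟨κ, hκ⟩ := Finite.exists_le fun q : Option (Fin n × Fin n) => match q with
    | none => max 0 (max (‖L0 F‖ * m0 G) (nL (L1 n F) * m0 (G1 G)))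
    | some q => max (max (‖L0 F‖ * m0 (Dk q.2 G)) (nL (L1 n F) * m1 (G1 (Dk q.2 G))))
        (max (‖L0 F‖ * m1 (Dk q.1 (Dk q.2 G))) (nL (L1 n F) * m1 (G1 (Dk q.1 (Dk q.2 G)))))
  have hn := hκ none
  have hs := fun k l => hκ (some (k, l))
  simp only [max_le_iff] at hn hs
  have p0 := hn.1
  refine ⟨1 + 12 * κ, by linarith, fun τ hτ A c f hc h => ?_⟩
  have hA : 0 ≤ A := (norm_nonneg _).trans (h.sup 0 0)
  set θ := τ ^ (1 / 4 : ℝ) with hθ
  have hθ0 : 0 ≤ θ := Real.rpow_nonneg hτ.1.le _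
  have b0 : KB 0 (L0 F) G f (κ * A) 0 := by
    have := kb_sup (p := 0) (L := L0 F) (φ := G) h
    rw [mul_right_comm, Nat.cast_zero, zero_div] at this
    exact this.mono (mul_le_mul_of_nonneg_right hn.2.1 hA)
  have b1 : KB 1 (L1 n F) (G1 G) f (κ * A) (1 / 2) := by
    have := kb_sup (p := 1) (L := L1 n F) (φ := G1 G) h
    rw [mul_right_comm, Nat.cast_one] at this
    exact this.mono (mul_le_mul_of_nonneg_right hn.2.2 hA)
  have b1' : ∀ l, KB 1 (L0 F) (Dk l G) f (κ * A) (1 / 2) := fun l => by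
    have := kb_sup (p := 1) (L := L0 F) (φ := Dk l G) h
    rw [mul_right_comm, Nat.cast_one] at this
    exact this.mono (mul_le_mul_of_nonneg_right (hs l l).1.1 hA)
  have b2 : ∀ l, KB 2 (L1 n F) (G1 (Dk l G)) f (κ * c) (3 / 4) := fun l =>
    (kb2 h _).mono (mul_le_mul_of_nonneg_right (hs l l).1.2 hc)
  have b2' : ∀ k l, KB 2 (L0 F) (Dk k (Dk l G)) f (κ * c) (3 / 4) := fun k l =>
    (kb2' h _ _).mono (mul_le_mul_of_nonneg_right (hs k l).2.1 hc)
  have b3 : ∀ k l, KB (2 + 1) (L1 n F) (G1 (Dk k (Dk l G))) f (κ * c) (5 / 4) := fun k l => by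
    have := kb_hol (p := 2 + 1) (L := L1 n F) (φ := G1 (Dk k (Dk l G))) h (integral_fderiv_zero _ _)
    rw [mul_right_comm, show ((2 + 1 : ℕ) : ℝ) / 2 - 1 / 4 = 5 / 4 by norm_num] at this
    exact this.mono (mul_le_mul_of_nonneg_right (hs k l).2.2 hc)
  have r0 : ∀ t ∈ Icc 0 τ, t ^ (1 - 0 : ℝ) / (1 - 0) ≤ θ := fun t ht => by
    have := rpow_le_quarter (γ := 1 - 0) ht hτ.2 (by norm_num)
    rw [div_le_iff₀ (by norm_num), show θ * (1 - 0) = θ by ring]; exact this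
  have r1 : ∀ t ∈ Icc 0 τ, t ^ (1 - 1 / 2 : ℝ) / (1 - 1 / 2) ≤ 2 * θ := fun t ht => by
    have := rpow_le_quarter (γ := 1 - 1 / 2) ht hτ.2 (by norm_num)
    rw [div_le_iff₀ (by norm_num)]; linarith
  have r2 : ∀ t ∈ Icc 0 τ, t ^ (1 - 3 / 4 : ℝ) / (1 - 3 / 4) ≤ 4 * θ := fun t ht => by
    have := rpow_le_quarter (γ := 1 - 3 / 4) ht hτ.2 (by norm_num)
    rw [div_le_iff₀ (by norm_num)]; linarith
  have q1 := mul_nonneg hθ0 hA
  have q2 := mul_nonneg hθ0 hc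
  have r01 := mul_nonneg p0 q1
  have r02 := mul_nonneg p0 q2
  have s0 : ∀ t ∈ Icc 0 τ, ∀ x, ‖DI 0 (L0 F) G f t x‖ ≤ κ * A * θ := fun t ht x =>
    (DI_le b0 (by norm_num) ht.1 x).trans (mul_le_mul_of_nonneg_left (r0 t ht) (by positivity))
  have s1 : ∀ l, ∀ t ∈ Icc 0 τ, ∀ x, ‖DI 1 (L0 F) (Dk l G) f t x‖ ≤ κ * A * (2 * θ) :=
    fun l t ht x => (DI_le (b1' l) (by norm_num) ht.1 x).trans
      (mul_le_mul_of_nonneg_left (r1 t ht) (by positivity))
  have Y0 : Yb dist τ (κ * A * θ) (2 * (κ * A * θ) + κ * A * (2 * θ)) (DI 0 (L0 F) G f) :=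
    ⟨DI_cont h b0 (by norm_num) τ, s0, fun t ht => hol_of_lip (s0 t ht) (by positivity)
      (lip_of_fderiv (pd_S h ht.1) fun x => (DI_le b1 (by norm_num) ht.1 x).trans
        (mul_le_mul_of_nonneg_left (r1 t ht) (by positivity)))⟩
  have Y1 : ∀ l, Yb dist τ (κ * A * (2 * θ)) (2 * (κ * A * (2 * θ)) + κ * c * (4 * θ))
      (DI 1 (L0 F) (Dk l G) f) := fun l =>
    ⟨DI_cont h (b1' l) (by norm_num) τ, s1 l, fun t ht => hol_of_lip (s1 l t ht) (by positivity)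
      (lip_of_fderiv (pd_S1 h ht.1) fun x => (DI_le (b2 l) (by norm_num) ht.1 x).trans
        (mul_le_mul_of_nonneg_left (r2 t ht) (by positivity)))⟩
  have Y2 : ∀ k l, Yb dist τ (κ * c * (4 * θ)) (8 * (κ * c) + 4 * (κ * c))
      (DI 2 (L0 F) (Dk k (Dk l G)) f) := fun k l =>
    ⟨DI_cont h (b2' k l) (by norm_num) τ, fun t ht x => (DI_le (b2' k l) (by norm_num) ht.1 x).trans
      (mul_le_mul_of_nonneg_left (r2 t ht) (by positivity)),
      fun t ht => DI_hol h (b2' k l) (by positivity) (by positivity) (b3 k l) ht.1⟩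
  refine ⟨Y0.mono (by nlinarith) (by nlinarith), fun k => ?_, fun k l => ?_⟩
  · exact ((Y1 k).mono (by nlinarith) (by nlinarith)).congr fun t ht => pd1_eq h ht.1 k
  · exact ((Y2 k l).mono (by nlinarith) (by nlinarith)).congr fun t ht => pd2_eq h ht.1 k l

theorem SolB.congr {τ η c' : ℝ} {w w' : ℝ → En n → F} (h : SolB τ η c' w)
    (e : ∀ t ∈ Icc 0 τ, w' t = w t) : SolB τ η c' w' :=
  ⟨h.y0.congr e, fun k => (h.y1 k).congr fun t ht => by rw [e t ht],
    fun k l => (h.y2 k l).congr fun t ht => by rw [e t ht]⟩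

theorem Solves.congr {τ : ℝ} (hτ : 0 ≤ τ) {f' w w' : ℝ → En n → F} (h : Solves a τ f w)
    (e : ∀ t ∈ Icc 0 τ, w' t = w t) (e' : ∀ t ∈ Icc 0 τ, f' t = f t) : Solves a τ f' w' :=
  ⟨fun x => by rw [e 0 ⟨le_rfl, hτ⟩, h.init], fun t ht => e t ht ▸ h.c2 t ht, fun t ht x => by
    rw [e t ht, e' t ht]
    exact (h.eqn t ht x).congr (fun s hs => by rw [e s hs]) (by rw [e t ht])⟩

theorem DI_clamp {τ : ℝ} (hτ : 0 ≤ τ) (f : ℝ → En n → F) {t : ℝ} (ht : t ∈ Icc 0 τ) :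
    DI 0 (L0 F) G f t = DI 0 (L0 F) G (fun t => f (projIcc 0 τ hτ t)) t := by
  funext x
  refine intervalIntegral.integral_congr fun σ hσ => ?_
  rw [uIcc_of_le ht.1] at hσ
  simp only
  rw [projIcc_of_mem hτ ⟨by linarith [hσ.2], by linarith [hσ.1, ht.2]⟩]

theorem schauder (n : ℕ) (F : Type*) [NormedAddCommGroup F] [NormedSpace ℝ F] [CompleteSpace F] :
    SchauderStmt n F := by
  intro a ha
  obtain ⟨G, hG1, hG⟩ := exists_kernel ha
  obtain ⟨C, hC, hB⟩ := solB_global G F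
  refine ⟨C, hC, DI 0 (L0 F) G, fun τ hτ => ⟨fun A c f hc h => ⟨?_, ?_⟩, ?_⟩⟩
  · exact (solves_global hG1 hG (h.clamp hτ.1.le) hc τ).congr hτ.1.le
      (fun t ht => DI_clamp hτ.1.le f ht) fun t ht => by rw [projIcc_of_mem _ ht]
  · exact (hB τ hτ A c _ hc (h.clamp hτ.1.le)).congr fun t ht => DI_clamp hτ.1.le f ht
  · intro A c A' c' f g hf hg t ht
    rw [DI_clamp hτ.1.le f ht, DI_clamp hτ.1.le g ht, DI_clamp hτ.1.le (f - g) ht]
    funext x
    have h1 := hf.clamp hτ.1.le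
    have h2 := hg.clamp hτ.1.le
    exact DI_sub h1 (kb_sup h1) (by norm_num) h2 (kb_sup h2) (by norm_num) ht.1 x

end Crest.Agent.N207.P
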