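import Crest.Agent.N207.P.All
import Crest.Agent.N207.AI.Glob2
import Crest.Agent.N207.AI.HcDef
import Crest.Agent.N207.C.Stmt

/-!
# Row 207, parabolic solver (helper11): heat and conjugate heat equations along a family of metrics
-/

set_option autoImplicit false
set_option linter.unusedSectionVars false

open Set
open scoped ContDiff Manifold Topology
open Crest.GeometryTopology.CoordMetric

noncomputable section

namespace Crest.Agent.N207

variable {n : ℕ} {M : Type*} [TopologicalSpace M] [ChartedSpace (En n) M]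
  [IsManifold 𝓘(ℝ, En n) ∞ M]

/-- `Δ + V` as a parabolic operator -/
def heatQ {m : ℝ → Met n M} {a b : ℝ} (hm : SmFam m (Icc a b)) {V : ℝ → M → ℝ}
    (hV : SmST n V (Icc a b)) :
    P.QLOp n (Icc a b) univ (fun t (u : M → ℝ) p => (m t).lap u p + V t p * u p) where
  a x q := ((m q.1).G x q.2.1)⁻¹
  b x q := -(∑ k, ∑ l, ((m q.1).G x q.2.1.1)⁻¹ k l *
      ∑ j, christoffel ((m q.1).G x) q.2.1.1 j k l * q.2.2 j) +
    P.rd n x (V q.1) q.2.1.1 * q.2.1.2
  sa x k l := ((hm.cfam x).st_inv k l).comp (f := fun q : ℝ × En n × ℝ => (q.1, q.2.1))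
    (by fun_prop) fun q hq => ⟨hq.1, hq.2.1⟩
  sb x := by
    have cs : ∀ {g : ℝ × En n → ℝ}, ContDiffOn ℝ ∞ g (Icc a b ×ˢ tg n x) →
        ContDiffOn ℝ ∞ (fun q : ℝ × (En n × ℝ) × (Fin n → ℝ) => g (q.1, q.2.1.1))
          (Icc a b ×ˢ P.domO n univ x ×ˢ univ) := fun hg =>
      hg.comp (f := fun q : ℝ × (En n × ℝ) × (Fin n → ℝ) => (q.1, q.2.1.1)) (by fun_prop)
        fun q hq => ⟨hq.1, hq.2.1.1⟩
    exact (ContDiffOn.sum fun k _ => ContDiffOn.sum fun l _ =>
      (cs ((hm.cfam x).st_inv k l)).mul (ContDiffOn.sum fun j _ =>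
        (cs ((hm.cfam x).st_chris j k l)).mul (by fun_prop))).neg.add
      ((cs (hV x)).mul (by fun_prop))
  pos x t ht q hq := ((hm.cfam x).pos t ht q.1 hq.1).inv
  rep x t _ y hy u W hW hp hu _ := by
    have h1 : ContMDiffAt 𝓘(ℝ, En n) 𝓘(ℝ, ℝ) 2 u ((chartAt (En n) x).symm y) :=
      (hu.contMDiffAt (hW.mem_nhds hp)).of_le P.two_le_inf
    have h2 : (m t).lap u ((chartAt (En n) x).symm y) = _ := (m t).lap_chart' hy h1
    have h3 : ContDiffAt ℝ 2 (Crest.Agent.R247.Bo84.inCh n x u) y := by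
      rw [← contMDiffAt_iff_contDiffAt]
      exact h1.comp y (((contMDiffOn_chart_symm (I := 𝓘(ℝ, En n)) (n := ∞) (x := x)).contMDiffAt
        ((isOpen_tg x).mem_nhds hy)).of_le P.two_le_inf)
    rw [h2, lapB_coord ((m t).riem_G x) hy h3]
    simp only [P.Lop, smul_eq_mul, mul_sub, Finset.sum_sub_distrib]
    rw [sub_eq_add_neg, add_assoc]
    rfl

theorem heatQ_lin {m : ℝ → Met n M} {a b : ℝ} (hm : SmFam m (Icc a b)) {V : ℝ → M → ℝ}
    (hV : SmST n V (Icc a b)) : (heatQ hm hV).Lin := by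
  refine ⟨fun _ _ _ _ => rfl, fun x t y c v v' p p' => ?_⟩
  simp only [heatQ, Pi.add_apply, Pi.smul_apply, smul_eq_mul, mul_add, Finset.sum_add_distrib,
    mul_neg, Finset.mul_sum, mul_left_comm c]
  ring

variable [T2Space M] [CompactSpace M]

/-- **linear heat equation** `∂ₜ u = Δ u + V u + f` on the whole strip -/
theorem heat_exists {m : ℝ → Met n M} {a b : ℝ} (hab : a < b) (hm : SmFam m (Icc a b))
    {V f : ℝ → M → ℝ} (hV : SmST n V (Icc a b)) (hf : SmST n f (Icc a b)) {u0 : M → ℝ}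
    (h0 : Sm n u0) : ∃ u : ℝ → M → ℝ, SmST n u (Icc a b) ∧
      HasDt a b u (fun t x => (m t).lap (u t) x + V t x * u t x + f t x) ∧ u a = u0 := by
  obtain ⟨u, h1, h2⟩ := P.linS n M ℝ a b _ (heatQ hm hV) u0 f hab (heatQ_lin hm hV) h0 hf
  exact ⟨u, h2.sm, h2.eqn, h1⟩

/-- **backward equation** `∂ₜ u = -Δ u + V u + f` with prescribed final value -/
theorem back_exists {m : ℝ → Met n M} {a b : ℝ} (hab : a < b) (hm : SmFam m (Icc a b))
    {V f : ℝ → M → ℝ} (hV : SmST n V (Icc a b)) (hf : SmST n f (Icc a b)) {u0 : M → ℝ}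
    (h0 : Sm n u0) : ∃ u : ℝ → M → ℝ, SmST n u (Icc a b) ∧
      HasDt a b u (fun t x => -(m t).lap (u t) x + V t x * u t x + f t x) ∧ u b = u0 := by
  have hσ : ContDiffOn ℝ ∞ (fun t : ℝ => a + b - t) (Icc a b) := by fun_prop
  have hI : ∀ t ∈ Icc a b, a + b - t ∈ Icc a b := fun t ht =>
    ⟨by linarith [ht.2], by linarith [ht.1]⟩
  obtain ⟨w, h1, h2, h3⟩ := heat_exists hab (hm.comp_time hσ hI) (hV.comp_time hσ hI).neg
    (hf.comp_time hσ hI).neg h0
  refine ⟨fun t => w (a + b - t), h1.comp_time hσ hI, fun t ht x => ?_, by simpa using h3⟩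
  have h4 : HasDerivWithinAt (fun t : ℝ => a + b - t) (-1) (Icc a b) t :=
    (hasDerivWithinAt_id t _).const_sub (a + b)
  have h5 := (h2 _ (hI t ht) x).scomp t h4 hI
  refine HasDerivWithinAt.congr_deriv h5 ?_
  simp only [smul_eq_mul, sub_sub_cancel]
  ring

end Crest.Agent.N207

namespace Crest.Agent.N207.Flow

variable {M : Type*} [TopologicalSpace M] [ChartedSpace E4 M] [IsManifold 𝓘(ℝ, E4) ∞ M]
  [T3Space M] [CompactSpace M] [ConnectedSpace M] [MeasurableSpace M] [BorelSpace M]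
  (F : Flow M)

theorem sm_Icc {a b : ℝ} (h : F.hc.St a b) : SmFam F.m (Icc a b) :=
  F.sm.mono' fun _ ht => ⟨h.1.le.trans ht.1, ht.2.trans_lt h.2.2⟩

theorem hc_solv2 : F.hc.Solv2 := by
  intro a b f u0 h hf h0
  obtain ⟨u, h1, h2, h3⟩ := heat_exists h.2.1 (F.sm_Icc h) (V := fun _ _ => 0)
    (smST_const contMDiff_const _) hf h0
  simp only [zero_mul, add_zero] at h2
  exact ⟨u, h1, h2, h3⟩

theorem hc_solv : F.hc.Solv := by
  refine ⟨fun {a b u0} h h0 => ?_, fun {a b u0} h h0 => ?_⟩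
  · obtain ⟨u, h1, h2, h3⟩ := heat_exists h.2.1 (F.sm_Icc h) (V := fun _ _ => 0)
      (f := fun _ _ => 0) (smST_const contMDiff_const _) (smST_const contMDiff_const _) h0
    simp only [zero_mul, add_zero] at h2
    exact ⟨u, ⟨h1, h2⟩, h3⟩
  · obtain ⟨u, h1, h2, h3⟩ := back_exists h.2.1 (F.sm_Icc h) (F.sm_Icc h).scal
      (f := fun _ _ => 0) (smST_const contMDiff_const _) h0
    simp only [add_zero] at h2
    exact ⟨u, ⟨h1, h2⟩, h3⟩

end Crest.Agent.N207.Flow
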