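import Crest.Agent.N207.P.Yl2

/-!
# Row 207, parabolic solver (helper18): one more derivative, compactly supported case
-/

set_option autoImplicit false
set_option linter.unusedSectionVars false

open Set Filter Topology Metric
open scoped ContDiff

noncomputable section

namespace Crest.Agent.N207.P

variable {n : ℕ} {V : Type*} [NormedAddCommGroup V] [NormedSpace ℝ V] {τ : ℝ}

theorem yb_unif {ι : Type*} [Fintype ι] {f : ι → ℝ → En n → V}
    (h : ∀ i, ∃ L : ℝ, 0 ≤ L ∧ Yb dist τ L L (f i)) : ∃ L : ℝ, 0 ≤ L ∧ ∀ i, Yb dist τ L L (f i) := by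
  choose L hL0 hL using h
  have : ∀ i, L i ≤ ∑ j, L j := fun i =>
    Finset.single_le_sum (fun j _ => hL0 j) (Finset.mem_univ i)
  exact ⟨∑ j, L j, Finset.sum_nonneg fun j _ => hL0 j, fun i => yb_mono (hL i) (this i) (this i)⟩

theorem pd_zero_off {f : En n → V} {K : Set (En n)} (hK : IsClosed K) (h : ∀ y, y ∉ K → f y = 0)
    (k : Fin n) (y : En n) (hy : y ∉ K) : pd k f y = 0 := by
  have : f =ᶠ[𝓝 y] fun _ => 0 := by
    filter_upwards [hK.isOpen_compl.mem_nhds hy] with z hz using h z hz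
  rw [pd_congr this, pd_const']

theorem pd_dv {f : ℝ → En n → V} {t : ℝ} (h : Differentiable ℝ (f t)) (v : En n) (k : Fin n) :
    pd k (dv v f t) = dv v (fun t => pd k (f t)) t := by
  funext y
  have h1 : HasFDerivAt (fun z => f t (z + v)) (fderiv ℝ (f t) (y + v)) y :=
    (hasFDerivAt_comp_add_right v).2 (h (y + v)).hasFDerivAt
  have h2 : HasFDerivAt (dv v f t) _ y := h1.sub (h y).hasFDerivAt
  simp only [pd, h2.fderiv, dv]
  rfl

theorem lreg_core [CompleteSpace V] (hA : AprStmt n V) {a0 : Matrix (Fin n) (Fin n) ℝ}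
    (ha : a0.PosDef) : ∃ ε : ℝ, 0 < ε ∧ ∀ Lc : ℝ, 0 ≤ Lc → ∃ τ0 : ℝ, 0 < τ0 ∧ ∀ τ ∈ Ioc 0 τ0,
      ∀ (c : Fin n → Fin n → ℝ → En n → ℝ) (F w : ℝ → En n → V) (K : Set (En n)), IsCompact K →
      (∀ k l, Yl (Icc 0 τ) univ 1 (c k l)) → (∀ k l, ∀ t ∈ Icc 0 τ, ∀ y, y ∉ K → c k l t y = 0) →
      (∀ k l, Yb dist τ ε Lc (c k l)) →
      Yl (Icc 0 τ) univ 1 F → (∀ t ∈ Icc 0 τ, ∀ y, y ∉ K → F t y = 0) →
      Yl (Icc 0 τ) univ 2 w → (∀ t ∈ Icc 0 τ, ∀ y, y ∉ K → w t y = 0) → (∀ y, w 0 y = 0) →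
      (∀ t ∈ Icc 0 τ, ∀ y, HasDerivWithinAt (fun s => w s y) (Lop a0 (w t) y +
        (∑ k, ∑ l, c k l t y • pd k (pd l (w t)) y + F t y)) (Icc 0 τ) t) →
      Yl (Icc 0 τ) univ 3 w := by
  obtain ⟨C, hC1, hC⟩ := hA a0 ha
  have hC0 : 0 < C := by linarith
  set N : ℝ := (n : ℝ) * n with hN
  have hN0 : 0 ≤ N := by positivity
  refine ⟨1 / (4 * C * (N + 1)), by positivity, fun Lc hLc => ?_⟩
  set ε : ℝ := 1 / (4 * C * (N + 1)) with hε
  have hε0 : 0 < ε := by positivity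
  have hε1 : C * (N * ε) ≤ 1 / 4 := by
    rw [hε, mul_one_div, ← mul_div_assoc, div_le_iff₀ (by positivity)]; nlinarith
  set μ : ℝ := 1 / (4 * (C * N * Lc + 1)) with hμ
  have hμ0 : 0 < μ := by positivity
  have hμ1 : C * N * Lc * μ ≤ 1 / 4 := by
    rw [hμ, mul_one_div, div_le_iff₀ (by positivity)]; nlinarith
  have hμ2 : μ ≤ 1 := by
    rw [hμ, div_le_iff₀ (by positivity)]
    have : 0 ≤ C * N * Lc := by positivity
    linarith
  refine ⟨min 1 ((μ / 2) ^ 4), by positivity, ?_⟩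
  intro τ hτ c F w K hK hc hc0 hcb hF hF0 hw hw0 hi he
  have hτ1 : τ ∈ Ioc (0 : ℝ) 1 := ⟨hτ.1, hτ.2.trans (min_le_left _ _)⟩
  have hlam : τ ^ (1 / 4 : ℝ) ≤ μ / 2 := by
    calc τ ^ (1 / 4 : ℝ) ≤ ((μ / 2) ^ 4) ^ (1 / 4 : ℝ) :=
          Real.rpow_le_rpow hτ.1.le (hτ.2.trans (min_le_right _ _)) (by norm_num)
      _ = μ / 2 := by
          rw [← Real.rpow_natCast, ← Real.rpow_mul (by positivity)]; norm_num
  have hlam0 : 0 ≤ τ ^ (1 / 4 : ℝ) := Real.rpow_nonneg hτ.1.le _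
  have hI : IsCompact (Icc (0 : ℝ) τ) := isCompact_Icc
  have hz : ∀ {g : ℝ → En n → V}, (∀ t ∈ Icc 0 τ, ∀ y, y ∉ K → g t y = 0) → ∀ k,
      ∀ t ∈ Icc 0 τ, ∀ y, y ∉ K → pd k (g t) y = 0 := fun h k t ht =>
    pd_zero_off hK.isClosed (h t ht) k
  obtain ⟨M, hM0, hM⟩ := yb_unif (ι := Fin n × Fin n)
    (f := fun p t => pd p.1 (pd p.2 (w t))) fun p =>
      ((hw.pd p.2).pd p.1).yb hK (hz (g := fun t => pd p.2 (w t)) (hz hw0 p.2) p.1)
  obtain ⟨L, hL0, hL⟩ := yb_unif (ι := (Fin n × Fin n) × Fin n)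
    (f := fun p t => pd p.2 (c p.1.1 p.1.2 t)) fun p => ((hc _ _).pd p.2).yb hK
      fun t ht => pd_zero_off hK.isClosed (hc0 _ _ t ht) _
  obtain ⟨L', hL0', hL'⟩ := yb_unif (ι := Fin n) (f := fun k t => pd k (F t)) fun k =>
    (hF.pd k).yb hK (hz hF0 k)
  obtain ⟨Bw, -, hBw⟩ := (hw.of_le hI isOpen_univ (Nat.zero_le 2)).yb hK hw0
  set Q : ℝ := N * (2 * n * L * M) + n * L' with hQ
  have hQ0 : 0 ≤ Q := by positivity
  have hw2 : ∀ t ∈ Icc 0 τ, ContDiff ℝ 2 (w t) := fun t ht =>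
    contDiffOn_univ.1 (hw.contDiffOn isOpen_univ t ht)
  have hdd : ∀ v, ∀ t ∈ Icc 0 τ, ∀ k l, pd k (pd l (dv v w t)) =
      dv v (fun t => pd k (pd l (w t))) t := fun v t ht k l => by
    rw [pd_dv (fun y => hw.diff ht (mem_univ y)),
      pd_dv (f := fun t => pd l (w t)) (fun y => (hw.pd l).diff ht (mem_univ y))]
  have key : ∀ k l v, ∀ t ∈ Icc 0 τ, ∀ y y',
      ‖dv v (fun t => pd k (pd l (w t))) t y - dv v (fun t => pd k (pd l (w t))) t y'‖ ≤
        2 * (C * Q) * ‖v‖ * √(dist y y') := by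
    intro k l v
    set G : ℝ → En n → V := fun t y => ∑ k, ∑ l, c k l t y • pd k (pd l (w t)) y + F t y with hG
    have hS : Solves a0 τ (dv v G) (dv v w) := by
      refine ⟨fun x => by simp [dv, hi], fun t ht => ?_, fun t ht x => ?_⟩
      · exact ((hw2 t ht).comp (contDiff_id.add contDiff_const)).sub (hw2 t ht)
      · refine ((he t ht (x + v)).sub (he t ht x)).congr_deriv ?_
        simp only [Lop, hdd v t ht, dv, smul_sub, Finset.sum_sub_distrib, hG]
        abel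
    have step : ∀ X : ℝ, 0 ≤ X →
        (∀ k l, Yb dist τ (μ * X) X (dv v fun t => pd k (pd l (w t)))) →
        ∀ k l, Yb dist τ (μ * (X / 2 + C * Q * ‖v‖)) (X / 2 + C * Q * ‖v‖)
          (dv v fun t => pd k (pd l (w t))) := by
      intro X hX hP k l
      have hv := norm_nonneg v
      have g1 : ∀ k l, Yb dist τ (ε * (μ * X) + 2 * n * L * M * ‖v‖)
          (ε * X + Lc * (μ * X) + 2 * n * L * M * ‖v‖) (fun t y =>
            c k l t (y + v) • dv v (fun t => pd k (pd l (w t))) t y +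
              dv v (c k l) t y • pd k (pd l (w t)) y) := fun k l => by
        refine yb_add (yb_smul (yb_shift (hcb k l) v) (hP k l) hLc) (yb_mono
          (yb_smul (yb_dv (hc k l) (fun m => hL ((k, l), m)) v) (hM (k, l)) (by positivity)) ?_ ?_)
        · have : 0 ≤ n * L * ‖v‖ * M := by positivity
          nlinarith
        · exact le_of_eq (by ring)
      have g2 := yb_add (yb_sum Finset.univ fun k _ => yb_sum Finset.univ fun l _ => g1 k l)
        (yb_dv hF hL' v)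
      simp only [Finset.sum_const, Finset.card_univ, Fintype.card_fin, nsmul_eq_mul] at g2
      have g3 : Yb dist τ (N * ε * (μ * X) + Q * ‖v‖) (N * ε * X + N * Lc * (μ * X) + Q * ‖v‖)
          (dv v G) := by
        refine yb_congr (yb_mono g2 (le_of_eq ?_) (le_of_eq ?_)) fun t _ y => ?_
        · rw [hQ, hN]; ring
        · rw [hQ, hN]; ring
        · simp only [dv, hG, smul_sub, sub_smul, Finset.sum_add_distrib, Finset.sum_sub_distrib]
          abel
      have g4 := (hC τ hτ1 _ _ (Bw + Bw) _ _ (by positivity) g3 hS (yb_dv0 hBw v).cont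
        (yb_dv0 hBw v).sup).y2 k l
      have a1 : C * (N * ε * X + N * Lc * (μ * X) + Q * ‖v‖) ≤ X / 2 + C * Q * ‖v‖ := by
        nlinarith [mul_le_mul_of_nonneg_right hε1 hX, mul_le_mul_of_nonneg_right hμ1 hX]
      have a2 : C * (N * ε * (μ * X) + Q * ‖v‖) ≤ X / 2 + C * Q * ‖v‖ := by
        have : μ * X ≤ X := by nlinarith
        nlinarith [mul_le_mul hε1 this (by positivity) (by norm_num)]
      refine yb_congr (yb_mono g4 ?_ a1) fun t ht y => by rw [hdd v t ht]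
      have : 0 ≤ X / 2 + C * Q * ‖v‖ := by positivity
      calc _ = τ ^ (1 / 4 : ℝ) * (C * (N * ε * (μ * X) + Q * ‖v‖) +
            C * (N * ε * X + N * Lc * (μ * X) + Q * ‖v‖)) := by ring
        _ ≤ μ / 2 * ((X / 2 + C * Q * ‖v‖) + (X / 2 + C * Q * ‖v‖)) :=
            mul_le_mul hlam (add_le_add a2 a1) (by positivity) (by positivity)
        _ = _ := by ring
    have iter : ∀ m : ℕ, ∀ k l, Yb dist τ (μ * ((M + M) / μ * (1 / 2) ^ m + 2 * (C * Q) * ‖v‖))
        ((M + M) / μ * (1 / 2) ^ m + 2 * (C * Q) * ‖v‖) (dv v fun t => pd k (pd l (w t))) := by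
      intro m
      induction m with
      | zero =>
        intro k l
        have h1 : 0 ≤ 2 * (C * Q) * ‖v‖ := by positivity
        have h2 : μ * ((M + M) / μ) = M + M := mul_div_cancel₀ _ hμ0.ne'
        have h3 : 0 ≤ (M + M) / μ := by positivity
        refine yb_mono (yb_dv0 (hM (k, l)) v) ?_ ?_ <;> simp only [pow_zero, mul_one] <;> nlinarith
      | succ m ih =>
        intro k l
        have e : (M + M) / μ * (1 / 2) ^ (m + 1) + 2 * (C * Q) * ‖v‖ =
            ((M + M) / μ * (1 / 2) ^ m + 2 * (C * Q) * ‖v‖) / 2 + C * Q * ‖v‖ := by ring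
        rw [e]
        exact step _ (by positivity) ih k l
    intro t ht y y'
    have hl : Tendsto (fun m : ℕ => ((M + M) / μ * (1 / 2) ^ m + 2 * (C * Q) * ‖v‖) *
        √(dist y y')) atTop (𝓝 (((M + M) / μ * 0 + 2 * (C * Q) * ‖v‖) * √(dist y y'))) :=
      (((tendsto_pow_atTop_nhds_zero_of_lt_one (by norm_num) (by norm_num)).const_mul _).add_const
        _).mul_const _
    simpa using ge_of_tendsto' hl fun m => (iter m k l).hol t ht y y'
  refine ⟨hw.1, hw.2.1, fun l => ⟨(hw.pd l).1, (hw.pd l).2.1, fun k => ?_⟩⟩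
  exact dq (K := 2 * (C * Q)) (by positivity) ((hw.pd l).pd k).1 (key k l)

end Crest.Agent.N207.P
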