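import Crest.Agent.N207.P.LReg1

/-!
# Row 207, parabolic solver (helper18): `AprStmt → LRegStmt`
-/

set_option autoImplicit false
set_option linter.unusedSectionVars false

open Set Filter Topology Metric
open scoped ContDiff

noncomputable section

namespace Crest.Agent.N207.P

variable {n : ℕ} {V : Type*} [NormedAddCommGroup V] [NormedSpace ℝ V]
  {I : Set ℝ} {U : Set (En n)}

theorem pd_smul' {χ : En n → ℝ} {p : En n → V} {y : En n} (hχ : DifferentiableAt ℝ χ y)
    (hp : DifferentiableAt ℝ p y) (k : Fin n) :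
    pd k (fun z => χ z • p z) y = χ y • pd k p y + pd k χ y • p y := by
  unfold pd; rw [fderiv_fun_smul hχ hp]; rfl

theorem pd_pd_smul (hU : IsOpen U) {χ : En n → ℝ} (hχ : ContDiff ℝ ∞ χ) {p : ℝ → En n → V}
    (hp : Yl I U 2 p) {t : ℝ} (ht : t ∈ I) {y : En n} (hy : y ∈ U) (k l : Fin n) :
    pd k (pd l fun z => χ z • p t z) y = χ y • pd k (pd l (p t)) y + (pd k χ y • pd l (p t) y +
      pd l χ y • pd k (p t) y + pd k (pd l χ) y • p t y) := by
  have d0 : ∀ z, DifferentiableAt ℝ χ z := hχ.differentiable (by simp)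
  have d1 : DifferentiableAt ℝ (pd l χ) y := (contDiff_pd_top hχ l).differentiable (by simp) y
  have d2 : DifferentiableAt ℝ (pd l (p t)) y := (hp.pd l).diff ht hy
  have e : (pd l fun z => χ z • p t z) =ᶠ[𝓝 y]
      fun z => χ z • pd l (p t) z + pd l χ z • p t z := by
    filter_upwards [hU.mem_nhds hy] with z hz using pd_smul' (d0 z) (hp.diff ht hz) l
  rw [pd_congr e, pd_add' ((d0 y).fun_smul d2) (d1.fun_smul (hp.diff ht hy)),
    pd_smul' (d0 y) d2, pd_smul' d1 (hp.diff ht hy)]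
  abel

theorem pd_pd_sub (hU : IsOpen U) {p q : ℝ → En n → V} (hp : Yl I U 2 p) (hq : Yl I U 2 q)
    {t : ℝ} (ht : t ∈ I) {y : En n} (hy : y ∈ U) (k l : Fin n) :
    pd k (pd l fun z => p t z - q t z) y = pd k (pd l (p t)) y - pd k (pd l (q t)) y := by
  have e : (pd l fun z => p t z - q t z) =ᶠ[𝓝 y] fun z => pd l (p t) z - pd l (q t) z := by
    filter_upwards [hU.mem_nhds hy] with z hz using pd_sub' (hp.diff ht hz) (hq.diff ht hz) l
  rw [pd_congr e, pd_sub' ((hp.pd l).diff ht hy) ((hq.pd l).diff ht hy)]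

/-- (R1) -/
theorem lreg_of_apr [CompleteSpace V] (hApr : AprStmt n V) : LRegStmt n V := by
  intro a b U A f u hab hU hA hpos hf hu hu0 he
  have hI : IsCompact (Icc a b) := isCompact_Icc
  refine Yl.of_loc hI fun t0 ht0 y0 hy0 => ?_
  obtain ⟨ε, hε, hcore⟩ := lreg_core hApr (hpos t0 ht0 y0 hy0)
  -- the freezing radius
  obtain ⟨r, hr, hrU, hsm⟩ : ∃ r : ℝ, 0 < r ∧ closedBall y0 r ⊆ U ∧ ∀ t ∈ Icc a b,
      |t - t0| ≤ r → ∀ y ∈ closedBall y0 r, ∀ k l, |A t y k l - A t0 y0 k l| ≤ ε := by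
    have h1 : ∀ᶠ q in 𝓝[Icc a b ×ˢ U] (t0, y0), ∀ k l, |A q.1 q.2 k l - A t0 y0 k l| ≤ ε :=
      eventually_all.2 fun k => eventually_all.2 fun l =>
        ((hA k l).cont (t0, y0) ⟨ht0, hy0⟩).eventually (closedBall_mem_nhds _ hε)
    obtain ⟨ρ, hρ, h2⟩ := Metric.mem_nhdsWithin_iff.1 h1
    obtain ⟨r, h3, h4⟩ := ((ev_ball hU hy0).and (Ioo_mem_nhdsGT hρ)).exists
    refine ⟨r, h4.1, h3, fun t ht h5 y hy => h2 (a := (t, y)) ⟨?_, ht, h3 hy⟩⟩
    rw [mem_ball, Prod.dist_eq, max_lt_iff]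
    exact ⟨lt_of_le_of_lt h5 h4.2, lt_of_le_of_lt hy h4.2⟩
  let η : ContDiffBump y0 := ⟨r / 2, r, by positivity, by linarith⟩
  let χ : ContDiffBump y0 := ⟨r / 4, r / 2, by positivity, by linarith⟩
  have hη0 : ∀ y, y ∉ closedBall y0 r → η y = 0 := fun y hy =>
    η.zero_of_le_dist (le_of_lt (by simpa using hy))
  have hχ0 : ∀ y, y ∉ closedBall y0 (r / 2) → χ y = 0 := fun y hy =>
    χ.zero_of_le_dist (le_of_lt (by simpa using hy))
  have hsub : closedBall y0 (r / 2) ⊆ closedBall y0 r := closedBall_subset_closedBall (by linarith)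
  have hχs : ContDiff ℝ ∞ χ := χ.contDiff
  have st : ∀ {m : ℕ} {g : En n → ℝ}, ContDiff ℝ ∞ g → Yl (Icc a b) U m (fun _ => g) :=
    fun h => yl_static hI hU h.contDiffOn
  set c : Fin n → Fin n → ℝ → En n → ℝ := fun k l t y => η y * (A t y k l - A t0 y0 k l) with hcd
  have hc0 : ∀ k l t y, y ∉ closedBall y0 r → c k l t y = 0 := fun k l t y hy => by
    simp [hcd, hη0 y hy]
  have hc : ∀ k l, Yl (Icc a b) univ 1 (c k l) := fun k l =>
    ((st η.contDiff).mul hI hU ((hA k l).sub hU (yl_time continuousOn_const))).ext_zero hU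
      isClosed_closedBall hrU fun t _ => hc0 k l t
  obtain ⟨Lc, hLc, hcb⟩ := yb_unif (τ := b - a) (ι := Fin n × Fin n)
    (f := fun p t => c p.1 p.2 (a + t)) fun p =>
      (((hc p.1 p.2).pred hI isOpen_univ).comp_time (σ := fun t => a + t) (by fun_prop)
        fun t ht => mem_Icc.2 ⟨by linarith [ht.1], by linarith [ht.2]⟩).yb
        (isCompact_closedBall y0 r)
        fun t _ => hc0 _ _ _
  obtain ⟨τ0, hτ0, hcore⟩ := hcore Lc hLc
  set δ : ℝ := min r (τ0 / 2) with hδ
  have hδ0 : 0 < δ := by positivity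
  have hδ1 : δ ≤ r := min_le_left _ _
  have hδ2 : δ ≤ τ0 / 2 := min_le_right _ _
  set s : ℝ := max a (t0 - δ) with hs
  set s' : ℝ := min b (t0 + δ) with hs'
  have s1 : a ≤ s := le_max_left _ _
  have s2 : t0 - δ ≤ s := le_max_right _ _
  have s3 : s' ≤ b := min_le_left _ _
  have s4 : s' ≤ t0 + δ := min_le_right _ _
  have s5 : s < s' := by
    rw [hs, hs', max_lt_iff, lt_min_iff, lt_min_iff]
    exact ⟨⟨hab, by linarith [ht0.1]⟩, by linarith [ht0.2], by linarith⟩
  have hm : MapsTo (fun σ => s + σ) (Icc 0 (s' - s)) (Icc a b) := fun σ hσ =>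
    ⟨by linarith [hσ.1], by linarith [hσ.2]⟩
  have sh : ∀ {m : ℕ} {g : ℝ → En n → ℝ},
      Yl (Icc a b) univ m g → Yl (Icc 0 (s' - s)) univ m (fun σ => g (s + σ)) := fun h =>
    h.comp_time (by fun_prop) hm
  have sh' : ∀ {m : ℕ} {g : ℝ → En n → V},
      Yl (Icc a b) univ m g → Yl (Icc 0 (s' - s)) univ m (fun σ => g (s + σ)) := fun h =>
    h.comp_time (by fun_prop) hm
  have hτ : s' - s ∈ Ioc 0 τ0 := ⟨by linarith, by linarith⟩
  -- the normalised solution
  have hθ : ∀ {m : ℕ}, Yl (Icc a b) U m (fun t _ => t - (t0 - δ)) := yl_time (by fun_prop)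
  have hua : ∀ {m : ℕ}, Yl (Icc a b) U m (fun _ => u a) := yl_static hI hU hu0
  set q : ℝ → En n → V := fun t y => (t - (t0 - δ)) • (u t y - u a y) with hq
  have hq2 : Yl (Icc a b) U 2 q := hθ.smul hI hU (hu.sub hU hua)
  set g : ℝ → En n → V := fun t y => (u t y - u a y) +
    (t - (t0 - δ)) • (f t y + ∑ k, ∑ l, A t y k l • pd k (pd l (u a)) y) with hg
  have hg1 : Yl (Icc a b) U 1 g := ((hu.pred hI hU).sub hU hua).add hU (hθ.smul hI hU
    (hf.add hU (Yl.sum hU _ fun k _ => Yl.sum hU _ fun l _ => (hA k l).smul hI hU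
      ((hua.pd l).pd k))))
  have hqe : ∀ t ∈ Icc a b, ∀ y ∈ U, HasDerivWithinAt (fun s => q s y)
      (Lop (A t y) (q t) y + g t y) (Icc a b) t := fun t ht y hy => by
    refine (((hasDerivWithinAt_id t _).sub_const (t0 - δ)).smul
      ((he t ht y hy).sub_const (u a y))).congr_deriv ?_
    have e : ∀ k l, pd k (pd l (q t)) y =
        (t - (t0 - δ)) • (pd k (pd l (u t)) y - pd k (pd l (u a)) y) := fun k l => by
      have h0 : ∀ j, pd j (fun _ : En n => t - (t0 - δ)) = fun _ => 0 := fun j =>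
        funext fun z => pd_const' _ _ _
      rw [hq, pd_pd_smul hU contDiff_const (hu.sub hU hua) ht hy, pd_pd_sub hU hu hua ht hy]
      simp [h0, pd_const']
    simp only [Lop, e, hg, id, one_smul, smul_add, smul_sub, Finset.smul_sum,
      Finset.sum_sub_distrib, smul_comm (t - (t0 - δ)) (A t y _ _)]
    abel
  set w : ℝ → En n → V := fun t y => χ y • q t y with hw
  set F : ℝ → En n → V := fun t y => χ y • g t y - ∑ k, ∑ l, A t y k l •
    (pd k χ y • pd l (q t) y + pd l χ y • pd k (q t) y + pd k (pd l χ) y • q t y) with hF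
  have hw0 : ∀ t y, y ∉ closedBall y0 (r / 2) → w t y = 0 := fun t y hy => by
    simp [hw, hχ0 y hy]
  have hF0 : ∀ t y, y ∉ closedBall y0 (r / 2) → F t y = 0 := fun t y hy => by
    have h1 := fun k => pd_zero_off isClosed_closedBall hχ0 k
    simp [hF, hχ0 y hy, h1 _ y hy, pd_zero_off isClosed_closedBall (h1 _) _ y hy]
  have hw2 : Yl (Icc a b) univ 2 w := ((st hχs).smul hI hU hq2).ext_zero hU isClosed_closedBall
    (hsub.trans hrU) fun t _ => hw0 t
  have hF1 : Yl (Icc a b) univ 1 F := by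
    refine Yl.ext_zero hU isClosed_closedBall (hsub.trans hrU) ?_ fun t _ => hF0 t
    refine ((st hχs).smul hI hU hg1).sub hU (Yl.sum hU _ fun k _ => Yl.sum hU _ fun l _ =>
      (hA k l).smul hI hU ?_)
    exact (((st (contDiff_pd_top hχs k)).smul hI hU (hq2.pd l)).add hU
      ((st (contDiff_pd_top hχs l)).smul hI hU (hq2.pd k))).add hU
      ((st (contDiff_pd_top (contDiff_pd_top hχs l) k)).smul hI hU (hq2.pred hI hU))
  have h3 : Yl (Icc 0 (s' - s)) univ 3 (fun σ => w (s + σ)) := by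
    refine hcore (s' - s) hτ (fun k l σ => c k l (s + σ))
      (fun σ => F (s + σ)) _ (closedBall y0 r) (isCompact_closedBall _ _) (fun k l => sh (hc k l))
      (fun k l t _ => hc0 k l _) (fun k l => ⟨(sh (hc k l)).cont, fun σ hσ y => ?_,
        fun σ hσ y y' => ?_⟩) (sh' hF1) (fun t _ y hy => hF0 _ y fun h => hy (hsub h)) (sh' hw2)
      (fun t _ y hy => hw0 _ y fun h => hy (hsub h)) (fun y => ?_) fun σ hσ y => ?_
    · by_cases hy : y ∈ closedBall y0 r
      · have := hsm _ (hm hσ) (abs_le.2 ⟨by linarith [hσ.1], by linarith [hσ.2]⟩) y hy k l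
        simp only [hcd, norm_mul, Real.norm_eq_abs]
        calc _ ≤ 1 * ε := mul_le_mul (by rw [abs_of_nonneg η.nonneg]; exact η.le_one) this
              (abs_nonneg _) zero_le_one
          _ = ε := one_mul _
      · simp [hc0 k l _ y hy, hε.le]
    · have := (hcb (k, l)).hol (s + σ - a) ⟨by linarith [hσ.1], by linarith [hσ.2]⟩ y y'
      simpa using this
    · rcases le_total a (t0 - δ) with h | h
      · simp [hw, hq, hs, max_eq_right h]
      · simp [hw, hq, hs, max_eq_left h]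
    · by_cases hy : y ∈ closedBall y0 (r / 2)
      · have hyU := hrU (hsub hy)
        have h1 := ((hqe _ (hm hσ) y hyU).const_smul (χ y)).scomp σ
          (h := fun σ => s + σ) ((hasDerivWithinAt_id σ _).const_add s) hm
        refine h1.congr_deriv ?_
        have e1 : η y = 1 := η.one_of_mem_closedBall hy
        simp only [Lop, hw, pd_pd_smul hU hχs hq2 (hm hσ) hyU, hcd, e1, hF, one_smul, one_mul,
          sub_smul, smul_add, Finset.smul_sum, Finset.sum_sub_distrib, Finset.sum_add_distrib,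
          smul_comm (χ y) (A (s + σ) y _ _)]
        abel
      · have h1 := fun k => pd_zero_off isClosed_closedBall (hw0 (s + σ)) k
        have h2 := fun k l => pd_zero_off isClosed_closedBall (h1 l) k y hy
        simp only [Lop, h2, hF0 _ y hy, hw0 _ y hy, smul_zero, Finset.sum_const_zero, add_zero]
        exact hasDerivWithinAt_const _ _ _
  refine ⟨Icc a b ∩ Icc (t0 - δ / 2) (t0 + δ),
    inter_mem_nhdsWithin _ (Icc_mem_nhds (by linarith) (by linarith)),
    ball y0 (r / 4), ball_mem_nhds _ (by positivity), ?_⟩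
  have hJ : IsCompact (Icc a b ∩ Icc (t0 - δ / 2) (t0 + δ)) := hI.inter_right isClosed_Icc
  have hB : ball y0 (r / 4) ⊆ U :=
    (ball_subset_closedBall.trans (closedBall_subset_closedBall (by linarith))).trans hrU
  have h4 : Yl (Icc a b ∩ Icc (t0 - δ / 2) (t0 + δ)) (ball y0 (r / 4)) 3
      (fun t => w (s + (t - s))) := by
    refine (h3.comp_time (σ := fun t => t - s) (by fun_prop) fun t ht => mem_Icc.2 ⟨?_, ?_⟩).mono
      Subset.rfl (subset_univ _)
    · have : s ≤ t := max_le ht.1.1 (by linarith [ht.2.1])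
      linarith
    · have : t ≤ s' := le_min ht.1.2 ht.2.2
      linarith
  refine ((hua.mono inter_subset_left hB).add isOpen_ball ((yl_time
    (θ := fun t => (t - (t0 - δ))⁻¹) (ContinuousOn.inv₀ (by fun_prop) fun t ht => ?_)).smul hJ
      isOpen_ball h4)).congr isOpen_ball fun t ht y hy => ?_
  · linarith [ht.2.1]
  · have e1 : χ y = 1 := χ.one_of_mem_closedBall (ball_subset_closedBall hy)
    have e2 : t - (t0 - δ) ≠ 0 := by linarith [ht.2.1]
    simp only [hw, hq, add_sub_cancel, e1, one_smul, smul_smul, one_mul, inv_mul_cancel₀ e2]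

end Crest.Agent.N207.P
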