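import Crest.Agent.N207.P.LReg2
import Crest.Agent.N207.P.Nem
import Crest.Agent.N207.X.JS

/-!
# Row 207, parabolic solver (helper18): composition in `Yl`, `LRegStmt → RegStmt`
-/

set_option autoImplicit false
set_option linter.unusedSectionVars false

open Set Filter Topology Metric MeasureTheory
open scoped ContDiff Interval

noncomputable section

namespace Crest.Agent.N207.P

universe u

variable {n : ℕ} {V : Type*} [NormedAddCommGroup V] [NormedSpace ℝ V]
  {I : Set ℝ} {U : Set (En n)} {a b : ℝ}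

theorem Yl.prod (hU : IsOpen U) {W : Type*} [NormedAddCommGroup W] [NormedSpace ℝ W] {m : ℕ}
    {f : ℝ → En n → V} {g : ℝ → En n → W} (h : Yl I U m f) (h' : Yl I U m g) :
    Yl I U m (fun t y => (f t y, g t y)) :=
  ((h.clm hU (ContinuousLinearMap.inl ℝ V W)).add hU
    (h'.clm hU (ContinuousLinearMap.inr ℝ V W))).congr hU fun _ _ _ _ => by simp

theorem Yl.pi (hU : IsOpen U) {ι : Type*} [Fintype ι] {m : ℕ} {f : ι → ℝ → En n → V}
    (h : ∀ i, Yl I U m (f i)) : Yl I U m (fun t y i => f i t y) := by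
  classical
  refine (Yl.sum hU Finset.univ fun i _ =>
    (h i).clm hU (ContinuousLinearMap.single ℝ (fun _ : ι => V) i)).congr hU fun t _ y _ => ?_
  ext j
  simp [Finset.sum_apply, Pi.single_apply]

theorem yl_id (hI : IsCompact I) (hU : IsOpen U) {m : ℕ} : Yl I U m (fun _ y => y) :=
  yl_static hI hU contDiffOn_id

/-- composition with a smooth time dependent map -/
theorem Yl.comp (hI : IsCompact I) (hI' : UniqueDiffOn ℝ I) (hU : IsOpen U) : ∀ {m : ℕ}
    {W : Type u} [NormedAddCommGroup W] [NormedSpace ℝ W] {O : Set W} {Φ : ℝ × W → V}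
    {w : ℝ → En n → W}, IsOpen O → ContDiffOn ℝ ∞ Φ (I ×ˢ O) → Yl I U m w →
    (∀ t ∈ I, ∀ y ∈ U, w t y ∈ O) → Yl I U m (fun t y => Φ (t, w t y)) := by
  intro m
  induction m with
  | zero =>
    intro W _ _ O Φ w hO hΦ h hw
    have hc : ContinuousOn (fun q : ℝ × En n => Φ (q.1, w q.1 q.2)) (I ×ˢ U) :=
      hΦ.continuousOn.comp (continuousOn_fst.prodMk h.cont) fun p hp => ⟨hp.1, hw _ hp.1 _ hp.2⟩
    obtain ⟨hd, hD⟩ := d2_spec hI' hO hΦ
    refine Yl.of_loc hI fun t0 ht0 y0 hy0 => ?_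
    have h1 : ∀ᶠ q in 𝓝[I ×ˢ O] (t0, w t0 y0), dist (D2 Φ q) (D2 Φ (t0, w t0 y0)) < 1 :=
      (hD.continuousOn _ ⟨ht0, hw t0 ht0 y0 hy0⟩).eventually (ball_mem_nhds _ one_pos)
    obtain ⟨ρ, hρ, h2⟩ := Metric.mem_nhdsWithin_iff.1 h1
    obtain ⟨ρ', hρ', h3⟩ := Metric.isOpen_iff.1 hO _ (hw t0 ht0 y0 hy0)
    have h4 : ∀ᶠ q in 𝓝[I ×ˢ U] (t0, y0), w q.1 q.2 ∈ ball (w t0 y0) (min ρ ρ') :=
      (h.cont _ ⟨ht0, hy0⟩).eventually (ball_mem_nhds _ (lt_min hρ hρ'))
    rw [nhdsWithin_prod_eq, hU.nhdsWithin_eq hy0] at h4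
    obtain ⟨J, hJ, W', hW', h5⟩ := Filter.mem_prod_iff.1 h4
    refine ⟨J ∩ I ∩ ball t0 ρ, inter_mem (inter_mem hJ self_mem_nhdsWithin)
      (mem_nhdsWithin_of_mem_nhds (ball_mem_nhds _ hρ)), interior W' ∩ U,
      inter_mem (interior_mem_nhds.2 hW') (hU.mem_nhds hy0), ?_⟩
    refine yl_zero (hc.mono (prod_mono (fun t ht => ht.1.2) inter_subset_right)) fun y1 hy1 => ?_
    obtain ⟨K, hK0, hK⟩ := h.hol hy1.2
    refine ⟨(‖D2 Φ (t0, w t0 y0)‖ + 1) * K, ?_⟩
    filter_upwards [hK, ev_ball isOpen_interior hy1.1] with r h6 h7 t ht y hy y' hy'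
    have m1 : ∀ z ∈ ball y1 r, w t z ∈ ball (w t0 y0) (min ρ ρ') := fun z hz =>
      h5 (a := (t, z)) ⟨ht.1.1, interior_subset (h7 (ball_subset_closedBall hz))⟩
    have m2 : ∀ x ∈ ball (w t0 y0) (min ρ ρ'), x ∈ O := fun x hx =>
      h3 (ball_subset_ball (min_le_right _ _) hx)
    have := (convex_ball (w t0 y0) (min ρ ρ')).norm_image_sub_le_of_norm_hasFDerivWithin_le
      (𝕜 := ℝ) (f := fun x => Φ (t, x)) (f' := fun x => D2 Φ (t, x))
      (C := ‖D2 Φ (t0, w t0 y0)‖ + 1) (fun x hx => (hd t ht.1.2 x (m2 x hx)).hasFDerivWithinAt)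
      (fun x hx => by
        have := h2 (a := (t, x)) ⟨by
          rw [mem_ball, Prod.dist_eq, max_lt_iff]
          exact ⟨ht.2, ball_subset_ball (min_le_left _ _) hx⟩, ht.1.2, m2 x hx⟩
        simp only [mem_ofPred_eq, dist_eq_norm] at this
        linarith [norm_le_insert' (D2 Φ (t, x)) (D2 Φ (t0, w t0 y0))])
      (m1 y' hy') (m1 y hy)
    rw [mul_assoc]
    exact this.trans (mul_le_mul_of_nonneg_left (h6 t ht.1.2 y hy y' hy') (by positivity))
  | succ m ih =>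
    intro W _ _ O Φ w hO hΦ h hw
    obtain ⟨hd, hD⟩ := d2_spec hI' hO hΦ
    have hf : ∀ t ∈ I, ∀ y ∈ U, HasFDerivAt (fun y => Φ (t, w t y))
        ((D2 Φ (t, w t y)).comp (fderiv ℝ (w t) y)) y := fun t ht y hy =>
      (hd t ht _ (hw t ht y hy)).comp y (h.diff ht hy).hasFDerivAt
    refine ⟨hΦ.continuousOn.comp (continuousOn_fst.prodMk h.cont)
      fun p hp => ⟨hp.1, hw _ hp.1 _ hp.2⟩, fun t ht y hy => (hf t ht y hy).differentiableAt,
      fun k => ?_⟩
    refine (ih (W := W × W) (O := O ×ˢ univ) (Φ := fun q => D2 Φ (q.1, q.2.1) q.2.2)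
      (hO.prod isOpen_univ) ?_ ((h.pred hI hU).prod hU (h.pd k))
      fun t ht y hy => ⟨hw t ht y hy, mem_univ _⟩).congr hU fun t ht y hy => ?_
    · exact (hD.comp (contDiffOn_fst.prodMk contDiffOn_snd.fst)
        fun q hq => ⟨hq.1, hq.2.1⟩).clm_apply contDiffOn_snd.snd
    · simp only [P.pd]
      rw [(hf t ht y hy).fderiv]
      rfl

theorem yl_of_contDiffOn (hI : IsCompact I) (hI' : UniqueDiffOn ℝ I) (hU : IsOpen U) {m : ℕ}
    {f : ℝ → En n → V} (h : ContDiffOn ℝ ∞ (fun q : ℝ × En n => f q.1 q.2) (I ×ˢ U)) :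
    Yl I U m f :=
  Yl.comp hI hI' hU hU h (yl_id hI hU) fun _ _ _ hy => hy

theorem Yl.cont_fderiv {m : ℕ} {f : ℝ → En n → V} (h : Yl I U (m + 1) f) :
    ContinuousOn (fun q : ℝ × En n => fderiv ℝ (f q.1) q.2) (I ×ˢ U) := by
  have e : (fun q : ℝ × En n => fderiv ℝ (f q.1) q.2) = fun q => ∑ k,
      ContinuousLinearMap.smulRightL ℝ (En n) V (EuclideanSpace.proj k) (P.pd k (f q.1) q.2) := by
    funext y; ext v; simp [fderiv_eq_sum_pd]
  rw [e]
  exact continuousOn_finsetSum _ fun k _ =>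
    (ContinuousLinearMap.continuous _).comp_continuousOn (h.pd k).cont

variable [CompleteSpace V]

/-- `∂ₜ` commutes with `∂ₖ` -/
theorem ev_pd (hU : IsOpen U) {u Φ : ℝ → En n → V} (h : X.Ev (Icc a b) U u Φ)
    (hu : ∀ t ∈ Icc a b, ∀ y ∈ U, DifferentiableAt ℝ (u t) y) (hΦ : Yl (Icc a b) U 1 Φ)
    (k : Fin n) : X.Ev (Icc a b) U (fun t => pd k (u t)) (fun t => pd k (Φ t)) := by
  intro t ht y hy
  refine X.hasDerivWithinAt_of_int (f := fun r => pd k (u r) y) (g := fun r => pd k (Φ r) y)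
    (X.cont_slice (w := fun t => pd k (Φ t)) (hΦ.pd k).cont hy) (fun r hr => ?_) ht
  have hD := hΦ.cont_fderiv
  obtain ⟨ε, hε, hb⟩ := Metric.nhds_basis_closedBall.mem_iff.1 (hU.mem_nhds hy)
  obtain ⟨C, hC⟩ := (isCompact_Icc.prod (isCompact_closedBall y ε)).exists_bound_of_continuousOn
    (hD.mono (prod_mono (Subset.refl (Icc a b)) hb))
  have hsub : Ι a r ⊆ Icc a b := by
    rw [uIoc_of_le hr.1]
    exact fun s hs => ⟨hs.1.le, hs.2.trans hr.2⟩
  have hsub' : Icc a r ⊆ Icc a b := Icc_subset_Icc_right hr.2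
  have hD' := X.cont_slice (w := fun t y => fderiv ℝ (Φ t) y) hD hy
  have h1 := intervalIntegral.hasFDerivAt_integral_of_dominated_of_fderiv_le (𝕜 := ℝ)
    (μ := volume) (a := a) (b := r) (F := fun z s => Φ s z)
    (F' := fun z s => fderiv ℝ (Φ s) z) (bound := fun _ => C)
    (Metric.closedBall_mem_nhds y hε)
    (by
      filter_upwards [hU.mem_nhds hy] with z hz
      exact ((X.cont_slice hΦ.cont hz).mono hsub).aestronglyMeasurable measurableSet_uIoc)
    (((X.cont_slice hΦ.cont hy).mono hsub').intervalIntegrable_of_Icc hr.1)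
    ((hD'.mono hsub).aestronglyMeasurable measurableSet_uIoc)
    (Eventually.of_forall fun s hs z hz => hC (s, z) ⟨hsub hs, hz⟩)
    intervalIntegrable_const
    (Eventually.of_forall fun s hs z hz => (hΦ.diff (hsub hs) (hb hz)).hasFDerivAt)
  have h2 := (hu a ⟨le_rfl, hr.1.trans hr.2⟩ y hy).hasFDerivAt.add h1
  have h3 : u r =ᶠ[𝓝 y] fun z => u a z + ∫ s in a..r, Φ s z := by
    filter_upwards [hU.mem_nhds hy] with z hz
    exact h.int hΦ.cont hr hz
  have h4 := (h2.congr_of_eventuallyEq h3).fderiv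
  simp only [pd]
  rw [h4, add_apply, ContinuousLinearMap.intervalIntegral_apply
    ((hD'.mono hsub').intervalIntegrable_of_Icc hr.1)]

theorem pd3_comm (hU : IsOpen U) {u : ℝ → En n → V} (hu : Yl I U 3 u) {t : ℝ} (ht : t ∈ I)
    {y : En n} (hy : y ∈ U) (hu2 : Yl I U 2 u) (i k l : Fin n) :
    pd i (pd k (pd l (u t))) y = pd k (pd l (pd i (u t))) y := by
  rw [pd_symm (((hu.pd l).contDiffOn hU t ht).contDiffAt (hU.mem_nhds hy))]
  refine pd_congr ?_ k
  filter_upwards [hU.mem_nhds hy] with z hz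
  exact pd_symm ((hu2.contDiffOn hU t ht).contDiffAt (hU.mem_nhds hz)) _ _

/-- (LREG) of every order -/
theorem lreg_all (hL : LRegStmt n V) (hab : a < b) (hU : IsOpen U)
    {A : ℝ → En n → Matrix (Fin n) (Fin n) ℝ} (hpos : ∀ t ∈ Icc a b, ∀ y ∈ U, (A t y).PosDef) :
    ∀ (m : ℕ) {f u : ℝ → En n → V}, (∀ k l, Yl (Icc a b) U (m + 1) (fun t y => A t y k l)) →
      Yl (Icc a b) U (m + 1) f → Yl (Icc a b) U 2 u → ContDiffOn ℝ ∞ (u a) U →
      X.Ev (Icc a b) U u (fun t y => Lop (A t y) (u t) y + f t y) →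
      Yl (Icc a b) U (m + 3) u := by
  have hI : IsCompact (Icc a b) := isCompact_Icc
  intro m
  induction m with
  | zero => exact fun hA hf hu h0 he => hL a b U A _ _ hab hU hA hpos hf hu h0 he
  | succ m ih =>
    intro f u hA hf hu h0 he
    have hA' := fun k l => (hA k l).pred hI hU
    have h3 := ih hA' (hf.pred hI hU) hu h0 he
    have h3' : Yl (Icc a b) U 3 u := h3.of_le hI hU (by omega)
    refine ⟨h3.1, h3.2.1, fun i => ?_⟩
    refine ih (f := fun t y => ∑ k, ∑ l, pd i (fun z => A t z k l) y • pd k (pd l (u t)) y +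
      pd i (f t) y) hA' ((Yl.sum hU _ fun k _ => Yl.sum hU _ fun l _ => ((hA k l).pd i).smul hI hU
        ((h3.pd l).pd k)).add hU (hf.pd i)) (h3'.pd i) (contDiffOn_pd_top hU h0 i) ?_
    have t1 : ∀ k l, Yl (Icc a b) U 1 (fun t y => A t y k l • pd k (pd l (u t)) y) := fun k l =>
      ((hA k l).of_le hI hU (by omega)).smul hI hU ((h3'.pd l).pd k)
    have t2 : ∀ k, Yl (Icc a b) U 1 (fun t y => ∑ l, A t y k l • pd k (pd l (u t)) y) := fun k =>
      Yl.sum hU _ fun l _ => t1 k l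
    have t3 : Yl (Icc a b) U 1 (fun t y => Lop (A t y) (u t) y) := Yl.sum hU _ fun k _ => t2 k
    have := ev_pd hU he h3.2.1 (t3.add hU (hf.of_le hI hU (by omega))) i
    intro t ht y hy
    refine (this t ht y hy).congr_deriv ?_
    beta_reduce
    rw [pd_add' (t3.diff ht hy) (hf.diff ht hy), ← add_assoc]
    congr 1
    simp only [Lop]
    rw [pd_sum' _ fun k _ => (t2 k).diff ht hy, ← Finset.sum_add_distrib]
    refine Finset.sum_congr rfl fun k _ => ?_
    rw [pd_sum' _ fun l _ => (t1 k l).diff ht hy, ← Finset.sum_add_distrib]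
    refine Finset.sum_congr rfl fun l _ => ?_
    rw [pd_smul' ((hA k l).diff ht hy) (((h3'.pd l).pd k).diff ht hy), pd3_comm hU h3' ht hy hu]

/-- all the classes `Yl` give jointly continuous jets -/
theorem sj_of_yl (hI : IsCompact I) (hU : IsOpen U) {u : ℝ → En n → V} (h : ∀ m, Yl I U m u) :
    X.SJ 0 I U u := by
  refine X.SJ.of_coind (fun w => ∀ m, Yl I U m w) (fun w hw =>
    ⟨⟨contDiffOn_zero.2 (hw 0).cont, (hw 1).2.1⟩, fun v m => ?_⟩) h
  exact (Yl.sum hU Finset.univ fun k _ => (yl_time (θ := fun _ => v k) continuousOn_const).smul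
    hI hU ((hw (m + 1)).pd k)).congr hU fun t _ y _ => fderiv_eq_sum_pd _ _ _

/-- (R2) -/
theorem reg_of_lreg (hL : LRegStmt n V) : RegStmt n V := by
  intro a b U O A B u hab hU hO hA hB hm hpos hu h0 he
  have hI : IsCompact (Icc a b) := isCompact_Icc
  have hI' := uniqueDiffOn_Icc hab
  have all : ∀ m, Yl (Icc a b) U (m + 2) u := by
    intro m
    induction m with
    | zero => exact hu
    | succ m ih =>
      have h1 := (yl_id hI hU).prod hU (ih.pred hI hU)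
      exact lreg_all hL hab hU hpos m (fun k l => Yl.comp hI hI' hU hO (hA k l) h1 hm)
        (Yl.comp hI hI' hU (hO.prod isOpen_univ) hB (h1.prod hU (Yl.pi hU fun k => ih.pd k))
          fun t ht y hy => ⟨hm t ht y hy, mem_univ _⟩) hu h0 he
  refine (X.js_of_closure hab hU (Φ := fun t y => Lop (A (t, y, u t y)) (u t) y +
    B (t, (y, u t y), d1 (u t) y)) (sj_of_yl hI hU fun m => (all m).of_le hI hU (by omega))
    (fun j hj => ?_) countable_empty fun t ht y hy =>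
      (he t (Ioo_subset_Icc_self ht.1) y hy).hasDerivAt (Icc_mem_nhds ht.1.1 ht.1.2)).1
  have h1 := X.SJ.id.prod hU hj
  refine X.SJ.add hI' hU (X.SJ.sum hI' hU _ fun k _ => X.SJ.sum hI' hU _ fun l _ =>
    (X.SJ.comp hI' hU hO (hA k l) h1 hm).smul hI' hU ((hj.dv _).dv _)) ?_
  exact X.SJ.comp hI' hU (hO.prod isOpen_univ) hB (h1.prod hU (X.SJ.pi hI' hU fun k => hj.dv _))
    fun t ht y hy => ⟨hm t ht y hy, mem_univ _⟩

theorem reg_of_apr (h : AprStmt n V) : RegStmt n V := reg_of_lreg (lreg_of_apr h)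

end Crest.Agent.N207.P
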