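import Crest.Agent.N207.P.Core3
import Crest.Agent.N207.P.Reg

/-!
# Row 207, parabolic solver (helper11): (QL), gluing in time and (LIN) from (CORE)
-/

set_option autoImplicit false
set_option linter.unusedSectionVars false

open Set Filter Metric
open scoped ContDiff Topology Manifold

noncomputable section

namespace Crest.Agent.N207.P

variable {n : ℕ} {V : Type*} [NormedAddCommGroup V] [NormedSpace ℝ V]
  {M : Type*} [TopologicalSpace M] [ChartedSpace (En n) M] [IsManifold 𝓘(ℝ, En n) ∞ M]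
  {O : Set (M × V)} {Op : ℝ → (M → V) → M → V}

theorem smV_zero (I : Set ℝ) : SmV n (fun (_ : ℝ) (_ : M) => (0 : V)) I :=
  fun _ => contDiffOn_const

theorem smV_static {u : M → V} (hu : ContMDiff 𝓘(ℝ, En n) 𝓘(ℝ, V) ∞ u) (I : Set ℝ) :
    SmV n (fun _ => u) I := fun x =>
  (contDiffOn_rd hu x).comp contDiffOn_snd fun _ hq => hq.2

theorem SmV.mono {u : ℝ → M → V} {I J : Set ℝ} (h : SmV n u I) (hJ : J ⊆ I) : SmV n u J :=
  fun x => (h x).mono (prod_mono hJ le_rfl)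

theorem SmV.rd {u : ℝ → M → V} {I : Set ℝ} (h : SmV n u I) {t : ℝ} (ht : t ∈ I) (x : M) :
    ContDiffOn ℝ ∞ (rd n x (u t)) (chartAt (En n) x).target :=
  (h x).comp (f := fun y : En n => (t, y)) (by fun_prop) fun _ hy => ⟨ht, hy⟩

theorem SmV.slice {u : ℝ → M → V} {I : Set ℝ} (h : SmV n u I) {t : ℝ} (ht : t ∈ I) :
    ContMDiff 𝓘(ℝ, En n) 𝓘(ℝ, V) ∞ (u t) := contMDiff_of_rd fun x =>
  (h.rd ht x).contDiffAt ((chartAt (En n) x).open_target.mem_nhds (mem_chart_target _ x))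

theorem QLOp.rep' {I : Set ℝ} (Q : QLOp n I O Op) (x : M) {t : ℝ} (ht : t ∈ I) {y : En n}
    (hy : y ∈ (chartAt (En n) x).target) {u : M → V} (hu : ContMDiff 𝓘(ℝ, En n) 𝓘(ℝ, V) ∞ u)
    (hm : ∀ p, (p, u p) ∈ O) : rd n x (Op t u) y = Q.N x t (rd n x u) y :=
  Q.rep x t ht y hy u univ isOpen_univ (mem_univ _) hu.contMDiffOn fun p _ => hm p

theorem ql_of_core (hC : CoreStmt n M V) : QLStmt n M V := by
  intro a b O Op Q u0 hab hO hu0 h0
  obtain ⟨τ, hτ, h⟩ := hC a b O Op Q u0 a hab hO hu0 h0 (left_mem_Icc.2 hab.le)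
  obtain ⟨c, -, u, h1, h2⟩ := h a (min b (a + τ)) le_rfl (lt_min hab (by linarith))
    (min_le_left _ _) (by simpa using hτ.le) (min_le_right _ _) _ (smV_zero _)
  refine ⟨min b (a + τ), lt_min hab (by linarith), min_le_left _ _, u, h1, ?_⟩
  simpa only [smul_zero] using h2

/-! ### gluing in time -/

theorem Yl.glue {a c e : ℝ} {U : Set (En n)} : ∀ {m : ℕ} {g : ℝ → En n → V},
    Yl (Icc a c) U m g → Yl (Icc c e) U m g → Yl (Icc a e) U m g := by
  have hc : ∀ {g : ℝ → En n → V}, ContinuousOn (fun q : ℝ × En n => g q.1 q.2) (Icc a c ×ˢ U) →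
      ContinuousOn (fun q : ℝ × En n => g q.1 q.2) (Icc c e ×ˢ U) →
      ContinuousOn (fun q : ℝ × En n => g q.1 q.2) (Icc a e ×ˢ U) := by
    intro g h1 h2 p hp
    have e0 : Icc a e ×ˢ U ⊆ (Icc a c ×ˢ U) ∪ (Icc c e ×ˢ U) := fun q hq =>
      (le_total q.1 c).imp (fun h => ⟨⟨hq.1.1, h⟩, hq.2⟩) fun h => ⟨⟨h, hq.1.2⟩, hq.2⟩
    refine ContinuousWithinAt.mono (ContinuousWithinAt.union ?_ ?_) e0
    · by_cases hc : p.1 ≤ c
      · exact h1 p ⟨⟨hp.1.1, hc⟩, hp.2⟩
      · refine continuousWithinAt_of_notMem_closure fun hcl => hc ?_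
        rw [closure_prod_eq, isClosed_Icc.closure_eq] at hcl
        exact hcl.1.2
    · by_cases hc : c ≤ p.1
      · exact h2 p ⟨⟨hc, hp.1.2⟩, hp.2⟩
      · refine continuousWithinAt_of_notMem_closure fun hcl => hc ?_
        rw [closure_prod_eq, isClosed_Icc.closure_eq] at hcl
        exact hcl.1.1
  intro m
  induction m with
  | zero =>
    intro g h1 h2
    refine ⟨hc h1.1 h2.1, fun y0 hy => ?_⟩
    obtain ⟨r, hr, K, hK⟩ := h1.2 y0 hy
    obtain ⟨r', hr', K', hK'⟩ := h2.2 y0 hy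
    refine ⟨min r r', lt_min hr hr', max K K', fun t ht y hy y' hy' => ?_⟩
    rcases le_total t c with h | h
    · exact (hK t ⟨ht.1, h⟩ y (ball_subset_ball (min_le_left _ _) hy) y'
        (ball_subset_ball (min_le_left _ _) hy')).trans
        (mul_le_mul_of_nonneg_right (le_max_left _ _) (Real.sqrt_nonneg _))
    · exact (hK' t ⟨h, ht.2⟩ y (ball_subset_ball (min_le_right _ _) hy) y'
        (ball_subset_ball (min_le_right _ _) hy')).trans
        (mul_le_mul_of_nonneg_right (le_max_right _ _) (Real.sqrt_nonneg _))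
  | succ m ih =>
    intro g h1 h2
    refine ⟨hc h1.1 h2.1, fun t ht y hy => ?_, fun k => ih (h1.pd k) (h2.pd k)⟩
    rcases le_total t c with h | h
    · exact h1.diff ⟨ht.1, h⟩ hy
    · exact h2.diff ⟨h, ht.2⟩ hy

theorem IsSol.congr {H : ℝ → M → V} {s s' : ℝ} {u v : ℝ → M → V} (h : IsSol n O Op H s s' u)
    (e : ∀ t ∈ Icc s s', v t = u t) : IsSol n O Op H s s' v :=
  ⟨fun x => (h.sm x).congr fun q hq => by rw [e _ hq.1], fun t ht p => by
    rw [e t ht]; exact h.mem t ht p, fun t ht p => by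
    rw [e t ht]
    exact (h.eqn t ht p).congr (fun r hr => by rw [e r hr]) (by rw [e t ht])⟩

theorem IsSol.union {a b : ℝ} (Q : QLOp n (Icc a b) O Op) (hR : RegStmt n V) (hO : IsOpen O)
    {H : ℝ → M → V} (hH : SmV n H (Icc a b)) {s c e : ℝ} (has : a ≤ s) (hsc : s < c) (hce : c < e)
    (heb : e ≤ b) {u : ℝ → M → V} (h1 : IsSol n O Op H s c u) (h2 : IsSol n O Op H c e u) :
    IsSol n O Op H s e u := by
  have hI : Icc s e ⊆ Icc a b := Icc_subset_Icc has heb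
  have hmem : ∀ t ∈ Icc s e, ∀ p, (p, u t p) ∈ O := fun t ht p =>
    (le_total t c).elim (fun h => h1.mem t ⟨ht.1, h⟩ p) fun h => h2.mem t ⟨h, ht.2⟩ p
  have hsl : ∀ t ∈ Icc s e, ContMDiff 𝓘(ℝ, En n) 𝓘(ℝ, V) ∞ (u t) := fun t ht =>
    (le_total t c).elim (fun h => h1.sm.slice ⟨ht.1, h⟩) fun h => h2.sm.slice ⟨h, ht.2⟩
  have heq : ∀ t ∈ Icc s e, ∀ p,
      HasDerivWithinAt (fun r => u r p) (Op t (u t) p + H t p) (Icc s e) t := by
    intro t ht p
    rw [← Icc_union_Icc_eq_Icc hsc.le hce.le]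
    refine HasDerivWithinAt.union ?_ ?_
    · by_cases h : t ≤ c
      · exact h1.eqn t ⟨ht.1, h⟩ p
      · exact HasFDerivWithinAt.of_notMem_closure (by
          rw [isClosed_Icc.closure_eq]; exact fun h' => h h'.2)
    · by_cases h : c ≤ t
      · exact h2.eqn t ⟨h, ht.2⟩ p
      · exact HasFDerivWithinAt.of_notMem_closure (by
          rw [isClosed_Icc.closure_eq]; exact fun h' => h h'.1)
  refine ⟨fun x => ?_, hmem, heq⟩
  have ho := (chartAt (En n) x).open_target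
  refine hR s e _ (domO n O x) (Q.a x) (fun q => Q.b x q + rd n x (H q.1) q.2.1.1)
    (fun t => rd n x (u t)) (hsc.trans hce) ho (isOpen_domO hO _)
    (fun k l => (Q.sa _ k l).mono (prod_mono hI le_rfl)) ?_
    (fun t ht y hy => ⟨hy, hmem t ht _⟩) (fun t ht y hy => Q.pos _ t (hI ht) _ ⟨hy, hmem t ht _⟩)
    ?_ (h1.sm.rd (left_mem_Icc.2 hsc.le) x) fun t ht y hy => ?_
  · refine ((Q.sb _).mono (prod_mono hI le_rfl)).add ?_
    exact (hH x).comp (f := fun q : ℝ × (En n × V) × (Fin n → V) => (q.1, q.2.1.1))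
      (by fun_prop) fun q hq => ⟨hI hq.1, hq.2.1.1⟩
  · exact Yl.glue (c := c)
      (yl_of_contDiffOn isCompact_Icc (uniqueDiffOn_Icc hsc) ho (h1.sm x))
      (yl_of_contDiffOn isCompact_Icc (uniqueDiffOn_Icc hce) ho (h2.sm x))
  · have h3 := heq t ht ((chartAt (En n) x).symm y)
    have h4 := Q.rep' x (hI ht) hy (hsl t ht) (hmem t ht)
    simp only [QLOp.N] at h4
    rw [← add_assoc, ← h4]
    exact h3

theorem IsSol.glue {a b : ℝ} (Q : QLOp n (Icc a b) O Op) (hR : RegStmt n V) (hO : IsOpen O)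
    {H : ℝ → M → V} (hH : SmV n H (Icc a b)) {s c e : ℝ} (has : a ≤ s) (hsc : s < c) (hce : c < e)
    (heb : e ≤ b) {u v : ℝ → M → V} (h1 : IsSol n O Op H s c u) (h2 : IsSol n O Op H c e v)
    (huv : v c = u c) : ∃ w : ℝ → M → V, w s = u s ∧ IsSol n O Op H s e w := by
  refine ⟨fun t => if t ≤ c then u t else v t, if_pos hsc.le, IsSol.union Q hR hO hH has hsc hce
    heb (h1.congr fun t ht => if_pos ht.2) (h2.congr fun t ht => ?_)⟩
  by_cases h : t ≤ c
  · rw [if_pos h, le_antisymm h ht.1, huv]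
  · exact if_neg h

/-! ### linear operators -/

theorem pd_smul_c (c : ℝ) {f : En n → V} {y : En n} (hf : DifferentiableAt ℝ f y) (k : Fin n) :
    pd k (fun z => c • f z) y = c • pd k f y := by
  unfold pd; rw [fderiv_fun_const_smul hf]; rfl

theorem pd_pd_smul_c (c : ℝ) {f : En n → V} {y : En n} (hf : ContDiffAt ℝ 2 f y) (k l : Fin n) :
    pd k (pd l fun z => c • f z) y = c • pd k (pd l f) y := by
  have hev : pd l (fun z => c • f z) =ᶠ[𝓝 y] fun z => c • pd l f z := by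
    filter_upwards [hf.eventually (by simp)] with z h1
    exact pd_smul_c c (h1.differentiableAt (by simp)) l
  rw [pd_congr hev, pd_smul_c c
    ((contDiffAt_pd (m := 1) hf (by norm_num) l).differentiableAt (by simp))]

theorem QLOp.Lin.map {I : Set ℝ} {Q : QLOp n I univ Op} (hL : Q.Lin) {t : ℝ} (ht : t ∈ I)
    {u v : M → V} (hu : ContMDiff 𝓘(ℝ, En n) 𝓘(ℝ, V) ∞ u) (hv : ContMDiff 𝓘(ℝ, En n) 𝓘(ℝ, V) ∞ v)
    (c : ℝ) (p : M) : Op t (fun q => c • v q + u q) p = c • Op t v p + Op t u p := by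
  have hy := mem_chart_target (En n) p
  have hp : (chartAt (En n) p).symm (cen n p) = p :=
    (chartAt (En n) p).left_inv (mem_chart_source _ p)
  have h1 := Q.rep' p ht hy hu fun _ => mem_univ _
  have h2 := Q.rep' p ht hy hv fun _ => mem_univ _
  have h3 := Q.rep' p ht hy (u := fun q => c • v q + u q)
    (((contMDiff_const (I' := 𝓘(ℝ, ℝ))).smul hv).add hu) fun _ => mem_univ _
  have cu : ContDiffAt ℝ 2 (rd n p u) (cen n p) := ((contDiffOn_rd hu p).contDiffAt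
    ((chartAt (En n) p).open_target.mem_nhds hy)).of_le two_le_inf
  have cv : ContDiffAt ℝ 2 (rd n p v) (cen n p) := ((contDiffOn_rd hv p).contDiffAt
    ((chartAt (En n) p).open_target.mem_nhds hy)).of_le two_le_inf
  have e : rd n p (fun q => c • v q + u q) = fun z => c • rd n p v z + rd n p u z := rfl
  have e1 : d1 (fun z => c • rd n p v z + rd n p u z) (cen n p) =
      c • d1 (rd n p v) (cen n p) + d1 (rd n p u) (cen n p) := by
    funext k
    rw [d1, pd_add' ((cv.differentiableAt (by simp)).fun_const_smul c)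
      (cu.differentiableAt (by simp)), pd_smul_c c (cv.differentiableAt (by simp))]
    rfl
  rw [e] at h3
  simp only [QLOp.N, e1, hL.hb, Lop, lop_add (cv.const_smul c) cu, pd_pd_smul_c c cv] at h1 h2 h3
  rw [hL.ha] at h1 h2 h3
  rw [rd, hp] at h1 h2 h3
  rw [h1, h2, h3]
  simp only [smul_add, Finset.sum_add_distrib, Finset.smul_sum, smul_comm c]
  abel

theorem smV_op {a b : ℝ} (Q : QLOp n (Icc a b) O Op) {u : M → V}
    (hu : ContMDiff 𝓘(ℝ, En n) 𝓘(ℝ, V) ∞ u) (hm : ∀ p, (p, u p) ∈ O) :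
    SmV n (fun t => Op t u) (Icc a b) := by
  intro x
  have ho := (chartAt (En n) x).open_target
  have h0 := contDiffOn_rd hu x
  have cs : ∀ {g : En n → V}, ContDiffOn ℝ ∞ g (chartAt (En n) x).target →
      ContDiffOn ℝ ∞ (fun q : ℝ × En n => g q.2) (Icc a b ×ˢ (chartAt (En n) x).target) :=
    fun hg => hg.comp contDiffOn_snd fun _ hq => hq.2
  refine ContDiffOn.congr (f := fun q : ℝ × En n => Q.N x q.1 (rd n x u) q.2) ?_
    fun q hq => Q.rep' x hq.1 hq.2 hu hm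
  refine (ContDiffOn.sum fun k _ => ContDiffOn.sum fun l _ => ContDiffOn.smul ?_
    (cs (contDiffOn_pd_top ho (contDiffOn_pd_top ho h0 l) k))).add ?_
  · exact (Q.sa x k l).comp (f := fun q : ℝ × En n => (q.1, q.2, rd n x u q.2))
      (contDiffOn_fst.prodMk (contDiffOn_snd.prodMk (cs h0))) fun q hq => ⟨hq.1, hq.2, hm _⟩
  · exact (Q.sb x).comp
      (f := fun q : ℝ × En n => (q.1, (q.2, rd n x u q.2), d1 (rd n x u) q.2))
      (contDiffOn_fst.prodMk ((contDiffOn_snd.prodMk (cs h0)).prodMk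
        (contDiffOn_pi.2 fun k => cs (contDiffOn_pd_top ho h0 k))))
      fun q hq => ⟨hq.1, ⟨hq.2, hm _⟩, mem_univ _⟩

theorem lin_loc (hC : CoreStmt n M V) {a b : ℝ} (Q : QLOp n (Icc a b) univ Op) (hL : Q.Lin)
    (hab : a < b) {H : ℝ → M → V} (hH : SmV n H (Icc a b)) {s0 : ℝ} (hs0 : s0 ∈ Icc a b) :
    ∃ τ : ℝ, 0 < τ ∧ ∀ s s' : ℝ, a ≤ s → s < s' → s' ≤ b → |s - s0| ≤ τ → s' ≤ s + τ →
      ∀ u1 : M → V, ContMDiff 𝓘(ℝ, En n) 𝓘(ℝ, V) ∞ u1 →
        ∃ u : ℝ → M → V, u s = u1 ∧ IsSol n univ Op H s s' u := by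
  obtain ⟨τ, hτ, h⟩ := hC a b univ Op Q (fun _ => 0) s0 hab isOpen_univ contMDiff_const
    (fun _ => mem_univ _) hs0
  refine ⟨τ, hτ, fun s s' h1 h2 h3 h4 h5 u1 hu1 => ?_⟩
  obtain ⟨c, hc, v, hv0, hv⟩ := h s s' h1 h2 h3 h4 h5 (fun t p => Op t u1 p + H t p)
    fun x => (smV_op Q hu1 (fun _ => mem_univ _) x).add (hH x)
  refine ⟨fun t p => c⁻¹ • v t p + u1 p, by funext p; simp [hv0],
    fun x => ((hv.sm x).const_smul c⁻¹).add (smV_static hu1 _ x), fun _ _ _ => mem_univ _,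
    fun t ht p => ?_⟩
  rw [hL.map (Icc_subset_Icc h1 h3 ht) hu1 (hv.sm.slice ht)]
  have h6 := ((hv.eqn t ht p).const_smul c⁻¹).add_const (u1 p)
  rw [smul_add, smul_smul, inv_mul_cancel₀ hc.ne', one_smul, ← add_assoc] at h6
  exact h6

theorem lin_of_core (hC : CoreStmt n M V) (hR : RegStmt n V) : LinStmt n M V := by
  intro a b Op Q u0 H hab hL hu0 hH
  choose! τ hτ h using fun s0 (hs0 : s0 ∈ Icc a b) => lin_loc hC Q hL hab hH hs0
  obtain ⟨T, hT, hcov⟩ := isCompact_Icc.elim_nhds_subcover (fun s0 => ball s0 (τ s0))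
    fun s0 hs0 => ball_mem_nhds s0 (hτ s0 hs0)
  obtain ⟨δ, hδ, hδ'⟩ := exists_ge_all (ι := T) (δ := fun i => τ i) fun i => hτ i (hT i i.2)
  have step : ∀ s s', a ≤ s → s < s' → s' ≤ b → s' ≤ s + δ → ∀ u1 : M → V,
      ContMDiff 𝓘(ℝ, En n) 𝓘(ℝ, V) ∞ u1 →
        ∃ u : ℝ → M → V, u s = u1 ∧ IsSol n univ Op H s s' u := by
    intro s s' h1 h2 h3 h4
    obtain ⟨s0, hs0, hs⟩ := mem_iUnion₂.1 (hcov ⟨h1, h2.le.trans h3⟩)
    exact h s0 (hT s0 hs0) s s' h1 h2 h3 (le_of_lt hs) (by linarith [hδ' ⟨s0, hs0⟩])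
  have ind : ∀ k : ℕ, ∃ u : ℝ → M → V, u a = u0 ∧
      IsSol n univ Op H a (min b (a + (k + 1) * δ)) u := by
    intro k
    induction k with
    | zero =>
      exact step a _ le_rfl (lt_min hab (by simpa using hδ)) (min_le_left _ _)
        ((min_le_right _ _).trans (by simp)) u0 hu0
    | succ k ih =>
      obtain ⟨u, hu, hs⟩ := ih
      have hk : (0 : ℝ) < (k + 1) * δ := by positivity
      by_cases hb : b ≤ a + (k + 1) * δ
      · refine ⟨u, hu, ?_⟩
        rw [min_eq_left hb] at hs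
        rwa [min_eq_left (by push_cast; linarith)]
      · rw [not_le] at hb
        rw [min_eq_right hb.le] at hs
        have h1 : a + (k + 1) * δ < min b (a + ((k + 1 : ℕ) + 1) * δ) :=
          lt_min hb (by push_cast; linarith)
        obtain ⟨v, hv, hv'⟩ := step _ _ (by linarith) h1 (min_le_left _ _)
          ((min_le_right _ _).trans (by push_cast; linarith)) _
          (hs.sm.slice (right_mem_Icc.2 (by linarith)))
        obtain ⟨w, hw, hw'⟩ := IsSol.glue Q hR isOpen_univ hH le_rfl (by linarith) h1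
          (min_le_left _ _) hs hv' hv
        exact ⟨w, hw.trans hu, hw'⟩
  obtain ⟨k, hk⟩ := exists_nat_ge ((b - a) / δ)
  obtain ⟨u, hu, hs⟩ := ind k
  rw [div_le_iff₀ hδ] at hk
  rw [min_eq_left (by nlinarith)] at hs
  exact ⟨u, hu, hs⟩

end Crest.Agent.N207.P
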