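import Crest.Agent.N207.P.Yl1

/-!
# Row 207, parabolic solver (helper18): `Yl` versus `Yb`, increments, localisation, and the
difference quotient lemma `dq`
-/

set_option autoImplicit false
set_option linter.unusedSectionVars false

open Set Filter Topology Metric
open scoped ContDiff

noncomputable section

namespace Crest.Agent.N207.P

variable {n : ℕ} {V : Type*} [NormedAddCommGroup V] [NormedSpace ℝ V]
  {I : Set ℝ} {U : Set (En n)} {τ : ℝ}

theorem Yl.slice {m : ℕ} {f : ℝ → En n → V} (h : Yl I U m f) {t : ℝ} (ht : t ∈ I) :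
    ContinuousOn (f t) U :=
  h.cont.comp (f := fun y => (t, y)) (by fun_prop) fun y hy => ⟨ht, hy⟩

theorem Yl.contDiffOn (hU : IsOpen U) : ∀ {m : ℕ} {f : ℝ → En n → V}, Yl I U m f →
    ∀ t ∈ I, ContDiffOn ℝ m (f t) U
  | 0, _, h, t, ht => contDiffOn_zero.2 (h.slice ht)
  | m + 1, f, h, t, ht => by
    rw [Nat.cast_succ, contDiffOn_succ_iff_fderiv_of_isOpen hU]
    refine ⟨fun y hy => (h.diff ht hy).differentiableWithinAt, by simp, ?_⟩
    have e : fderiv ℝ (f t) = fun y => ∑ k, ContinuousLinearMap.smulRightL ℝ (En n) V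
        (EuclideanSpace.proj k) (P.pd k (f t) y) := by
      funext y; ext v; simp [fderiv_eq_sum_pd]
    rw [e]
    exact ContDiffOn.sum fun k _ => (ContinuousLinearMap.contDiff _).comp_contDiffOn
      (Yl.contDiffOn hU (h.pd k) t ht)

/-- compact support gives global bounds -/
theorem Yl.yb {f : ℝ → En n → V} (h : Yl (Icc 0 τ) univ 0 f) {K : Set (En n)} (hK : IsCompact K)
    (h0 : ∀ t ∈ Icc 0 τ, ∀ y, y ∉ K → f t y = 0) : ∃ L : ℝ, 0 ≤ L ∧ Yb dist τ L L f := by
  obtain ⟨A, hA⟩ := (isCompact_Icc.prod hK).exists_bound_of_continuousOn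
    (h.1.mono (prod_mono Subset.rfl (subset_univ K)))
  have hs : ∀ t ∈ Icc 0 τ, ∀ y, ‖f t y‖ ≤ max A 0 := fun t ht y => by
    by_cases hy : y ∈ K
    · exact (hA (t, y) ⟨ht, hy⟩).trans (le_max_left _ _)
    · simp [h0 t ht y hy]
  set A' := max A 0
  have hA' : 0 ≤ A' := le_max_right _ _
  have far : ∀ t ∈ Icc 0 τ, ∀ y y', ∀ ρ : ℝ, 0 < ρ → ρ ≤ dist y y' →
      ‖f t y - f t y'‖ ≤ 2 * A' / √ρ * √(dist y y') := fun t ht y y' ρ hρ hd => by
    have h1 : ‖f t y - f t y'‖ ≤ 2 * A' :=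
      (norm_sub_le _ _).trans (by linarith [hs t ht y, hs t ht y'])
    have h2 : 0 < √ρ := Real.sqrt_pos.2 hρ
    have h3 : √ρ ≤ √(dist y y') := Real.sqrt_le_sqrt hd
    calc _ ≤ 2 * A' / √ρ * √ρ := by rw [div_mul_cancel₀ _ h2.ne']; exact h1
      _ ≤ _ := by gcongr
  have hK' : IsCompact (cthickening 1 K) := hK.cthickening
  have key : ∃ L : ℝ, 0 ≤ L ∧ ∀ p ∈ cthickening 1 K ×ˢ cthickening 1 K, ∀ t ∈ Icc 0 τ,
      ‖f t p.1 - f t p.2‖ ≤ L * √(dist p.1 p.2) := by
    refine (hK'.prod hK').induction_on (p := fun S => ∃ L : ℝ, 0 ≤ L ∧ ∀ p ∈ S, ∀ t ∈ Icc 0 τ,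
      ‖f t p.1 - f t p.2‖ ≤ L * √(dist p.1 p.2)) ⟨0, le_rfl, by simp⟩ ?_ ?_ ?_
    · rintro s t hst ⟨L, hL, h⟩
      exact ⟨L, hL, fun p hp => h p (hst hp)⟩
    · rintro s t ⟨L, hL, h1⟩ ⟨L', hL', h2⟩
      refine ⟨max L L', le_max_of_le_left hL, fun p hp u hu => ?_⟩
      rcases hp with hp | hp
      · exact (h1 p hp u hu).trans (by gcongr; exact le_max_left _ _)
      · exact (h2 p hp u hu).trans (by gcongr; exact le_max_right _ _)
    · rintro ⟨y, y'⟩ -
      by_cases e : y = y'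
      · subst e
        obtain ⟨L, hL, h1⟩ := h.hol (mem_univ y)
        obtain ⟨r, h2, hr⟩ := (h1.and self_mem_nhdsWithin).exists
        exact ⟨ball y r ×ˢ ball y r, mem_nhdsWithin_of_mem_nhds
          (prod_mem_nhds (ball_mem_nhds _ hr) (ball_mem_nhds _ hr)), L, hL,
          fun p hp t ht => h2 t ht _ hp.1 _ hp.2⟩
      · have hρ : 0 < dist y y' / 2 := half_pos (dist_pos.2 e)
        refine ⟨{p | dist y y' / 2 < dist p.1 p.2}, mem_nhdsWithin_of_mem_nhds
          ((isOpen_lt continuous_const (by fun_prop)).mem_nhds ?_), _, by positivity,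
          fun p hp t ht => far t ht _ _ _ hρ (le_of_lt hp)⟩
        show dist y y' / 2 < dist y y'
        linarith
  obtain ⟨L, hL, hk⟩ := key
  refine ⟨L + 2 * A', by positivity, h.1, fun t ht y => by linarith [hs t ht y],
    fun t ht y y' => ?_⟩
  have hq := Real.sqrt_nonneg (dist y y')
  rcases le_total 1 (dist y y') with hd | hd
  · have := far t ht y y' 1 one_pos hd
    simp only [Real.sqrt_one, div_one] at this
    nlinarith
  · by_cases hy : y ∈ K ∨ y' ∈ K
    · have : (y, y') ∈ cthickening 1 K ×ˢ cthickening 1 K := by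
        rcases hy with hy | hy
        · exact ⟨self_subset_cthickening _ hy,
            mem_cthickening_of_dist_le y' y 1 K hy (by rwa [dist_comm])⟩
        · exact ⟨mem_cthickening_of_dist_le y y' 1 K hy hd, self_subset_cthickening _ hy⟩
      have := hk _ this t ht
      nlinarith
    · push Not at hy
      rw [h0 t ht y hy.1, h0 t ht y' hy.2]
      simp only [sub_zero, norm_zero]
      positivity

/-- `Yl` is local in space and time -/
theorem Yl.of_loc (hI : IsCompact I) : ∀ {m : ℕ} {f : ℝ → En n → V},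
    (∀ t0 ∈ I, ∀ y0 ∈ U, ∃ J ∈ 𝓝[I] t0, ∃ W ∈ 𝓝 y0, Yl J W m f) → Yl I U m f := by
  have hc : ∀ {m : ℕ} {f : ℝ → En n → V},
      (∀ t0 ∈ I, ∀ y0 ∈ U, ∃ J ∈ 𝓝[I] t0, ∃ W ∈ 𝓝 y0, Yl J W m f) →
      ContinuousOn (fun q : ℝ × En n => f q.1 q.2) (I ×ˢ U) := by
    rintro m f h ⟨t0, y0⟩ hq
    obtain ⟨J, hJ, W, hW, h1⟩ := h t0 hq.1 y0 hq.2
    refine (h1.cont (t0, y0) ⟨mem_of_mem_nhdsWithin hq.1 hJ, mem_of_mem_nhds hW⟩).mono_of_mem_nhdsWithin ?_
    rw [nhdsWithin_prod_eq]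
    exact prod_mem_prod hJ (mem_nhdsWithin_of_mem_nhds hW)
  intro m
  induction m with
  | zero =>
    intro f h
    refine yl_zero (hc h) fun y0 hy => ?_
    have key : ∃ K : ℝ, ∀ᶠ r in 𝓝[>] (0 : ℝ), ∀ t ∈ I, ∀ y ∈ ball y0 r, ∀ y' ∈ ball y0 r,
        ‖f t y - f t y'‖ ≤ K * √(dist y y') := by
      refine hI.induction_on (p := fun S => ∃ K : ℝ, ∀ᶠ r in 𝓝[>] (0 : ℝ), ∀ t ∈ S,
        ∀ y ∈ ball y0 r, ∀ y' ∈ ball y0 r, ‖f t y - f t y'‖ ≤ K * √(dist y y'))
        ⟨0, by simp⟩ ?_ ?_ ?_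
      · rintro s t hst ⟨L, h⟩
        exact ⟨L, h.mono fun r hr u hu => hr u (hst hu)⟩
      · rintro s t ⟨L, h1⟩ ⟨L', h2⟩
        refine ⟨max L L', ?_⟩
        filter_upwards [h1, h2] with r h3 h4 u hu y hy y' hy'
        rcases hu with hu | hu
        · exact (h3 u hu y hy y' hy').trans (by gcongr; exact le_max_left _ _)
        · exact (h4 u hu y hy y' hy').trans (by gcongr; exact le_max_right _ _)
      · intro t0 ht0
        obtain ⟨J, hJ, W, hW, h1⟩ := h t0 ht0 y0 hy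
        obtain ⟨K, -, hK⟩ := h1.hol (mem_of_mem_nhds hW)
        exact ⟨J, hJ, K, hK⟩
    exact key
  | succ m ih =>
    intro f h
    refine ⟨hc h, fun t ht y hy => ?_, fun k => ih fun t ht y hy => ?_⟩
    · obtain ⟨J, hJ, W, hW, h1⟩ := h t ht y hy
      exact h1.diff (mem_of_mem_nhdsWithin ht hJ) (mem_of_mem_nhds hW)
    · obtain ⟨J, hJ, W, hW, h1⟩ := h t ht y hy
      exact ⟨J, hJ, W, hW, h1.pd k⟩

/-! ### increments -/

/-- the spatial increment -/
def dv (v : En n) (f : ℝ → En n → V) (t : ℝ) (y : En n) : V := f t (y + v) - f t y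

theorem yb_smul {X : Type*} [TopologicalSpace X] {d : X → X → ℝ} {A c A' c' : ℝ} {a : ℝ → X → ℝ}
    {g : ℝ → X → V} (h : Yb d τ A c a) (h' : Yb d τ A' c' g) (hc : 0 ≤ c) :
    Yb d τ (A * A') (A * c' + c * A') (fun t x => a t x • g t x) := by
  refine ⟨h.cont.smul h'.cont, fun t ht x => ?_, fun t ht x y => ?_⟩
  · rw [norm_smul]
    exact mul_le_mul (h.sup t ht x) (h'.sup t ht x) (norm_nonneg _)
      ((norm_nonneg _).trans (h.sup t ht x))
  · have e : a t x • g t x - a t y • g t y =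
        a t x • (g t x - g t y) + (a t x - a t y) • g t y := by
      rw [smul_sub, sub_smul]; abel
    have hA : 0 ≤ A := (norm_nonneg _).trans (h.sup t ht x)
    rw [e]
    refine (norm_add_le _ _).trans ?_
    rw [norm_smul, norm_smul]
    have a1 := mul_le_mul (h.sup t ht x) (h'.hol t ht x y) (norm_nonneg _) hA
    have a2 := mul_le_mul (h.hol t ht x y) (h'.sup t ht y) (norm_nonneg _) (by positivity)
    nlinarith

theorem yb_shift {A c : ℝ} {f : ℝ → En n → V} (h : Yb dist τ A c f) (v : En n) :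
    Yb dist τ A c (fun t y => f t (y + v)) :=
  ⟨h.cont.comp (f := fun p : ℝ × En n => (p.1, p.2 + v)) (by fun_prop)
      fun p hp => ⟨hp.1, mem_univ _⟩,
    fun t ht y => h.sup t ht _, fun t ht y y' => by simpa using h.hol t ht (y + v) (y' + v)⟩

theorem yb_neg {A c : ℝ} {f : ℝ → En n → V} (h : Yb dist τ A c f) :
    Yb dist τ A c (fun t y => -f t y) :=
  ⟨h.cont.neg, fun t ht y => by simpa using h.sup t ht y, fun t ht y y' => by
    rw [neg_sub_neg, norm_sub_rev]; exact h.hol t ht y y'⟩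

/-- crude bound of an increment -/
theorem yb_dv0 {A c : ℝ} {f : ℝ → En n → V} (h : Yb dist τ A c f) (v : En n) :
    Yb dist τ (A + A) (c + c) (dv v f) :=
  yb_congr (yb_add (yb_shift h v) (yb_neg h)) fun t _ y => by simp [dv, sub_eq_add_neg]

/-- increments of `Y¹` functions are `O(‖v‖)` in `Y` -/
theorem yb_dv {L : ℝ} {f : ℝ → En n → V} (h : Yl (Icc 0 τ) univ 1 f)
    (hL : ∀ k, Yb dist τ L L (fun t => pd k (f t))) (v : En n) :
    Yb dist τ (n * L * ‖v‖) (n * L * ‖v‖) (dv v f) := by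
  refine ⟨(h.1.comp (f := fun p : ℝ × En n => (p.1, p.2 + v)) (by fun_prop)
      fun p hp => ⟨hp.1, mem_univ _⟩).sub h.1, fun t ht y => ?_, fun t ht y y' => ?_⟩
  · have := convex_univ.norm_image_sub_le_of_norm_fderiv_le (𝕜 := ℝ) (f := f t) (C := n * L)
      (fun z _ => h.diff ht (mem_univ z)) (fun z _ => (norm_clm_le_sum _).trans (by
        simpa [pd] using Finset.sum_le_card_nsmul Finset.univ _ L fun k _ => (hL k).sup t ht z))
      (mem_univ y) (mem_univ (y + v))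
    simpa [dv] using this
  · have hd : ∀ x z : En n, HasFDerivAt (fun z => f t (x + z)) (fderiv ℝ (f t) (x + z)) z :=
      fun x z => (hasFDerivAt_comp_add_left x).2 (h.diff ht (mem_univ (x + z))).hasFDerivAt
    have := convex_univ.norm_image_sub_le_of_norm_hasFDerivWithin_le (𝕜 := ℝ)
      (f := fun z => f t (y + z) - f t (y' + z)) (C := n * (L * √(dist y y')))
      (f' := fun z => fderiv ℝ (f t) (y + z) - fderiv ℝ (f t) (y' + z))
      (fun z _ => ((hd y z).sub (hd y' z)).hasFDerivWithinAt)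
      (fun z _ => (norm_clm_le_sum _).trans (by
        have := Finset.sum_le_card_nsmul Finset.univ _ (L * √(dist y y')) fun k _ =>
          ((hL k).hol t ht (y + z) (y' + z)).trans (le_of_eq (by rw [dist_add_right]))
        simpa [pd] using this))
      (mem_univ 0) (mem_univ v)
    simp only [add_zero, sub_zero] at this
    calc ‖dv v f t y - dv v f t y'‖ = ‖f t (y + v) - f t (y' + v) - (f t y - f t y')‖ := by
          simp only [dv]; congr 1; abel
      _ ≤ _ := this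
      _ = _ := by ring

/-! ### the difference quotient lemma -/

/-- dyadic difference quotients -/
def dqq (φ : En n → V) (y v : En n) (m : ℕ) : V :=
  (2 : ℝ) ^ m • (φ (y + (1 / 2 : ℝ) ^ m • v) - φ y)

theorem sqrt_half_pow (m : ℕ) (x : ℝ) : √((1 / 2 : ℝ) ^ m * x) = √(1 / 2) ^ m * √x := by
  rw [Real.sqrt_mul (by positivity)]
  congr 1
  rw [Real.sqrt_eq_iff_mul_self_eq (by positivity) (by positivity), ← mul_pow,
    Real.mul_self_sqrt (by norm_num)]

section dq

variable {φ : En n → V} {K : ℝ}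
  (H : ∀ v y y', ‖φ (y + v) - φ y - (φ (y' + v) - φ y')‖ ≤ K * ‖v‖ * √(dist y y'))
include H

theorem dqq_aux (m : ℕ) (y v w : En n) :
    ‖(2 : ℝ) ^ m • (φ (y + (1 / 2 : ℝ) ^ m • w + (1 / 2 : ℝ) ^ m • v) - φ (y + (1 / 2 : ℝ) ^ m • w)
      - (φ (y + (1 / 2 : ℝ) ^ m • v) - φ y))‖ ≤ K * ‖v‖ * √‖w‖ * √(1 / 2) ^ m := by
  rw [norm_smul]
  refine (mul_le_mul_of_nonneg_left (H _ _ _) (norm_nonneg _)).trans (le_of_eq ?_)
  have e : (2 : ℝ) ^ m * (1 / 2) ^ m = 1 := by rw [← mul_pow]; norm_num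
  rw [dist_self_add_left, norm_smul, norm_smul, Real.norm_of_nonneg (by positivity),
    Real.norm_of_nonneg (by positivity), sqrt_half_pow]
  linear_combination (K * ‖v‖ * √‖w‖ * √(1 / 2) ^ m) * e

theorem dqq_step (y v : En n) (m : ℕ) : dist (dqq φ y v m) (dqq φ y v (m + 1)) ≤
    K * ‖(1 / 2 : ℝ) • v‖ * √‖(1 / 2 : ℝ) • v‖ * √(1 / 2) ^ m := by
  refine le_of_eq_of_le ?_ (dqq_aux H m y _ _)
  have e : y + (1 / 2 : ℝ) ^ m • (1 / 2 : ℝ) • v + (1 / 2 : ℝ) ^ m • (1 / 2 : ℝ) • v =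
      y + (1 / 2 : ℝ) ^ m • v := by module
  rw [dist_eq_norm, e, dqq, dqq, pow_succ (1 / 2 : ℝ), mul_smul]
  congr 1
  module

theorem dq_static [CompleteSpace V] (hK : 0 ≤ K) (hc : Continuous φ) (y : En n) :
    DifferentiableAt ℝ φ y ∧ ∀ v m, ‖dqq φ y v m - fderiv ℝ φ y v‖ ≤
      4 * K * ‖v‖ * √‖v‖ * √(1 / 2) ^ m := by
  have hρ : √(1 / 2 : ℝ) ≤ 3 / 4 := Real.sqrt_le_iff.2 ⟨by norm_num, by norm_num⟩
  have hρ1 : √(1 / 2 : ℝ) < 1 := by linarith
  have hlim : Tendsto (fun m : ℕ => √(1 / 2 : ℝ) ^ m) atTop (𝓝 0) :=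
    tendsto_pow_atTop_nhds_zero_of_lt_one (Real.sqrt_nonneg _) hρ1
  choose D hD using fun v => cauchySeq_tendsto_of_complete
    (cauchySeq_of_le_geometric _ _ hρ1 (dqq_step H y v))
  have est : ∀ v m, ‖dqq φ y v m - D v‖ ≤ 4 * K * ‖v‖ * √‖v‖ * √(1 / 2) ^ m := fun v m => by
    rw [← dist_eq_norm]
    refine (dist_le_of_le_geometric_of_tendsto _ _ hρ1 (dqq_step H y v) (hD v) m).trans ?_
    rw [div_le_iff₀ (by linarith)]
    have h1 : ‖(1 / 2 : ℝ) • v‖ ≤ ‖v‖ := by
      rw [norm_smul, Real.norm_of_nonneg (by norm_num)]; linarith [norm_nonneg v]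
    calc _ ≤ K * ‖v‖ * √‖v‖ * √(1 / 2) ^ m := by gcongr
      _ = 4 * K * ‖v‖ * √‖v‖ * √(1 / 2) ^ m * (1 / 4) := by ring
      _ ≤ _ := by gcongr; linarith
  have add : ∀ v w, D (v + w) = D v + D w := fun v w => by
    have h1 : Tendsto (fun m => dqq φ y (v + w) m - dqq φ y w m - dqq φ y v m) atTop (𝓝 0) := by
      refine squeeze_zero_norm (fun m => le_of_eq_of_le ?_ (dqq_aux H m y v w))
        (by simpa using hlim.const_mul (K * ‖v‖ * √‖w‖))
      have e : y + (1 / 2 : ℝ) ^ m • w + (1 / 2 : ℝ) ^ m • v = y + (1 / 2 : ℝ) ^ m • (v + w) := by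
        module
      rw [e, dqq, dqq, dqq]
      congr 1
      module
    have h2 := tendsto_nhds_unique h1 (((hD (v + w)).sub (hD w)).sub (hD v))
    rw [eq_comm, sub_sub, sub_eq_zero, add_comm (D w)] at h2
    exact h2
  have est0 : ∀ v, ‖φ (y + v) - φ y - D v‖ ≤ 4 * K * √‖v‖ * ‖v‖ := fun v => by
    have := est v 0
    simp only [dqq, pow_zero, one_smul, mul_one] at this
    linarith
  let D1 : En n →+ V := AddMonoidHom.mk' D add
  have hD1 : Continuous D1 := by
    refine continuous_of_continuousAt_zero D1 ?_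
    rw [ContinuousAt, map_zero]
    refine squeeze_zero_norm (a := fun v => ‖φ (y + v) - φ y‖ + 4 * K * √‖v‖ * ‖v‖)
      (fun v => ?_) ?_
    · have e : D1 v = φ (y + v) - φ y - (φ (y + v) - φ y - D v) := by simp [D1]
      rw [e]
      exact (norm_sub_le _ _).trans (add_le_add le_rfl (est0 v))
    · have : Continuous fun v : En n => ‖φ (y + v) - φ y‖ + 4 * K * √‖v‖ * ‖v‖ := by fun_prop
      simpa using this.tendsto 0
  have hd : HasFDerivAt φ (D1.toRealLinearMap hD1) y := by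
    rw [hasFDerivAt_iff_isLittleO_nhds_zero]
    refine Asymptotics.IsLittleO.of_bound fun c hc0 => ?_
    have : Continuous fun v : En n => 4 * K * √‖v‖ := by fun_prop
    filter_upwards [(this.tendsto 0).eventually (ge_mem_nhds (a := c) (by simpa using hc0))]
      with v hv
    exact (est0 v).trans (mul_le_mul_of_nonneg_right hv (norm_nonneg _))
  refine ⟨hd.differentiableAt, fun v m => ?_⟩
  rw [hd.fderiv]
  exact est v m

end dq

/-- (DQ): Hoelder bounds `O(‖v‖)` of the increments give one more derivative -/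
theorem dq [CompleteSpace V] {φ : ℝ → En n → V} {K : ℝ} (hK : 0 ≤ K)
    (hc : ContinuousOn (fun q : ℝ × En n => φ q.1 q.2) (I ×ˢ univ))
    (H : ∀ v, ∀ t ∈ I, ∀ y y', ‖dv v φ t y - dv v φ t y'‖ ≤ K * ‖v‖ * √(dist y y')) :
    Yl I univ 1 φ := by
  have hs : ∀ t ∈ I, Continuous (φ t) := fun t ht => continuousOn_univ.1
    (hc.comp (f := fun y => (t, y)) (by fun_prop) fun y hy => ⟨ht, hy⟩)
  have st := fun t ht => dq_static (φ := φ t) (fun v => H v t ht) hK (hs t ht)
  have hlim : Tendsto (fun m : ℕ => √(1 / 2 : ℝ) ^ m) atTop (𝓝 0) :=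
    tendsto_pow_atTop_nhds_zero_of_lt_one (Real.sqrt_nonneg _)
      ((Real.sqrt_lt' one_pos).2 (by norm_num))
  refine ⟨hc, fun t ht y _ => (st t ht y).1, fun k => ⟨?_, fun y0 _ => ⟨1, one_pos, K, ?_⟩⟩⟩
  · set e : En n := EuclideanSpace.single k 1
    have hu : TendstoUniformlyOn (fun m (q : ℝ × En n) => dqq (φ q.1) q.2 e m)
        (fun q => pd k (φ q.1) q.2) atTop (I ×ˢ univ) := by
      refine Metric.tendstoUniformlyOn_iff.2 fun ε hε => ?_
      filter_upwards [(hlim.const_mul (4 * K * ‖e‖ * √‖e‖)).eventually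
        (gt_mem_nhds (a := ε) (by simpa using hε))] with m hm q hq
      rw [dist_comm, dist_eq_norm]
      exact ((st q.1 hq.1 q.2).2 e m).trans_lt hm
    refine hu.continuousOn (Frequently.of_forall fun m => ?_)
    exact ((hc.comp (f := fun p : ℝ × En n => (p.1, p.2 + (1 / 2 : ℝ) ^ m • e)) (by fun_prop)
      fun p hp => ⟨hp.1, mem_univ _⟩).sub hc).const_smul _
  · intro t ht y _ y' _
    set e : En n := EuclideanSpace.single k 1
    have he : ‖e‖ = 1 := by simp [e]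
    have hl : ∀ z, Tendsto (fun m => dqq (φ t) z e m) atTop (𝓝 (pd k (φ t) z)) := fun z => by
      rw [tendsto_iff_norm_sub_tendsto_zero]
      exact squeeze_zero (fun _ => norm_nonneg _) ((st t ht z).2 e)
        (by simpa using hlim.const_mul (4 * K * ‖e‖ * √‖e‖))
    refine le_of_tendsto' ((hl y).sub (hl y')).norm fun m => ?_
    rw [dqq, dqq, ← smul_sub, norm_smul]
    refine (mul_le_mul_of_nonneg_left (H _ t ht y y') (norm_nonneg _)).trans (le_of_eq ?_)
    have e2 : (2 : ℝ) ^ m * (1 / 2) ^ m = 1 := by rw [← mul_pow]; norm_num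
    rw [norm_smul, he, Real.norm_of_nonneg (by positivity), Real.norm_of_nonneg (by positivity)]
    linear_combination (K * √(dist y y')) * e2

end Crest.Agent.N207.P
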